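import Crest.Agent.R195.Rules
import Crest.Agent.R195.Direct

/-!
# Row 195: generated certificates, part 1
-/

set_option autoImplicit false
set_option maxRecDepth 4000

namespace Crest.Agent.R195

theorem A1 : AllG [1] [] :=
  AllG.nil _
theorem F1 : Full (ofL [1]) 1 :=
  full1 1 full_nil A1 (by decide +kernel)
theorem A3 : AllG [2, 1] [] :=
  AllG.nil _
theorem F3 : Full (ofL [2, 1]) 3 :=
  full1 2 full_nil A3 (by decide +kernel)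
theorem t0 : GG [1] [1] [1] :=
  F1.gg (by decide +kernel)
theorem t1 : GG [2, 1] [2, 1] [1, 1, 1] :=
  F3.gg (by decide +kernel)
theorem t2 : GG [3, 1] [3, 1] [2, 1, 1] :=
  GG.sg t0
    t1 (by decide +kernel)
theorem t3 : GG [3, 1, 1] [3, 1, 1] [3, 1, 1] :=
  GG.sg t0
    (t2.var (a' := [2, 1, 1]) (b' := [2, 1, 1]) (c' := [2, 1, 1]) 1 0 (by decide +kernel)) (by decide +kernel)
theorem A5 : AllG [3, 1, 1] [[3, 1, 1]] :=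
  AllG.cons t3 <|
    AllG.nil _
theorem F5 : Full (ofL [3, 1, 1]) 5 :=
  full1 3 full_nil A5 (by decide +kernel)
theorem A6 : AllG [3, 2, 1] [] :=
  AllG.nil _
theorem F6 : Full (ofL [3, 2, 1]) 6 :=
  full2 1 1 F1 full_nil A6 (by decide +kernel)
theorem t4 : GG [3, 1, 1] [3, 1, 1] [1, 1, 1, 1, 1] :=
  F5.gg (by decide +kernel)
theorem t5 : GG [2, 1, 1, 1, 1] [4, 1, 1] [4, 1, 1] :=
  GG.sg t0
    (t4.var (a' := [1, 1, 1, 1, 1]) (b' := [3, 1, 1]) (c' := [3, 1, 1]) 0 4 (by decide +kernel)) (by decide +kernel)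
theorem t6 : GG [3, 1, 1, 1, 1] [4, 1, 1, 1] [4, 1, 1, 1] :=
  GG.sg t0
    (t5.var (a' := [2, 1, 1, 1, 1]) (b' := [3, 1, 1, 1]) (c' := [3, 1, 1, 1]) 3 0 (by decide +kernel)) (by decide +kernel)
theorem t7 : GG [3, 2, 1] [4, 1, 1] [4, 1, 1] :=
  GG.m1 3 3 (t1.var (a' := [2, 1]) (b' := [3]) (c' := [2, 1]) 2 1 (by decide +kernel)) (by decide +kernel)
theorem t8 : GG [4, 1, 1, 1] [4, 2, 1] [4, 1, 1, 1] :=
  GG.sg t0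
    (t7.var (a' := [3, 1, 1, 1]) (b' := [3, 2, 1]) (c' := [3, 1, 1, 1]) 3 2 (by decide +kernel)) (by decide +kernel)
theorem t9 : GG [3, 1, 1] [3, 1, 1] [2, 1, 1, 1] :=
  F5.gg (by decide +kernel)
theorem t10 : GG [4, 1, 1] [4, 1, 1] [3, 1, 1, 1] :=
  GG.sg t0
    t9 (by decide +kernel)
theorem t11 : GG [4, 1, 1, 1] [4, 1, 1, 1] [4, 1, 1, 1] :=
  GG.sg t0
    (t10.var (a' := [3, 1, 1, 1]) (b' := [3, 1, 1, 1]) (c' := [3, 1, 1, 1]) 1 0 (by decide +kernel)) (by decide +kernel)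
theorem t12 : GG [] [] [] :=
  full_nil.gg (by decide +kernel)
theorem t13 : GG [1, 1, 1] [1, 1, 1] [3] :=
  GG.m1 3 0 t12 (by decide +kernel)
theorem t14 : GG [2, 2, 2] [4, 1, 1] [4, 1, 1] :=
  GG.m1 3 3 (t13.var (a' := [1, 1, 1]) (b' := [3]) (c' := [1, 1, 1]) 0 1 (by decide +kernel)) (by decide +kernel)
theorem t15 : GG [3, 2, 2] [4, 1, 1, 1] [4, 1, 1, 1] :=
  GG.sg t0
    (t14.var (a' := [2, 2, 2]) (b' := [3, 1, 1, 1]) (c' := [3, 1, 1, 1]) 3 0 (by decide +kernel)) (by decide +kernel)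
theorem A7 : AllG [4, 1, 1, 1] [[5, 1, 1], [4, 2, 1], [4, 1, 1, 1], [3, 3, 1], [3, 2, 2]] :=
  AllG.cons (t6.var (a' := [4, 1, 1, 1]) (b' := [4, 1, 1, 1]) (c' := [5, 1, 1]) 1 3 (by decide +kernel)) <|
    AllG.cons (t8.var (a' := [4, 1, 1, 1]) (b' := [4, 1, 1, 1]) (c' := [4, 2, 1]) 0 1 (by decide +kernel)) <|
    AllG.cons t11 <|
    AllG.cons (t15.var (a' := [4, 1, 1, 1]) (b' := [4, 1, 1, 1]) (c' := [3, 3, 1]) 1 3 (by decide +kernel)) <|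
    AllG.cons (t15.var (a' := [4, 1, 1, 1]) (b' := [4, 1, 1, 1]) (c' := [3, 2, 2]) 0 3 (by decide +kernel)) <|
    AllG.nil _
theorem F7 : Full (ofL [4, 1, 1, 1]) 7 :=
  full1 4 full_nil A7 (by decide +kernel)
theorem t16 : GG [4, 2, 1, 1] [4, 2, 1, 1] [5, 1, 1, 1] :=
  GG.m1 4 4 t2 (by decide +kernel)
theorem t17 : GG [4, 2, 1, 1] [4, 2, 1, 1] [4, 2, 1, 1] :=
  GG.m1 4 4 t2 (by decide +kernel)
theorem t18 : GG [4, 2, 1, 1] [4, 2, 1, 1] [3, 3, 2] :=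
  special8
theorem A8 : AllG [4, 2, 1, 1] [[5, 1, 1, 1], [4, 2, 1, 1], [3, 3, 2]] :=
  AllG.cons t16 <|
    AllG.cons t17 <|
    AllG.cons t18 <|
    AllG.nil _
theorem F8 : Full (ofL [4, 2, 1, 1]) 8 :=
  full2 1 2 F1 full_nil A8 (by decide +kernel)
theorem A10 : AllG [4, 3, 2, 1] [] :=
  AllG.nil _
theorem F10 : Full (ofL [4, 3, 2, 1]) 10 :=
  full2 2 1 F3 full_nil A10 (by decide +kernel)
theorem t19 : GG [2, 1, 1] [2, 1, 1] [4] :=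
  GG.m1 3 1 t0 (by decide +kernel)
theorem t20 : GG [2, 2, 2, 1] [2, 2, 2, 1] [7] :=
  GG.m1 4 3 t13 (by decide +kernel)
theorem t21 : GG [4, 3, 3, 1] [11] [4, 3, 3, 1] :=
  GG.sg (t19.var (a' := [2, 1, 1]) (b' := [4]) (c' := [2, 1, 1]) 0 1 (by decide +kernel))
    (t20.var (a' := [2, 2, 2, 1]) (b' := [7]) (c' := [2, 2, 2, 1]) 0 1 (by decide +kernel)) (by decide +kernel)
theorem t22 : GG [3, 2, 2, 1] [3, 2, 2, 1] [7, 1] :=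
  GG.m1 4 4 t19 (by decide +kernel)
theorem t23 : GG [4, 3, 3, 1] [10, 1] [4, 3, 3, 1] :=
  GG.sg (t13.var (a' := [1, 1, 1]) (b' := [3]) (c' := [1, 1, 1]) 0 1 (by decide +kernel))
    (t22.var (a' := [3, 2, 2, 1]) (b' := [7, 1]) (c' := [3, 2, 2, 1]) 0 1 (by decide +kernel)) (by decide +kernel)
theorem t24 : GG [3, 2, 2, 1] [3, 2, 2, 1] [6, 2] :=
  GG.m1 4 4 t19 (by decide +kernel)
theorem t25 : GG [4, 3, 3, 1] [9, 2] [4, 3, 3, 1] :=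
  GG.sg (t13.var (a' := [1, 1, 1]) (b' := [3]) (c' := [1, 1, 1]) 0 1 (by decide +kernel))
    (t24.var (a' := [3, 2, 2, 1]) (b' := [6, 2]) (c' := [3, 2, 2, 1]) 0 1 (by decide +kernel)) (by decide +kernel)
theorem t26 : GG [4, 3, 3, 1] [9, 1, 1] [4, 3, 3, 1] :=
  GG.sg (t2.var (a' := [2, 1, 1]) (b' := [2, 1, 1]) (c' := [2, 1, 1]) 1 0 (by decide +kernel))
    (t20.var (a' := [2, 2, 2, 1]) (b' := [7]) (c' := [2, 2, 2, 1]) 0 1 (by decide +kernel)) (by decide +kernel)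
theorem t27 : GG [3, 2, 2, 1] [3, 2, 2, 1] [5, 3] :=
  GG.m1 4 4 t19 (by decide +kernel)
theorem t28 : GG [4, 3, 3, 1] [8, 3] [4, 3, 3, 1] :=
  GG.sg (t13.var (a' := [1, 1, 1]) (b' := [3]) (c' := [1, 1, 1]) 0 1 (by decide +kernel))
    (t27.var (a' := [3, 2, 2, 1]) (b' := [5, 3]) (c' := [3, 2, 2, 1]) 0 1 (by decide +kernel)) (by decide +kernel)
theorem t29 : GG [3, 2, 2] [5, 1, 1] [3, 2, 2] :=
  GG.sg (t13.var (a' := [1, 1, 1]) (b' := [3]) (c' := [1, 1, 1]) 0 1 (by decide +kernel))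
    (t2.var (a' := [2, 1, 1]) (b' := [2, 1, 1]) (c' := [2, 1, 1]) 1 0 (by decide +kernel)) (by decide +kernel)
theorem t30 : GG [4, 3, 3, 1] [4, 3, 3, 1] [8, 2, 1] :=
  GG.m1 4 7 (t29.var (a' := [3, 2, 2]) (b' := [3, 2, 2]) (c' := [5, 1, 1]) 0 1 (by decide +kernel)) (by decide +kernel)
theorem t31 : GG [4, 3, 3, 1] [4, 3, 3, 1] [8, 1, 1, 1] :=
  GG.m1 4 7 (t29.var (a' := [3, 2, 2]) (b' := [3, 2, 2]) (c' := [5, 1, 1]) 0 1 (by decide +kernel)) (by decide +kernel)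
theorem t32 : GG [2, 2, 2, 2] [3, 2, 2, 1] [4, 3, 1] :=
  GG.m1 4 4 (t19.var (a' := [1, 1, 1, 1]) (b' := [2, 1, 1]) (c' := [3, 1]) 2 5 (by decide +kernel)) (by decide +kernel)
theorem t33 : GG [4, 3, 3, 1] [7, 4] [4, 3, 3, 1] :=
  GG.sg (t13.var (a' := [1, 1, 1]) (b' := [3]) (c' := [1, 1, 1]) 0 1 (by decide +kernel))
    (t32.var (a' := [3, 2, 2, 1]) (b' := [4, 4]) (c' := [3, 2, 2, 1]) 2 2 (by decide +kernel)) (by decide +kernel)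
theorem t34 : GG [4, 3, 3, 1] [4, 3, 3, 1] [7, 3, 1] :=
  GG.m1 4 7 (t29.var (a' := [3, 2, 2]) (b' := [3, 2, 2]) (c' := [5, 1, 1]) 0 1 (by decide +kernel)) (by decide +kernel)
theorem t35 : GG [3, 1, 1] [3, 1, 1] [2, 2, 1] :=
  F5.gg (by decide +kernel)
theorem t36 : GG [4, 2, 2] [4, 3, 1] [4, 3, 1] :=
  GG.m1 3 5 (t35.var (a' := [3, 1, 1]) (b' := [3, 2]) (c' := [3, 1, 1]) 2 1 (by decide +kernel)) (by decide +kernel)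
theorem t37 : GG [4, 3, 3, 1] [7, 2, 2] [4, 3, 3, 1] :=
  GG.sg (t13.var (a' := [1, 1, 1]) (b' := [3]) (c' := [1, 1, 1]) 0 1 (by decide +kernel))
    (t36.var (a' := [3, 2, 2, 1]) (b' := [4, 2, 2]) (c' := [3, 2, 2, 1]) 3 2 (by decide +kernel)) (by decide +kernel)
theorem t38 : GG [4, 3, 3, 1] [4, 3, 3, 1] [7, 2, 1, 1] :=
  GG.m1 4 7 (t29.var (a' := [3, 2, 2]) (b' := [3, 2, 2]) (c' := [5, 1, 1]) 0 1 (by decide +kernel)) (by decide +kernel)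
theorem t39 : GG [1, 1] [1, 1] [2] :=
  GG.m1 2 0 t12 (by decide +kernel)
theorem t40 : GG [3, 2] [4, 1] [2, 2, 1] :=
  GG.m1 2 3 (t1.var (a' := [2, 1]) (b' := [3]) (c' := [2, 1]) 2 1 (by decide +kernel)) (by decide +kernel)
theorem t41 : GG [3, 3, 1] [3, 3, 1] [4, 1, 1, 1] :=
  GG.sg t39
    (t40.var (a' := [2, 2, 1]) (b' := [2, 2, 1]) (c' := [2, 1, 1, 1]) 1 1 (by decide +kernel)) (by decide +kernel)
theorem t42 : GG [4, 3, 3, 1] [4, 3, 3, 1] [7, 1, 1, 1, 1] :=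
  GG.m1 4 7 (t41.var (a' := [3, 2, 2]) (b' := [3, 2, 2]) (c' := [4, 1, 1, 1]) 1 0 (by decide +kernel)) (by decide +kernel)
theorem t43 : GG [2, 2, 1] [2, 2, 1] [3, 2] :=
  GG.m1 3 2 t39 (by decide +kernel)
theorem t44 : GG [3, 3, 1] [5, 2] [3, 3, 1] :=
  GG.sg (t39.var (a' := [1, 1]) (b' := [2]) (c' := [1, 1]) 0 1 (by decide +kernel))
    (t43.var (a' := [2, 2, 1]) (b' := [3, 2]) (c' := [2, 2, 1]) 0 1 (by decide +kernel)) (by decide +kernel)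
theorem t45 : GG [4, 3, 3, 1] [4, 3, 3, 1] [6, 5] :=
  GG.m1 4 7 (t44.var (a' := [3, 2, 2]) (b' := [3, 2, 2]) (c' := [5, 2]) 2 1 (by decide +kernel)) (by decide +kernel)
theorem t46 : GG [4, 3, 3, 1] [4, 3, 3, 1] [6, 4, 1] :=
  GG.m1 4 7 (t29.var (a' := [3, 2, 2]) (b' := [3, 2, 2]) (c' := [5, 1, 1]) 0 1 (by decide +kernel)) (by decide +kernel)
theorem t47 : GG [4, 3, 3, 1] [4, 3, 3, 1] [6, 3, 2] :=
  GG.m1 4 7 (t44.var (a' := [3, 2, 2]) (b' := [3, 2, 2]) (c' := [5, 2]) 2 1 (by decide +kernel)) (by decide +kernel)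
theorem t48 : GG [4, 3, 3, 1] [4, 3, 3, 1] [6, 3, 1, 1] :=
  GG.m1 4 7 (t41.var (a' := [3, 2, 2]) (b' := [3, 2, 2]) (c' := [4, 1, 1, 1]) 1 0 (by decide +kernel)) (by decide +kernel)
theorem t49 : GG [3, 2, 2] [4, 2, 1] [3, 3, 1] :=
  GG.m1 3 4 (t2.var (a' := [2, 1, 1]) (b' := [3, 1]) (c' := [3, 1]) 0 4 (by decide +kernel)) (by decide +kernel)
theorem t50 : GG [4, 3, 3, 1] [4, 3, 3, 1] [6, 2, 2, 1] :=
  GG.m1 4 7 (t49.var (a' := [3, 2, 2]) (b' := [3, 2, 2]) (c' := [3, 2, 1, 1]) 3 1 (by decide +kernel)) (by decide +kernel)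
theorem t51 : GG [4, 3, 3, 1] [4, 3, 3, 1] [6, 2, 1, 1, 1] :=
  GG.m1 4 7 (t49.var (a' := [3, 2, 2]) (b' := [3, 2, 2]) (c' := [3, 2, 1, 1]) 3 1 (by decide +kernel)) (by decide +kernel)
theorem t52 : GG [3, 2, 1] [3, 2, 1] [1, 1, 1, 1, 1, 1] :=
  F6.gg (by decide +kernel)
theorem t53 : GG [3, 1, 1, 1, 1, 1] [4, 3, 1] [4, 3, 1] :=
  GG.sg (t39.var (a' := [2]) (b' := [1, 1]) (c' := [1, 1]) 0 4 (by decide +kernel))
    (t52.var (a' := [1, 1, 1, 1, 1, 1]) (b' := [3, 2, 1]) (c' := [3, 2, 1]) 0 4 (by decide +kernel)) (by decide +kernel)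
theorem t54 : GG [4, 3, 3, 1] [4, 3, 3, 1] [6, 1, 1, 1, 1, 1] :=
  GG.sg t13
    (t53.var (a' := [3, 2, 2, 1]) (b' := [3, 2, 2, 1]) (c' := [3, 1, 1, 1, 1, 1]) 3 3 (by decide +kernel)) (by decide +kernel)
theorem t55 : GG [4, 3, 3, 1] [4, 3, 3, 1] [5, 5, 1] :=
  GG.m1 4 7 (t29.var (a' := [3, 2, 2]) (b' := [3, 2, 2]) (c' := [5, 1, 1]) 0 1 (by decide +kernel)) (by decide +kernel)
theorem t56 : GG [4, 3, 3, 1] [4, 3, 3, 1] [5, 4, 2] :=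
  GG.m1 4 7 (t44.var (a' := [3, 2, 2]) (b' := [3, 2, 2]) (c' := [5, 2]) 2 1 (by decide +kernel)) (by decide +kernel)
theorem t57 : GG [4, 3, 3, 1] [4, 3, 3, 1] [5, 4, 1, 1] :=
  GG.m1 4 7 (t41.var (a' := [3, 2, 2]) (b' := [3, 2, 2]) (c' := [4, 1, 1, 1]) 1 0 (by decide +kernel)) (by decide +kernel)
theorem t58 : GG [2, 2] [4] [2, 2] :=
  GG.sg (t39.var (a' := [1, 1]) (b' := [2]) (c' := [1, 1]) 0 1 (by decide +kernel))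
    (t39.var (a' := [1, 1]) (b' := [2]) (c' := [1, 1]) 0 1 (by decide +kernel)) (by decide +kernel)
theorem t59 : GG [3, 3, 1] [3, 3, 1] [4, 3] :=
  GG.m1 3 4 (t58.var (a' := [2, 2]) (b' := [2, 2]) (c' := [4]) 0 1 (by decide +kernel)) (by decide +kernel)
theorem t60 : GG [4, 3, 3, 1] [4, 3, 3, 1] [5, 3, 3] :=
  GG.m1 4 7 (t59.var (a' := [3, 2, 2]) (b' := [3, 2, 2]) (c' := [4, 3]) 1 0 (by decide +kernel)) (by decide +kernel)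
theorem t61 : GG [4, 3, 3, 1] [4, 3, 3, 1] [4, 3, 2, 1, 1] :=
  GG.m1 4 7 (t49.var (a' := [3, 2, 2]) (b' := [3, 2, 2]) (c' := [3, 2, 1, 1]) 3 1 (by decide +kernel)) (by decide +kernel)
theorem t62 : GG [4, 3, 3, 1] [4, 3, 3, 1] [5, 2, 2, 1, 1] :=
  GG.m1 4 7 (t49.var (a' := [3, 2, 2]) (b' := [3, 2, 2]) (c' := [3, 2, 1, 1]) 3 1 (by decide +kernel)) (by decide +kernel)
theorem t63 : GG [4, 3, 3, 1] [4, 3, 3, 1] [4, 4, 1, 1, 1] :=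
  GG.m1 4 7 (t41.var (a' := [3, 2, 2]) (b' := [3, 2, 2]) (c' := [4, 1, 1, 1]) 1 0 (by decide +kernel)) (by decide +kernel)
theorem t64 : GG [3, 3, 3, 2] [4, 3, 3, 1] [4, 3, 3, 1] :=
  GG.m1 4 7 (t59.var (a' := [2, 2, 2, 1]) (b' := [3, 2, 2]) (c' := [3, 3, 1]) 2 4 (by decide +kernel)) (by decide +kernel)
theorem t65 : GG [3, 1] [3, 1] [2, 2] :=
  GG.m1 2 2 (t39.var (a' := [2]) (b' := [2]) (c' := [2]) 1 0 (by decide +kernel)) (by decide +kernel)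
theorem t66 : GG [4, 3] [4, 3] [2, 2, 2, 1] :=
  GG.sg t1
    (t58.var (a' := [2, 2]) (b' := [2, 2]) (c' := [1, 1, 1, 1]) 1 1 (by decide +kernel)) (by decide +kernel)
theorem t67 : GG [4, 3, 3, 1] [4, 4, 2, 1] [4, 3, 3, 1] :=
  GG.sg (t65.var (a' := [2, 1, 1]) (b' := [2, 2]) (c' := [2, 1, 1]) 1 1 (by decide +kernel))
    (t66.var (a' := [2, 2, 2, 1]) (b' := [2, 2, 2, 1]) (c' := [2, 2, 2, 1]) 1 0 (by decide +kernel)) (by decide +kernel)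
theorem t68 : GG [4, 3, 3, 1] [4, 3, 3, 1] [4, 3, 3, 1] :=
  GG.sg (t2.var (a' := [2, 1, 1]) (b' := [2, 1, 1]) (c' := [2, 1, 1]) 1 0 (by decide +kernel))
    (t66.var (a' := [2, 2, 2, 1]) (b' := [2, 2, 2, 1]) (c' := [2, 2, 2, 1]) 1 0 (by decide +kernel)) (by decide +kernel)
theorem A11 : AllG [4, 3, 3, 1] [[11], [10, 1], [9, 2], [9, 1, 1], [8, 3], [8, 2, 1], [8, 1, 1, 1], [7, 4], [7, 3, 1], [7, 2, 2], [7, 2, 1, 1], [7, 1, 1, 1, 1], [6, 5], [6, 4, 1], [6, 3, 2], [6, 3, 1, 1], [6, 2, 2, 1], [6, 2, 1, 1, 1], [6, 1, 1, 1, 1, 1], [5, 5, 1], [5, 4, 2], [5, 4, 1, 1], [5, 3, 3], [5, 3, 2, 1], [5, 3, 1, 1, 1], [5, 2, 2, 2], [5, 2, 2, 1, 1], [4, 4, 3], [4, 4, 2, 1], [4, 3, 3, 1], [4, 3, 2, 2]] :=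
  AllG.cons (t21.var (a' := [4, 3, 3, 1]) (b' := [4, 3, 3, 1]) (c' := [11]) 0 1 (by decide +kernel)) <|
    AllG.cons (t23.var (a' := [4, 3, 3, 1]) (b' := [4, 3, 3, 1]) (c' := [10, 1]) 0 1 (by decide +kernel)) <|
    AllG.cons (t25.var (a' := [4, 3, 3, 1]) (b' := [4, 3, 3, 1]) (c' := [9, 2]) 0 1 (by decide +kernel)) <|
    AllG.cons (t26.var (a' := [4, 3, 3, 1]) (b' := [4, 3, 3, 1]) (c' := [9, 1, 1]) 0 1 (by decide +kernel)) <|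
    AllG.cons (t28.var (a' := [4, 3, 3, 1]) (b' := [4, 3, 3, 1]) (c' := [8, 3]) 0 1 (by decide +kernel)) <|
    AllG.cons t30 <|
    AllG.cons t31 <|
    AllG.cons (t33.var (a' := [4, 3, 3, 1]) (b' := [4, 3, 3, 1]) (c' := [7, 4]) 0 1 (by decide +kernel)) <|
    AllG.cons t34 <|
    AllG.cons (t37.var (a' := [4, 3, 3, 1]) (b' := [4, 3, 3, 1]) (c' := [7, 2, 2]) 0 1 (by decide +kernel)) <|
    AllG.cons t38 <|
    AllG.cons t42 <|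
    AllG.cons t45 <|
    AllG.cons t46 <|
    AllG.cons t47 <|
    AllG.cons t48 <|
    AllG.cons t50 <|
    AllG.cons t51 <|
    AllG.cons t54 <|
    AllG.cons t55 <|
    AllG.cons t56 <|
    AllG.cons t57 <|
    AllG.cons t60 <|
    AllG.cons (t61.var (a' := [4, 3, 3, 1]) (b' := [4, 3, 3, 1]) (c' := [5, 3, 2, 1]) 2 0 (by decide +kernel)) <|
    AllG.cons (t62.var (a' := [4, 3, 3, 1]) (b' := [4, 3, 3, 1]) (c' := [5, 3, 1, 1, 1]) 2 0 (by decide +kernel)) <|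
    AllG.cons (t63.var (a' := [4, 3, 3, 1]) (b' := [4, 3, 3, 1]) (c' := [5, 2, 2, 2]) 2 0 (by decide +kernel)) <|
    AllG.cons t62 <|
    AllG.cons (t64.var (a' := [4, 3, 3, 1]) (b' := [4, 3, 3, 1]) (c' := [4, 4, 3]) 1 3 (by decide +kernel)) <|
    AllG.cons (t67.var (a' := [4, 3, 3, 1]) (b' := [4, 3, 3, 1]) (c' := [4, 4, 2, 1]) 0 1 (by decide +kernel)) <|
    AllG.cons t68 <|
    AllG.cons (t67.var (a' := [4, 3, 3, 1]) (b' := [4, 3, 3, 1]) (c' := [4, 3, 2, 2]) 1 1 (by decide +kernel)) <|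
    AllG.nil _
theorem F11 : Full (ofL [4, 3, 3, 1]) 11 :=
  full0 A11 (by decide +kernel)
theorem t69 : GG [2, 1, 1, 1, 1, 1] [4, 2, 1] [4, 2, 1] :=
  GG.sg t0
    (t52.var (a' := [1, 1, 1, 1, 1, 1]) (b' := [3, 2, 1]) (c' := [3, 2, 1]) 0 4 (by decide +kernel)) (by decide +kernel)
theorem t70 : GG [5, 3, 2, 1, 1] [5, 3, 2, 1, 1] [6, 1, 1, 1, 1, 1, 1] :=
  GG.m1 5 7 (t69.var (a' := [4, 2, 1]) (b' := [4, 2, 1]) (c' := [2, 1, 1, 1, 1, 1]) 0 3 (by decide +kernel)) (by decide +kernel)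
theorem t71 : GG [3, 2, 1] [3, 2, 1] [2, 1, 1, 1, 1] :=
  F6.gg (by decide +kernel)
theorem t72 : GG [3, 1, 1, 1, 1] [4, 2, 1] [4, 2, 1] :=
  GG.sg t0
    (t71.var (a' := [2, 1, 1, 1, 1]) (b' := [3, 2, 1]) (c' := [3, 2, 1]) 0 4 (by decide +kernel)) (by decide +kernel)
theorem t73 : GG [5, 3, 2, 1, 1] [5, 3, 2, 1, 1] [5, 3, 1, 1, 1, 1] :=
  GG.m1 5 7 (t72.var (a' := [4, 2, 1]) (b' := [4, 2, 1]) (c' := [3, 1, 1, 1, 1]) 0 3 (by decide +kernel)) (by decide +kernel)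
theorem t74 : GG [5, 3, 2, 1, 1] [5, 3, 2, 1, 1] [6, 2, 1, 1, 1, 1] :=
  GG.m1 5 7 (t69.var (a' := [4, 2, 1]) (b' := [4, 2, 1]) (c' := [2, 1, 1, 1, 1, 1]) 0 3 (by decide +kernel)) (by decide +kernel)
theorem t75 : GG [3, 3, 1] [4, 2, 1] [4, 2, 1] :=
  GG.m1 3 4 (t65.var (a' := [2, 2]) (b' := [3, 1]) (c' := [2, 1, 1]) 2 5 (by decide +kernel)) (by decide +kernel)
theorem t76 : GG [4, 3, 3, 1, 1] [5, 3, 2, 1, 1] [5, 3, 2, 1, 1] :=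
  GG.m1 5 7 (t75.var (a' := [3, 2, 2]) (b' := [4, 2, 1]) (c' := [3, 2, 1, 1]) 1 1 (by decide +kernel)) (by decide +kernel)
theorem t77 : GG [4, 2, 1] [4, 2, 1] [3, 2, 2] :=
  GG.m1 3 4 t65 (by decide +kernel)
theorem t78 : GG [4, 4, 2, 1, 1] [5, 3, 2, 1, 1] [5, 3, 2, 1, 1] :=
  GG.m1 5 7 (t77.var (a' := [3, 3, 1]) (b' := [4, 2, 1]) (c' := [3, 2, 1, 1]) 2 5 (by decide +kernel)) (by decide +kernel)
theorem t79 : GG [4, 2, 1] [4, 2, 1] [3, 2, 1, 1] :=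
  GG.m1 3 4 t2 (by decide +kernel)
theorem t80 : GG [5, 3, 2, 1, 1] [5, 3, 2, 1, 1] [5, 3, 2, 1, 1] :=
  GG.m1 5 7 t79 (by decide +kernel)
theorem t81 : GG [5, 3, 1] [5, 3, 1] [3, 2, 2, 2] :=
  GG.sg (t58.var (a' := [2, 2]) (b' := [2, 2]) (c' := [1, 1, 1, 1]) 1 1 (by decide +kernel))
    t9 (by decide +kernel)
theorem t82 : GG [4, 3, 3, 2] [5, 3, 2, 1, 1] [5, 3, 2, 1, 1] :=
  GG.sg (t1.var (a' := [1, 1, 1]) (b' := [2, 1]) (c' := [2, 1]) 0 4 (by decide +kernel))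
    (t81.var (a' := [3, 2, 2, 2]) (b' := [3, 2, 2, 1, 1]) (c' := [3, 2, 2, 1, 1]) 1 4 (by decide +kernel)) (by decide +kernel)
theorem A12 : AllG [5, 3, 2, 1, 1] [[7, 1, 1, 1, 1, 1], [6, 2, 2, 1, 1], [6, 2, 1, 1, 1, 1], [5, 3, 3, 1], [5, 3, 2, 2], [5, 3, 2, 1, 1], [4, 4, 3, 1], [4, 3, 3, 2]] :=
  AllG.cons (t70.var (a' := [5, 3, 2, 1, 1]) (b' := [5, 3, 2, 1, 1]) (c' := [7, 1, 1, 1, 1, 1]) 2 0 (by decide +kernel)) <|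
    AllG.cons (t73.var (a' := [5, 3, 2, 1, 1]) (b' := [5, 3, 2, 1, 1]) (c' := [6, 2, 2, 1, 1]) 2 0 (by decide +kernel)) <|
    AllG.cons t74 <|
    AllG.cons (t76.var (a' := [5, 3, 2, 1, 1]) (b' := [5, 3, 2, 1, 1]) (c' := [5, 3, 3, 1]) 1 3 (by decide +kernel)) <|
    AllG.cons (t78.var (a' := [5, 3, 2, 1, 1]) (b' := [5, 3, 2, 1, 1]) (c' := [5, 3, 2, 2]) 1 3 (by decide +kernel)) <|
    AllG.cons t80 <|
    AllG.cons (t82.var (a' := [5, 3, 2, 1, 1]) (b' := [5, 3, 2, 1, 1]) (c' := [4, 4, 3, 1]) 1 3 (by decide +kernel)) <|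
    AllG.cons (t82.var (a' := [5, 3, 2, 1, 1]) (b' := [5, 3, 2, 1, 1]) (c' := [4, 3, 3, 2]) 0 3 (by decide +kernel)) <|
    AllG.nil _
theorem F12 : Full (ofL [5, 3, 2, 1, 1]) 12 :=
  full2 2 2 F3 full_nil A12 (by decide +kernel)
theorem t83 : GG [3, 3, 1, 1] [3, 3, 1, 1] [8] :=
  GG.m1 4 4 (t58.var (a' := [2, 2]) (b' := [2, 2]) (c' := [4]) 0 1 (by decide +kernel)) (by decide +kernel)
theorem t84 : GG [5, 3, 3, 1, 1] [5, 3, 3, 1, 1] [13] :=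
  GG.m1 5 8 (t83.var (a' := [4, 2, 2]) (b' := [4, 2, 2]) (c' := [8]) 1 0 (by decide +kernel)) (by decide +kernel)
theorem t85 : GG [5, 3, 3, 1, 1] [5, 3, 3, 1, 1] [12, 1] :=
  GG.m1 5 8 (t83.var (a' := [4, 2, 2]) (b' := [4, 2, 2]) (c' := [8]) 1 0 (by decide +kernel)) (by decide +kernel)
theorem t86 : GG [5, 3, 3, 1, 1] [5, 3, 3, 1, 1] [11, 2] :=
  GG.m1 5 8 (t83.var (a' := [4, 2, 2]) (b' := [4, 2, 2]) (c' := [8]) 1 0 (by decide +kernel)) (by decide +kernel)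
theorem t87 : GG [4, 2, 2] [6, 1, 1] [4, 2, 2] :=
  GG.sg t0
    t29 (by decide +kernel)
theorem t88 : GG [5, 3, 3, 1, 1] [5, 3, 3, 1, 1] [11, 1, 1] :=
  GG.m1 5 8 (t87.var (a' := [4, 2, 2]) (b' := [4, 2, 2]) (c' := [6, 1, 1]) 0 1 (by decide +kernel)) (by decide +kernel)
theorem t89 : GG [5, 3, 3, 1, 1] [5, 3, 3, 1, 1] [10, 3] :=
  GG.m1 5 8 (t83.var (a' := [4, 2, 2]) (b' := [4, 2, 2]) (c' := [8]) 1 0 (by decide +kernel)) (by decide +kernel)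
theorem t90 : GG [5, 3, 3, 1, 1] [5, 3, 3, 1, 1] [10, 2, 1] :=
  GG.m1 5 8 (t87.var (a' := [4, 2, 2]) (b' := [4, 2, 2]) (c' := [6, 1, 1]) 0 1 (by decide +kernel)) (by decide +kernel)
theorem t91 : GG [5, 3, 3, 1, 1] [5, 3, 3, 1, 1] [10, 1, 1, 1] :=
  GG.m1 5 8 (t87.var (a' := [4, 2, 2]) (b' := [4, 2, 2]) (c' := [6, 1, 1]) 0 1 (by decide +kernel)) (by decide +kernel)
theorem t92 : GG [5, 3, 3, 1, 1] [5, 3, 3, 1, 1] [9, 4] :=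
  GG.m1 5 8 (t83.var (a' := [4, 2, 2]) (b' := [4, 2, 2]) (c' := [8]) 1 0 (by decide +kernel)) (by decide +kernel)
theorem t93 : GG [5, 3, 3, 1, 1] [5, 3, 3, 1, 1] [9, 3, 1] :=
  GG.m1 5 8 (t87.var (a' := [4, 2, 2]) (b' := [4, 2, 2]) (c' := [6, 1, 1]) 0 1 (by decide +kernel)) (by decide +kernel)
theorem t94 : GG [4, 2, 2] [4, 2, 2] [4, 2, 2] :=
  GG.sg (t2.var (a' := [2, 1, 1]) (b' := [2, 1, 1]) (c' := [2, 1, 1]) 1 0 (by decide +kernel))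
    (t2.var (a' := [2, 1, 1]) (b' := [2, 1, 1]) (c' := [2, 1, 1]) 1 0 (by decide +kernel)) (by decide +kernel)
theorem t95 : GG [5, 3, 3, 1, 1] [5, 3, 3, 1, 1] [9, 2, 2] :=
  GG.m1 5 8 t94 (by decide +kernel)
theorem t96 : GG [5, 3, 3, 1, 1] [5, 3, 3, 1, 1] [9, 2, 1, 1] :=
  GG.m1 5 8 (t87.var (a' := [4, 2, 2]) (b' := [4, 2, 2]) (c' := [6, 1, 1]) 0 1 (by decide +kernel)) (by decide +kernel)
theorem t97 : GG [3, 3, 1, 1] [3, 3, 1, 1] [4, 1, 1, 1, 1] :=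
  GG.m1 4 4 (t58.var (a' := [2, 2]) (b' := [2, 2]) (c' := [1, 1, 1, 1]) 1 1 (by decide +kernel)) (by decide +kernel)
theorem t98 : GG [5, 3, 3, 1, 1] [5, 3, 3, 1, 1] [9, 1, 1, 1, 1] :=
  GG.m1 5 8 (t97.var (a' := [4, 2, 2]) (b' := [4, 2, 2]) (c' := [4, 1, 1, 1, 1]) 1 0 (by decide +kernel)) (by decide +kernel)
theorem t99 : GG [5, 3, 3, 1, 1] [5, 3, 3, 1, 1] [8, 5] :=
  GG.m1 5 8 (t83.var (a' := [4, 2, 2]) (b' := [4, 2, 2]) (c' := [8]) 1 0 (by decide +kernel)) (by decide +kernel)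
theorem t100 : GG [5, 3, 3, 1, 1] [5, 3, 3, 1, 1] [8, 4, 1] :=
  GG.m1 5 8 (t87.var (a' := [4, 2, 2]) (b' := [4, 2, 2]) (c' := [6, 1, 1]) 0 1 (by decide +kernel)) (by decide +kernel)
theorem t101 : GG [5, 3, 3, 1, 1] [5, 3, 3, 1, 1] [8, 3, 2] :=
  GG.m1 5 8 t94 (by decide +kernel)
theorem t102 : GG [5, 3, 3, 1, 1] [5, 3, 3, 1, 1] [8, 3, 1, 1] :=
  GG.m1 5 8 (t87.var (a' := [4, 2, 2]) (b' := [4, 2, 2]) (c' := [6, 1, 1]) 0 1 (by decide +kernel)) (by decide +kernel)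
theorem t103 : GG [5, 3, 3, 1, 1] [5, 3, 3, 1, 1] [8, 2, 2, 1] :=
  GG.m1 5 8 t94 (by decide +kernel)
theorem t104 : GG [5, 3, 3, 1, 1] [5, 3, 3, 1, 1] [8, 2, 1, 1, 1] :=
  GG.m1 5 8 (t97.var (a' := [4, 2, 2]) (b' := [4, 2, 2]) (c' := [4, 1, 1, 1, 1]) 1 0 (by decide +kernel)) (by decide +kernel)
theorem t105 : GG [5, 3, 3, 1, 1] [5, 3, 3, 1, 1] [8, 1, 1, 1, 1, 1] :=
  GG.m1 5 8 (t97.var (a' := [4, 2, 2]) (b' := [4, 2, 2]) (c' := [4, 1, 1, 1, 1]) 1 0 (by decide +kernel)) (by decide +kernel)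
theorem t106 : GG [3, 3, 1, 1] [3, 3, 1, 1] [6, 2] :=
  GG.m1 4 4 (t58.var (a' := [2, 2]) (b' := [2, 2]) (c' := [4]) 0 1 (by decide +kernel)) (by decide +kernel)
theorem t107 : GG [5, 3, 3, 1, 1] [5, 3, 3, 1, 1] [7, 6] :=
  GG.m1 5 8 (t106.var (a' := [4, 2, 2]) (b' := [4, 2, 2]) (c' := [6, 2]) 1 0 (by decide +kernel)) (by decide +kernel)
theorem t108 : GG [5, 3, 3, 1, 1] [5, 3, 3, 1, 1] [7, 5, 1] :=
  GG.m1 5 8 (t87.var (a' := [4, 2, 2]) (b' := [4, 2, 2]) (c' := [6, 1, 1]) 0 1 (by decide +kernel)) (by decide +kernel)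
theorem t109 : GG [5, 3, 3, 1, 1] [5, 3, 3, 1, 1] [7, 4, 2] :=
  GG.m1 5 8 t94 (by decide +kernel)
theorem t110 : GG [5, 3, 3, 1, 1] [5, 3, 3, 1, 1] [7, 4, 1, 1] :=
  GG.m1 5 8 (t87.var (a' := [4, 2, 2]) (b' := [4, 2, 2]) (c' := [6, 1, 1]) 0 1 (by decide +kernel)) (by decide +kernel)
theorem t111 : GG [4, 2, 2] [4, 3, 1] [4, 2, 2] :=
  GG.sg (t65.var (a' := [2, 1, 1]) (b' := [2, 2]) (c' := [2, 1, 1]) 1 1 (by decide +kernel))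
    (t2.var (a' := [2, 1, 1]) (b' := [2, 1, 1]) (c' := [2, 1, 1]) 1 0 (by decide +kernel)) (by decide +kernel)
theorem t112 : GG [5, 3, 3, 1, 1] [5, 3, 3, 1, 1] [7, 3, 3] :=
  GG.m1 5 8 (t111.var (a' := [4, 2, 2]) (b' := [4, 2, 2]) (c' := [4, 3, 1]) 0 1 (by decide +kernel)) (by decide +kernel)
theorem t113 : GG [5, 3, 3, 1, 1] [5, 3, 3, 1, 1] [7, 3, 2, 1] :=
  GG.m1 5 8 t94 (by decide +kernel)
theorem t114 : GG [5, 3, 3, 1, 1] [5, 3, 3, 1, 1] [7, 3, 1, 1, 1] :=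
  GG.m1 5 8 (t97.var (a' := [4, 2, 2]) (b' := [4, 2, 2]) (c' := [4, 1, 1, 1, 1]) 1 0 (by decide +kernel)) (by decide +kernel)
theorem t115 : GG [5, 3, 3, 1, 1] [5, 3, 3, 1, 1] [7, 2, 2, 2] :=
  GG.m1 5 8 t94 (by decide +kernel)
theorem t116 : GG [4, 2, 2] [6, 1, 1] [3, 3, 1, 1] :=
  GG.m1 3 5 (t4.var (a' := [3, 1, 1]) (b' := [5]) (c' := [3, 1, 1]) 2 1 (by decide +kernel)) (by decide +kernel)
theorem t117 : GG [5, 3, 3, 1, 1] [5, 3, 3, 1, 1] [5, 3, 1, 1, 1, 1, 1] :=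
  GG.m1 5 8 (t116.var (a' := [4, 2, 2]) (b' := [4, 2, 2]) (c' := [3, 1, 1, 1, 1, 1]) 3 1 (by decide +kernel)) (by decide +kernel)
theorem t118 : GG [5, 3, 3, 1, 1] [5, 3, 3, 1, 1] [6, 2, 1, 1, 1, 1, 1] :=
  GG.m1 5 8 (t116.var (a' := [4, 2, 2]) (b' := [4, 2, 2]) (c' := [3, 1, 1, 1, 1, 1]) 3 1 (by decide +kernel)) (by decide +kernel)
theorem t119 : GG [5, 3, 3, 1, 1] [5, 3, 3, 1, 1] [7, 1, 1, 1, 1, 1, 1] :=
  GG.m1 5 8 (t116.var (a' := [4, 2, 2]) (b' := [4, 2, 2]) (c' := [3, 1, 1, 1, 1, 1]) 3 1 (by decide +kernel)) (by decide +kernel)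
theorem t120 : GG [5, 3, 3, 1, 1] [5, 3, 3, 1, 1] [6, 6, 1] :=
  GG.m1 5 8 (t87.var (a' := [4, 2, 2]) (b' := [4, 2, 2]) (c' := [6, 1, 1]) 0 1 (by decide +kernel)) (by decide +kernel)
theorem t121 : GG [5, 3, 3, 1, 1] [5, 3, 3, 1, 1] [6, 5, 2] :=
  GG.m1 5 8 (t106.var (a' := [4, 2, 2]) (b' := [4, 2, 2]) (c' := [6, 2]) 1 0 (by decide +kernel)) (by decide +kernel)
theorem t122 : GG [5, 3, 3, 1, 1] [5, 3, 3, 1, 1] [6, 5, 1, 1] :=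
  GG.m1 5 8 (t87.var (a' := [4, 2, 2]) (b' := [4, 2, 2]) (c' := [6, 1, 1]) 0 1 (by decide +kernel)) (by decide +kernel)
theorem t123 : GG [5, 3, 3, 1, 1] [5, 3, 3, 1, 1] [6, 4, 3] :=
  GG.m1 5 8 (t111.var (a' := [4, 2, 2]) (b' := [4, 2, 2]) (c' := [4, 3, 1]) 0 1 (by decide +kernel)) (by decide +kernel)
theorem t124 : GG [5, 3, 3, 1, 1] [5, 3, 3, 1, 1] [6, 4, 2, 1] :=
  GG.m1 5 8 t94 (by decide +kernel)
theorem t125 : GG [5, 3, 3, 1, 1] [5, 3, 3, 1, 1] [6, 4, 1, 1, 1] :=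
  GG.m1 5 8 (t97.var (a' := [4, 2, 2]) (b' := [4, 2, 2]) (c' := [4, 1, 1, 1, 1]) 1 0 (by decide +kernel)) (by decide +kernel)
theorem t126 : GG [5, 3, 3, 1, 1] [5, 3, 3, 1, 1] [6, 3, 3, 1] :=
  GG.m1 5 8 (t111.var (a' := [4, 2, 2]) (b' := [4, 2, 2]) (c' := [4, 3, 1]) 0 1 (by decide +kernel)) (by decide +kernel)
theorem t127 : GG [5, 3, 3, 1, 1] [5, 3, 3, 1, 1] [6, 3, 2, 2] :=
  GG.m1 5 8 t94 (by decide +kernel)
theorem t128 : GG [4, 2, 2] [5, 2, 1] [3, 3, 1, 1] :=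
  GG.m1 3 5 (t9.var (a' := [3, 1, 1]) (b' := [4, 1]) (c' := [3, 1, 1]) 2 1 (by decide +kernel)) (by decide +kernel)
theorem t129 : GG [5, 3, 3, 1, 1] [5, 3, 3, 1, 1] [5, 3, 2, 1, 1, 1] :=
  GG.m1 5 8 (t128.var (a' := [4, 2, 2]) (b' := [4, 2, 2]) (c' := [3, 2, 1, 1, 1]) 3 1 (by decide +kernel)) (by decide +kernel)
theorem t130 : GG [5, 3, 3, 1, 1] [5, 3, 3, 1, 1] [6, 2, 2, 1, 1, 1] :=
  GG.m1 5 8 (t128.var (a' := [4, 2, 2]) (b' := [4, 2, 2]) (c' := [3, 2, 1, 1, 1]) 3 1 (by decide +kernel)) (by decide +kernel)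
theorem t131 : GG [5, 3, 3, 1, 1] [5, 3, 3, 1, 1] [5, 4, 1, 1, 1, 1] :=
  GG.m1 5 8 (t97.var (a' := [4, 2, 2]) (b' := [4, 2, 2]) (c' := [4, 1, 1, 1, 1]) 1 0 (by decide +kernel)) (by decide +kernel)
theorem t132 : GG [3, 3, 1, 1] [3, 3, 1, 1] [5, 3] :=
  GG.m1 4 4 (t58.var (a' := [2, 2]) (b' := [2, 2]) (c' := [4]) 0 1 (by decide +kernel)) (by decide +kernel)
theorem t133 : GG [3, 3, 3, 2, 2] [5, 3, 3, 1, 1] [5, 3, 3, 1, 1] :=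
  GG.m1 5 8 (t132.var (a' := [2, 2, 2, 1, 1]) (b' := [4, 2, 2]) (c' := [3, 3, 1, 1]) 2 4 (by decide +kernel)) (by decide +kernel)
theorem t134 : GG [4, 2, 2] [5, 2, 1] [4, 2, 2] :=
  GG.sg (t13.var (a' := [1, 1, 1]) (b' := [3]) (c' := [1, 1, 1]) 0 1 (by decide +kernel))
    (t35.var (a' := [3, 1, 1]) (b' := [2, 2, 1]) (c' := [3, 1, 1]) 0 1 (by decide +kernel)) (by decide +kernel)
theorem t135 : GG [4, 3, 2, 2, 2] [5, 3, 3, 1, 1] [5, 3, 3, 1, 1] :=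
  GG.m1 5 8 (t134.var (a' := [3, 2, 1, 1, 1]) (b' := [4, 2, 2]) (c' := [3, 3, 1, 1]) 1 3 (by decide +kernel)) (by decide +kernel)
theorem t136 : GG [3, 3, 1, 1] [3, 3, 1, 1] [5, 1, 1, 1] :=
  GG.m1 4 4 (t58.var (a' := [2, 2]) (b' := [2, 2]) (c' := [1, 1, 1, 1]) 1 1 (by decide +kernel)) (by decide +kernel)
theorem t137 : GG [5, 2, 2, 2, 2] [5, 3, 3, 1, 1] [5, 3, 3, 1, 1] :=
  GG.m1 5 8 (t136.var (a' := [4, 1, 1, 1, 1]) (b' := [4, 2, 2]) (c' := [3, 3, 1, 1]) 2 4 (by decide +kernel)) (by decide +kernel)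
theorem t138 : GG [2, 2, 2, 2] [3, 3, 1, 1] [4, 2, 2] :=
  GG.m1 4 4 (t58.var (a' := [1, 1, 1, 1]) (b' := [2, 2]) (c' := [2, 2]) 1 2 (by decide +kernel)) (by decide +kernel)
theorem t139 : GG [3, 3, 3, 3, 1] [5, 3, 3, 1, 1] [5, 3, 3, 1, 1] :=
  GG.m1 5 8 (t138.var (a' := [2, 2, 2, 2]) (b' := [4, 2, 2]) (c' := [3, 3, 1, 1]) 0 1 (by decide +kernel)) (by decide +kernel)
theorem t140 : GG [4, 3, 3, 2, 1] [5, 3, 3, 1, 1] [5, 3, 3, 1, 1] :=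
  GG.m1 5 8 (t111.var (a' := [3, 2, 2, 1]) (b' := [4, 2, 2]) (c' := [3, 3, 1, 1]) 1 3 (by decide +kernel)) (by decide +kernel)
theorem t141 : GG [4, 4, 2, 2, 1] [5, 3, 3, 1, 1] [5, 3, 3, 1, 1] :=
  GG.m1 5 8 (t94.var (a' := [3, 3, 1, 1]) (b' := [4, 2, 2]) (c' := [3, 3, 1, 1]) 1 1 (by decide +kernel)) (by decide +kernel)
theorem t142 : GG [4, 2, 2] [4, 2, 2] [4, 2, 1, 1] :=
  GG.sg t0
    (t49.var (a' := [3, 2, 2]) (b' := [3, 2, 2]) (c' := [3, 2, 1, 1]) 3 1 (by decide +kernel)) (by decide +kernel)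
theorem t143 : GG [5, 3, 2, 2, 1] [5, 3, 3, 1, 1] [5, 3, 3, 1, 1] :=
  GG.m1 5 8 (t142.var (a' := [4, 2, 1, 1]) (b' := [4, 2, 2]) (c' := [3, 3, 1, 1]) 2 5 (by decide +kernel)) (by decide +kernel)
theorem t144 : GG [5, 3, 3, 1, 1] [5, 3, 3, 2] [5, 3, 3, 1, 1] :=
  GG.sg (t2.var (a' := [2, 1, 1]) (b' := [2, 1, 1]) (c' := [2, 1, 1]) 1 0 (by decide +kernel))
    (t81.var (a' := [3, 2, 2, 1, 1]) (b' := [3, 2, 2, 2]) (c' := [3, 2, 2, 1, 1]) 1 1 (by decide +kernel)) (by decide +kernel)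
theorem t145 : GG [5, 3, 3, 1] [5, 3, 3, 1] [4, 3, 3, 1, 1] :=
  GG.sg t0
    (t60.var (a' := [4, 3, 3, 1]) (b' := [4, 3, 3, 1]) (c' := [3, 3, 3, 1, 1]) 2 0 (by decide +kernel)) (by decide +kernel)
theorem t146 : GG [5, 3, 3, 1, 1] [5, 3, 3, 1, 1] [5, 3, 3, 1, 1] :=
  GG.sg t0
    (t145.var (a' := [4, 3, 3, 1, 1]) (b' := [4, 3, 3, 1, 1]) (c' := [4, 3, 3, 1, 1]) 1 0 (by decide +kernel)) (by decide +kernel)
theorem t147 : GG [3, 3, 3, 3] [5, 3, 3, 1] [5, 3, 3, 1] :=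
  GG.m1 4 8 (t138.var (a' := [2, 2, 2, 2]) (b' := [4, 2, 2]) (c' := [3, 3, 1, 1]) 0 1 (by decide +kernel)) (by decide +kernel)
theorem t148 : GG [4, 3, 3, 3] [5, 3, 3, 1, 1] [5, 3, 3, 1, 1] :=
  GG.sg t0
    (t147.var (a' := [3, 3, 3, 3]) (b' := [4, 3, 3, 1, 1]) (c' := [4, 3, 3, 1, 1]) 3 0 (by decide +kernel)) (by decide +kernel)
theorem t149 : GG [5, 3, 3, 1, 1] [5, 3, 3, 1, 1] [4, 4, 3, 2] :=
  special13
theorem A13 : AllG [5, 3, 3, 1, 1] [[13], [12, 1], [11, 2], [11, 1, 1], [10, 3], [10, 2, 1], [10, 1, 1, 1], [9, 4], [9, 3, 1], [9, 2, 2], [9, 2, 1, 1], [9, 1, 1, 1, 1], [8, 5], [8, 4, 1], [8, 3, 2], [8, 3, 1, 1], [8, 2, 2, 1], [8, 2, 1, 1, 1], [8, 1, 1, 1, 1, 1], [7, 6], [7, 5, 1], [7, 4, 2], [7, 4, 1, 1], [7, 3, 3], [7, 3, 2, 1], [7, 3, 1, 1, 1], [7, 2, 2, 2], [7, 2, 2, 1, 1], [7, 2, 1, 1, 1, 1], [7, 1, 1, 1, 1, 1, 1],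 [6, 6, 1], [6, 5, 2], [6, 5, 1, 1], [6, 4, 3], [6, 4, 2, 1], [6, 4, 1, 1, 1], [6, 3, 3, 1], [6, 3, 2, 2], [6, 3, 2, 1, 1], [6, 3, 1, 1, 1, 1], [6, 2, 2, 2, 1], [6, 2, 2, 1, 1, 1], [5, 5, 3], [5, 5, 2, 1], [5, 5, 1, 1, 1], [5, 4, 4], [5, 4, 3, 1], [5, 4, 2, 2], [5, 4, 2, 1, 1], [5, 3, 3, 2], [5, 3, 3, 1, 1], [5, 3, 2, 2, 1], [5, 2, 2, 2, 2], [4, 4, 4, 1], [4, 4, 3, 2], [4, 3, 3, 3]] :=
  AllG.cons t84 <|
    AllG.cons t85 <|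
    AllG.cons t86 <|
    AllG.cons t88 <|
    AllG.cons t89 <|
    AllG.cons t90 <|
    AllG.cons t91 <|
    AllG.cons t92 <|
    AllG.cons t93 <|
    AllG.cons t95 <|
    AllG.cons t96 <|
    AllG.cons t98 <|
    AllG.cons t99 <|
    AllG.cons t100 <|
    AllG.cons t101 <|
    AllG.cons t102 <|
    AllG.cons t103 <|
    AllG.cons t104 <|
    AllG.cons t105 <|
    AllG.cons t107 <|
    AllG.cons t108 <|
    AllG.cons t109 <|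
    AllG.cons t110 <|
    AllG.cons t112 <|
    AllG.cons t113 <|
    AllG.cons t114 <|
    AllG.cons t115 <|
    AllG.cons (t117.var (a' := [5, 3, 3, 1, 1]) (b' := [5, 3, 3, 1, 1]) (c' := [7, 2, 2, 1, 1]) 2 0 (by decide +kernel)) <|
    AllG.cons (t118.var (a' := [5, 3, 3, 1, 1]) (b' := [5, 3, 3, 1, 1]) (c' := [7, 2, 1, 1, 1, 1]) 2 0 (by decide +kernel)) <|
    AllG.cons t119 <|
    AllG.cons t120 <|
    AllG.cons t121 <|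
    AllG.cons t122 <|
    AllG.cons t123 <|
    AllG.cons t124 <|
    AllG.cons t125 <|
    AllG.cons t126 <|
    AllG.cons t127 <|
    AllG.cons (t129.var (a' := [5, 3, 3, 1, 1]) (b' := [5, 3, 3, 1, 1]) (c' := [6, 3, 2, 1, 1]) 2 0 (by decide +kernel)) <|
    AllG.cons (t130.var (a' := [5, 3, 3, 1, 1]) (b' := [5, 3, 3, 1, 1]) (c' := [6, 3, 1, 1, 1, 1]) 2 0 (by decide +kernel)) <|
    AllG.cons (t131.var (a' := [5, 3, 3, 1, 1]) (b' := [5, 3, 3, 1, 1]) (c' := [6, 2, 2, 2, 1]) 2 0 (by decide +kernel)) <|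
    AllG.cons t130 <|
    AllG.cons (t133.var (a' := [5, 3, 3, 1, 1]) (b' := [5, 3, 3, 1, 1]) (c' := [5, 5, 3]) 1 3 (by decide +kernel)) <|
    AllG.cons (t135.var (a' := [5, 3, 3, 1, 1]) (b' := [5, 3, 3, 1, 1]) (c' := [5, 5, 2, 1]) 1 3 (by decide +kernel)) <|
    AllG.cons (t137.var (a' := [5, 3, 3, 1, 1]) (b' := [5, 3, 3, 1, 1]) (c' := [5, 5, 1, 1, 1]) 1 3 (by decide +kernel)) <|
    AllG.cons (t139.var (a' := [5, 3, 3, 1, 1]) (b' := [5, 3, 3, 1, 1]) (c' := [5, 4, 4]) 1 3 (by decide +kernel)) <|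
    AllG.cons (t140.var (a' := [5, 3, 3, 1, 1]) (b' := [5, 3, 3, 1, 1]) (c' := [5, 4, 3, 1]) 1 3 (by decide +kernel)) <|
    AllG.cons (t141.var (a' := [5, 3, 3, 1, 1]) (b' := [5, 3, 3, 1, 1]) (c' := [5, 4, 2, 2]) 1 3 (by decide +kernel)) <|
    AllG.cons (t143.var (a' := [5, 3, 3, 1, 1]) (b' := [5, 3, 3, 1, 1]) (c' := [5, 4, 2, 1, 1]) 1 3 (by decide +kernel)) <|
    AllG.cons (t144.var (a' := [5, 3, 3, 1, 1]) (b' := [5, 3, 3, 1, 1]) (c' := [5, 3, 3, 2]) 0 1 (by decide +kernel)) <|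
    AllG.cons t146 <|
    AllG.cons (t143.var (a' := [5, 3, 3, 1, 1]) (b' := [5, 3, 3, 1, 1]) (c' := [5, 3, 2, 2, 1]) 0 3 (by decide +kernel)) <|
    AllG.cons (t137.var (a' := [5, 3, 3, 1, 1]) (b' := [5, 3, 3, 1, 1]) (c' := [5, 2, 2, 2, 2]) 0 3 (by decide +kernel)) <|
    AllG.cons (t148.var (a' := [5, 3, 3, 1, 1]) (b' := [5, 3, 3, 1, 1]) (c' := [4, 4, 4, 1]) 1 3 (by decide +kernel)) <|
    AllG.cons t149 <|
    AllG.cons (t148.var (a' := [5, 3, 3, 1, 1]) (b' := [5, 3, 3, 1, 1]) (c' := [4, 3, 3, 3]) 0 3 (by decide +kernel)) <|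
    AllG.nil _
theorem F13 : Full (ofL [5, 3, 3, 1, 1]) 13 :=
  full0 A13 (by decide +kernel)

end Crest.Agent.R195
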