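import Crest.Agent.R195.Cert1

/-!
# Row 195: generated certificates, part 2
-/

set_option autoImplicit false
set_option maxRecDepth 4000

namespace Crest.Agent.R195

theorem t150 : GG [5, 4, 1] [5, 4, 1] [4, 2, 2, 2] :=
  GG.m1 3 7 t66 (by decide +kernel)
theorem t151 : GG [5, 3, 3, 3] [5, 4, 2, 2, 1] [5, 4, 2, 2, 1] :=
  GG.sg (t58.var (a' := [1, 1, 1, 1]) (b' := [2, 2]) (c' := [2, 2]) 1 2 (by decide +kernel))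
    (t150.var (a' := [4, 2, 2, 2]) (b' := [3, 2, 2, 2, 1]) (c' := [3, 2, 2, 2, 1]) 1 4 (by decide +kernel)) (by decide +kernel)
theorem t152 : GG [3, 2, 1] [3, 2, 1] [2, 2, 1, 1] :=
  F6.gg (by decide +kernel)
theorem t153 : GG [5, 4, 1] [5, 4, 1] [3, 3, 2, 2] :=
  GG.sg (t58.var (a' := [2, 2]) (b' := [2, 2]) (c' := [1, 1, 1, 1]) 1 1 (by decide +kernel))
    t152 (by decide +kernel)
theorem t154 : GG [4, 4, 3, 3] [5, 4, 2, 2, 1] [5, 4, 2, 2, 1] :=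
  GG.sg (t58.var (a' := [1, 1, 1, 1]) (b' := [2, 2]) (c' := [2, 2]) 1 2 (by decide +kernel))
    (t153.var (a' := [3, 3, 2, 2]) (b' := [3, 2, 2, 2, 1]) (c' := [3, 2, 2, 2, 1]) 1 4 (by decide +kernel)) (by decide +kernel)
theorem A14 : AllG [5, 4, 2, 2, 1] [[5, 3, 3, 3], [4, 4, 4, 2], [4, 4, 3, 3]] :=
  AllG.cons (t151.var (a' := [5, 4, 2, 2, 1]) (b' := [5, 4, 2, 2, 1]) (c' := [5, 3, 3, 3]) 0 3 (by decide +kernel)) <|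
    AllG.cons (t154.var (a' := [5, 4, 2, 2, 1]) (b' := [5, 4, 2, 2, 1]) (c' := [4, 4, 4, 2]) 1 3 (by decide +kernel)) <|
    AllG.cons (t154.var (a' := [5, 4, 2, 2, 1]) (b' := [5, 4, 2, 2, 1]) (c' := [4, 4, 3, 3]) 0 3 (by decide +kernel)) <|
    AllG.nil _
theorem F14 : Full (ofL [5, 4, 2, 2, 1]) 14 :=
  full2 3 1 F5 full_nil A14 (by decide +kernel)
theorem t155 : GG [4, 3] [5, 2] [3, 2, 1, 1] :=
  GG.sg (t39.var (a' := [1, 1]) (b' := [2]) (c' := [1, 1]) 0 1 (by decide +kernel))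
    (t40.var (a' := [3, 2]) (b' := [3, 2]) (c' := [2, 1, 1, 1]) 3 1 (by decide +kernel)) (by decide +kernel)
theorem t156 : GG [4, 4] [5, 3] [3, 2, 2, 1] :=
  GG.sg (t65.var (a' := [2, 2]) (b' := [3, 1]) (c' := [2, 1, 1]) 2 5 (by decide +kernel))
    (t58.var (a' := [2, 2]) (b' := [2, 2]) (c' := [1, 1, 1, 1]) 1 1 (by decide +kernel)) (by decide +kernel)
theorem t157 : GG [4, 4, 4, 3] [5, 4, 3, 2, 1] [5, 4, 3, 2, 1] :=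
  GG.sg (t155.var (a' := [2, 2, 2, 1]) (b' := [3, 2, 1, 1]) (c' := [2, 2, 1, 1, 1]) 1 1 (by decide +kernel))
    (t156.var (a' := [2, 2, 2, 2]) (b' := [2, 2, 2, 1, 1]) (c' := [3, 2, 2, 1]) 1 0 (by decide +kernel)) (by decide +kernel)
theorem A15 : AllG [5, 4, 3, 2, 1] [[4, 4, 4, 3]] :=
  AllG.cons (t157.var (a' := [5, 4, 3, 2, 1]) (b' := [5, 4, 3, 2, 1]) (c' := [4, 4, 4, 3]) 0 3 (by decide +kernel)) <|
    AllG.nil _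
theorem F15 : Full (ofL [5, 4, 3, 2, 1]) 15 :=
  full2 3 1 F6 F1 A15 (by decide +kernel)
theorem t158 : GG [4, 2, 1, 1] [4, 2, 1, 1] [1, 1, 1, 1, 1, 1, 1, 1] :=
  F8.gg (by decide +kernel)
theorem t159 : GG [3, 1, 1, 1, 1, 1, 1, 1] [5, 3, 1, 1] [5, 3, 1, 1] :=
  GG.sg (t39.var (a' := [2]) (b' := [1, 1]) (c' := [1, 1]) 0 4 (by decide +kernel))
    (t158.var (a' := [1, 1, 1, 1, 1, 1, 1, 1]) (b' := [4, 2, 1, 1]) (c' := [4, 2, 1, 1]) 0 4 (by decide +kernel)) (by decide +kernel)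
theorem t160 : GG [6, 4, 2, 2, 1, 1] [6, 4, 2, 2, 1, 1] [8, 1, 1, 1, 1, 1, 1, 1, 1] :=
  GG.m1 6 10 (t159.var (a' := [5, 3, 1, 1]) (b' := [5, 3, 1, 1]) (c' := [3, 1, 1, 1, 1, 1, 1, 1]) 0 3 (by decide +kernel)) (by decide +kernel)
theorem t161 : GG [4, 2, 1, 1] [4, 2, 1, 1] [2, 1, 1, 1, 1, 1, 1] :=
  F8.gg (by decide +kernel)
theorem t162 : GG [4, 1, 1, 1, 1, 1, 1] [5, 3, 1, 1] [5, 3, 1, 1] :=
  GG.sg (t39.var (a' := [2]) (b' := [1, 1]) (c' := [1, 1]) 0 4 (by decide +kernel))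
    (t161.var (a' := [2, 1, 1, 1, 1, 1, 1]) (b' := [4, 2, 1, 1]) (c' := [4, 2, 1, 1]) 0 4 (by decide +kernel)) (by decide +kernel)
theorem t163 : GG [6, 4, 2, 2, 1, 1] [6, 4, 2, 2, 1, 1] [6, 4, 1, 1, 1, 1, 1, 1] :=
  GG.m1 6 10 (t162.var (a' := [5, 3, 1, 1]) (b' := [5, 3, 1, 1]) (c' := [4, 1, 1, 1, 1, 1, 1]) 0 3 (by decide +kernel)) (by decide +kernel)
theorem t164 : GG [6, 4, 2, 2, 1, 1] [6, 4, 2, 2, 1, 1] [7, 3, 1, 1, 1, 1, 1, 1] :=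
  GG.m1 6 10 (t159.var (a' := [5, 3, 1, 1]) (b' := [5, 3, 1, 1]) (c' := [3, 1, 1, 1, 1, 1, 1, 1]) 0 3 (by decide +kernel)) (by decide +kernel)
theorem t165 : GG [6, 4, 2, 2, 1, 1] [6, 4, 2, 2, 1, 1] [8, 2, 1, 1, 1, 1, 1, 1] :=
  GG.m1 6 10 (t159.var (a' := [5, 3, 1, 1]) (b' := [5, 3, 1, 1]) (c' := [3, 1, 1, 1, 1, 1, 1, 1]) 0 3 (by decide +kernel)) (by decide +kernel)
theorem t166 : GG [3, 3, 3, 1] [5, 3, 1, 1] [5, 3, 1, 1] :=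
  GG.sg (t58.var (a' := [1, 1, 1, 1]) (b' := [2, 2]) (c' := [2, 2]) 1 2 (by decide +kernel))
    (t14.var (a' := [2, 2, 2]) (b' := [3, 1, 1, 1]) (c' := [3, 1, 1, 1]) 3 0 (by decide +kernel)) (by decide +kernel)
theorem t167 : GG [6, 4, 2, 2, 1, 1] [6, 4, 2, 2, 1, 1] [7, 3, 3, 3] :=
  GG.m1 6 10 (t166.var (a' := [5, 3, 1, 1]) (b' := [5, 3, 1, 1]) (c' := [3, 3, 3, 1]) 0 3 (by decide +kernel)) (by decide +kernel)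
theorem t168 : GG [6, 4, 2, 2, 1, 1] [6, 4, 2, 2, 1, 1] [7, 3, 3, 2, 1] :=
  GG.m1 6 10 (t166.var (a' := [5, 3, 1, 1]) (b' := [5, 3, 1, 1]) (c' := [3, 3, 3, 1]) 0 3 (by decide +kernel)) (by decide +kernel)
theorem t169 : GG [5, 3, 1, 1] [6, 2, 2] [4, 2, 2, 1, 1] :=
  GG.sg (t39.var (a' := [2]) (b' := [2]) (c' := [2]) 1 0 (by decide +kernel))
    (t132.var (a' := [3, 3, 1, 1]) (b' := [4, 2, 2]) (c' := [2, 2, 2, 1, 1]) 2 2 (by decide +kernel)) (by decide +kernel)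
theorem t170 : GG [6, 4, 2, 2, 1, 1] [6, 4, 2, 2, 1, 1] [6, 3, 3, 1, 1, 1, 1] :=
  GG.m1 6 10 (t169.var (a' := [5, 3, 1, 1]) (b' := [5, 3, 1, 1]) (c' := [3, 3, 1, 1, 1, 1]) 3 1 (by decide +kernel)) (by decide +kernel)
theorem t171 : GG [3, 2, 2, 2, 1] [5, 3, 1, 1] [5, 3, 1, 1] :=
  GG.sg (t58.var (a' := [1, 1, 1, 1]) (b' := [2, 2]) (c' := [2, 2]) 1 2 (by decide +kernel))
    (t5.var (a' := [2, 1, 1, 1, 1]) (b' := [3, 1, 1, 1]) (c' := [3, 1, 1, 1]) 3 0 (by decide +kernel)) (by decide +kernel)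
theorem t172 : GG [6, 4, 2, 2, 1, 1] [6, 4, 2, 2, 1, 1] [7, 3, 2, 2, 2] :=
  GG.m1 6 10 (t171.var (a' := [5, 3, 1, 1]) (b' := [5, 3, 1, 1]) (c' := [3, 2, 2, 2, 1]) 0 3 (by decide +kernel)) (by decide +kernel)
theorem t173 : GG [6, 4, 2, 2, 1, 1] [6, 4, 2, 2, 1, 1] [7, 3, 2, 2, 1, 1] :=
  GG.m1 6 10 (t171.var (a' := [5, 3, 1, 1]) (b' := [5, 3, 1, 1]) (c' := [3, 2, 2, 2, 1]) 0 3 (by decide +kernel)) (by decide +kernel)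
theorem t174 : GG [6, 4, 2, 2, 1, 1] [6, 4, 2, 2, 1, 1] [7, 3, 2, 1, 1, 1, 1] :=
  GG.m1 6 10 (t169.var (a' := [5, 3, 1, 1]) (b' := [5, 3, 1, 1]) (c' := [3, 3, 1, 1, 1, 1]) 3 1 (by decide +kernel)) (by decide +kernel)
theorem t175 : GG [5, 3, 1, 1] [5, 3, 1, 1] [4, 4, 1, 1] :=
  GG.sg (t39.var (a' := [2]) (b' := [1, 1]) (c' := [1, 1]) 0 4 (by decide +kernel))
    (t142.var (a' := [3, 3, 1, 1]) (b' := [4, 2, 1, 1]) (c' := [3, 3, 1, 1]) 1 1 (by decide +kernel)) (by decide +kernel)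
theorem t176 : GG [5, 3, 3, 3, 1, 1] [6, 4, 2, 2, 1, 1] [6, 4, 2, 2, 1, 1] :=
  GG.m1 6 10 (t175.var (a' := [4, 2, 2, 2]) (b' := [5, 3, 1, 1]) (c' := [4, 2, 2, 1, 1]) 2 5 (by decide +kernel)) (by decide +kernel)
theorem t177 : GG [4, 3, 3] [5, 3, 1, 1] [5, 3, 1, 1] :=
  GG.sg (t1.var (a' := [1, 1, 1]) (b' := [2, 1]) (c' := [2, 1]) 0 4 (by decide +kernel))
    (t77.var (a' := [3, 2, 2]) (b' := [3, 2, 1, 1]) (c' := [3, 2, 1, 1]) 1 4 (by decide +kernel)) (by decide +kernel)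
theorem t178 : GG [4, 4, 4, 2, 1, 1] [6, 4, 2, 2, 1, 1] [6, 4, 2, 2, 1, 1] :=
  GG.m1 6 10 (t177.var (a' := [3, 3, 3, 1]) (b' := [5, 3, 1, 1]) (c' := [4, 2, 2, 1, 1]) 1 1 (by decide +kernel)) (by decide +kernel)
theorem t179 : GG [4, 3, 2, 1] [5, 3, 1, 1] [5, 3, 1, 1] :=
  GG.m1 4 6 (t152.var (a' := [3, 2, 1]) (b' := [4, 2]) (c' := [3, 2, 1]) 2 1 (by decide +kernel)) (by decide +kernel)
theorem t180 : GG [5, 4, 3, 2, 1, 1] [6, 4, 2, 2, 1, 1] [6, 4, 2, 2, 1, 1] :=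
  GG.m1 6 10 (t179.var (a' := [4, 3, 2, 1]) (b' := [5, 3, 1, 1]) (c' := [4, 2, 2, 1, 1]) 1 1 (by decide +kernel)) (by decide +kernel)
theorem t181 : GG [4, 2, 2, 1, 1] [5, 3, 1, 1] [5, 2, 2, 1] :=
  GG.sg (t65.var (a' := [2, 1, 1]) (b' := [2, 2]) (c' := [2, 1, 1]) 1 1 (by decide +kernel))
    (t5.var (a' := [2, 1, 1, 1, 1]) (b' := [3, 1, 1, 1]) (c' := [3, 1, 1, 1]) 3 0 (by decide +kernel)) (by decide +kernel)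
theorem t182 : GG [6, 3, 3, 2, 1, 1] [6, 4, 2, 2, 1, 1] [6, 4, 2, 2, 1, 1] :=
  GG.m1 6 10 (t181.var (a' := [5, 2, 2, 1]) (b' := [5, 3, 1, 1]) (c' := [4, 2, 2, 1, 1]) 0 5 (by decide +kernel)) (by decide +kernel)
theorem t183 : GG [4, 2, 1, 1] [4, 2, 1, 1] [2, 2, 2, 1, 1] :=
  F8.gg (by decide +kernel)
theorem t184 : GG [5, 3, 1, 1] [5, 3, 1, 1] [4, 2, 2, 1, 1] :=
  GG.sg t39
    t183 (by decide +kernel)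
theorem t185 : GG [6, 4, 2, 2, 1, 1] [6, 4, 2, 2, 1, 1] [6, 4, 2, 2, 1, 1] :=
  GG.m1 6 10 t184 (by decide +kernel)
theorem t186 : GG [5, 4, 4, 1, 1, 1] [6, 4, 2, 2, 1, 1] [6, 4, 2, 2, 1, 1] :=
  GG.m1 6 10 (t166.var (a' := [4, 3, 3]) (b' := [5, 3, 1, 1]) (c' := [4, 2, 2, 1, 1]) 1 1 (by decide +kernel)) (by decide +kernel)
theorem t187 : GG [5, 3, 3, 2, 2] [6, 4, 2, 2, 1] [6, 4, 2, 2, 1] :=
  GG.m1 5 10 (t175.var (a' := [4, 2, 2, 1, 1]) (b' := [5, 3, 1, 1]) (c' := [4, 2, 2, 2]) 2 0 (by decide +kernel)) (by decide +kernel)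
theorem t188 : GG [6, 3, 3, 2, 2] [6, 4, 2, 2, 1, 1] [6, 4, 2, 2, 1, 1] :=
  GG.sg t0
    (t187.var (a' := [5, 3, 3, 2, 2]) (b' := [5, 4, 2, 2, 1, 1]) (c' := [5, 4, 2, 2, 1, 1]) 3 0 (by decide +kernel)) (by decide +kernel)
theorem t189 : GG [4, 3, 2, 1] [4, 3, 2, 1] [3, 3, 3, 1] :=
  F10.gg (by decide +kernel)
theorem t190 : GG [6, 4, 2, 1] [6, 4, 2, 1] [4, 4, 4, 1] :=
  GG.sg t1
    t189 (by decide +kernel)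
theorem t191 : GG [5, 5, 5, 1] [6, 4, 2, 2, 1, 1] [6, 4, 2, 2, 1, 1] :=
  GG.sg (t1.var (a' := [1, 1, 1]) (b' := [2, 1]) (c' := [2, 1]) 0 4 (by decide +kernel))
    (t190.var (a' := [4, 4, 4, 1]) (b' := [4, 3, 2, 2, 1, 1]) (c' := [4, 3, 2, 2, 1, 1]) 1 4 (by decide +kernel)) (by decide +kernel)
theorem t192 : GG [4, 3, 2, 1] [4, 3, 2, 1] [3, 3, 2, 2] :=
  F10.gg (by decide +kernel)
theorem t193 : GG [6, 4, 2, 1] [6, 4, 2, 1] [4, 4, 3, 2] :=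
  GG.sg t1
    t192 (by decide +kernel)
theorem t194 : GG [5, 5, 4, 2] [6, 4, 2, 2, 1, 1] [6, 4, 2, 2, 1, 1] :=
  GG.sg (t1.var (a' := [1, 1, 1]) (b' := [2, 1]) (c' := [2, 1]) 0 4 (by decide +kernel))
    (t193.var (a' := [4, 4, 3, 2]) (b' := [4, 3, 2, 2, 1, 1]) (c' := [4, 3, 2, 2, 1, 1]) 1 4 (by decide +kernel)) (by decide +kernel)
theorem t195 : GG [5, 4, 2, 2, 1] [5, 4, 2, 2, 1] [3, 3, 3, 3, 2] :=
  F14.gg (by decide +kernel)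
theorem t196 : GG [4, 3, 3, 3, 2] [6, 4, 2, 2, 1] [6, 4, 2, 2, 1] :=
  GG.sg t0
    (t195.var (a' := [3, 3, 3, 3, 2]) (b' := [5, 4, 2, 2, 1]) (c' := [5, 4, 2, 2, 1]) 0 4 (by decide +kernel)) (by decide +kernel)
theorem t197 : GG [5, 3, 3, 3, 2] [6, 4, 2, 2, 1, 1] [6, 4, 2, 2, 1, 1] :=
  GG.sg t0
    (t196.var (a' := [4, 3, 3, 3, 2]) (b' := [5, 4, 2, 2, 1, 1]) (c' := [5, 4, 2, 2, 1, 1]) 3 0 (by decide +kernel)) (by decide +kernel)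
theorem t198 : GG [2, 1] [2, 1] [2, 1] :=
  F3.gg (by decide +kernel)
theorem t199 : GG [4, 3, 2, 1] [4, 3, 2, 1] [2, 2, 2, 2, 2] :=
  F10.gg (by decide +kernel)
theorem t200 : GG [3, 3, 3, 2, 2] [6, 4, 2, 1] [6, 4, 2, 1] :=
  GG.sg (t1.var (a' := [1, 1, 1]) (b' := [2, 1]) (c' := [2, 1]) 0 4 (by decide +kernel))
    (t199.var (a' := [2, 2, 2, 2, 2]) (b' := [4, 3, 2, 1]) (c' := [4, 3, 2, 1]) 0 4 (by decide +kernel)) (by decide +kernel)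
theorem t201 : GG [5, 4, 3, 2, 2] [6, 4, 2, 2, 1, 1] [6, 4, 2, 2, 1, 1] :=
  GG.sg t198
    (t200.var (a' := [3, 3, 3, 2, 2]) (b' := [4, 3, 2, 2, 1, 1]) (c' := [4, 3, 2, 2, 1, 1]) 3 0 (by decide +kernel)) (by decide +kernel)
theorem t202 : GG [2, 2, 2] [4, 1, 1] [3, 1, 1, 1] :=
  GG.m1 3 3 (t13.var (a' := [1, 1, 1]) (b' := [3]) (c' := [1, 1, 1]) 0 1 (by decide +kernel)) (by decide +kernel)
theorem t203 : GG [2, 2, 2, 2, 2] [6, 2, 2] [6, 2, 2] :=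
  GG.sg (t4.var (a' := [1, 1, 1, 1, 1]) (b' := [3, 1, 1]) (c' := [3, 1, 1]) 0 4 (by decide +kernel))
    (t4.var (a' := [1, 1, 1, 1, 1]) (b' := [3, 1, 1]) (c' := [3, 1, 1]) 0 4 (by decide +kernel)) (by decide +kernel)
theorem t204 : GG [5, 5, 2, 2, 2] [6, 4, 2, 2, 1, 1] [6, 4, 2, 2, 1, 1] :=
  GG.sg (t202.var (a' := [3, 3]) (b' := [3, 1, 1, 1]) (c' := [3, 1, 1, 1]) 1 0 (by decide +kernel))
    (t203.var (a' := [2, 2, 2, 2, 2]) (b' := [3, 3, 1, 1, 1, 1]) (c' := [3, 3, 1, 1, 1, 1]) 3 0 (by decide +kernel)) (by decide +kernel)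
theorem t205 : GG [4, 3, 3, 3] [6, 4, 2, 1] [6, 4, 2, 1] :=
  GG.m1 4 9 (t81.var (a' := [3, 2, 2, 2]) (b' := [5, 3, 1]) (c' := [5, 3, 1]) 0 4 (by decide +kernel)) (by decide +kernel)
theorem t206 : GG [5, 4, 4, 3] [6, 4, 2, 2, 1, 1] [6, 4, 2, 2, 1, 1] :=
  GG.sg (t1.var (a' := [1, 1, 1]) (b' := [2, 1]) (c' := [2, 1]) 0 4 (by decide +kernel))
    (t205.var (a' := [4, 3, 3, 3]) (b' := [4, 3, 2, 2, 1, 1]) (c' := [4, 3, 2, 2, 1, 1]) 3 0 (by decide +kernel)) (by decide +kernel)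
theorem t207 : GG [4, 4, 4, 2, 1] [6, 4, 2, 2, 1] [6, 4, 2, 2, 1] :=
  GG.m1 5 10 (t177.var (a' := [3, 3, 3, 1]) (b' := [5, 3, 1, 1]) (c' := [4, 2, 2, 1, 1]) 1 1 (by decide +kernel)) (by decide +kernel)
theorem t208 : GG [5, 4, 4, 2, 1] [6, 4, 2, 2, 1, 1] [6, 4, 2, 2, 1, 1] :=
  GG.sg t0
    (t207.var (a' := [4, 4, 4, 2, 1]) (b' := [5, 4, 2, 2, 1, 1]) (c' := [5, 4, 2, 2, 1, 1]) 3 0 (by decide +kernel)) (by decide +kernel)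
theorem t209 : GG [3, 3, 3, 3] [6, 4, 1, 1] [6, 4, 1, 1] :=
  GG.m1 4 8 (t156.var (a' := [2, 2, 2, 2]) (b' := [5, 3]) (c' := [4, 3, 1]) 2 0 (by decide +kernel)) (by decide +kernel)
theorem t210 : GG [4, 4, 4, 4] [6, 4, 2, 2, 1, 1] [6, 4, 2, 2, 1, 1] :=
  GG.sg (t58.var (a' := [1, 1, 1, 1]) (b' := [2, 2]) (c' := [2, 2]) 1 2 (by decide +kernel))
    (t209.var (a' := [3, 3, 3, 3]) (b' := [4, 2, 2, 2, 1, 1]) (c' := [4, 2, 2, 2, 1, 1]) 3 0 (by decide +kernel)) (by decide +kernel)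
theorem A16 : AllG [6, 4, 2, 2, 1, 1] [[9, 1, 1, 1, 1, 1, 1, 1], [8, 2, 2, 2, 1, 1], [8, 2, 2, 1, 1, 1, 1], [8, 2, 1, 1, 1, 1, 1, 1], [7, 3, 3, 3], [7, 3, 3, 2, 1], [7, 3, 3, 1, 1, 1], [7, 3, 2, 2, 2], [7, 3, 2, 2, 1, 1], [7, 3, 2, 1, 1, 1, 1], [6, 4, 4, 1, 1], [6, 4, 3, 3], [6, 4, 3, 2, 1], [6, 4, 3, 1, 1, 1], [6, 4, 2, 2, 1, 1], [6, 3, 3, 3, 1], [6, 3, 3, 2, 2], [6, 3, 3, 2, 1, 1], [5, 5, 5, 1], [5, 5, 4, 2], [5, 5, 4, 1, 1], [5, 5, 3, 2, 1], [5, 5, 2, 2, 2], [5, 4, 4, 3], [5, 4, 4, 2, 1], [5, 4, 3, 3, 1], [5, 4, 3, 2, 2], [5, 3, 3, 3, 2], [4, 4, 4, 4]] :=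
  AllG.cons (t160.var (a' := [6, 4, 2, 2, 1, 1]) (b' := [6, 4, 2, 2, 1, 1]) (c' := [9, 1, 1, 1, 1, 1, 1, 1]) 2 0 (by decide +kernel)) <|
    AllG.cons (t163.var (a' := [6, 4, 2, 2, 1, 1]) (b' := [6, 4, 2, 2, 1, 1]) (c' := [8, 2, 2, 2, 1, 1]) 2 0 (by decide +kernel)) <|
    AllG.cons (t164.var (a' := [6, 4, 2, 2, 1, 1]) (b' := [6, 4, 2, 2, 1, 1]) (c' := [8, 2, 2, 1, 1, 1, 1]) 2 0 (by decide +kernel)) <|
    AllG.cons t165 <|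
    AllG.cons t167 <|
    AllG.cons t168 <|
    AllG.cons (t170.var (a' := [6, 4, 2, 2, 1, 1]) (b' := [6, 4, 2, 2, 1, 1]) (c' := [7, 3, 3, 1, 1, 1]) 2 0 (by decide +kernel)) <|
    AllG.cons t172 <|
    AllG.cons t173 <|
    AllG.cons t174 <|
    AllG.cons (t176.var (a' := [6, 4, 2, 2, 1, 1]) (b' := [6, 4, 2, 2, 1, 1]) (c' := [6, 4, 4, 1, 1]) 1 3 (by decide +kernel)) <|
    AllG.cons (t178.var (a' := [6, 4, 2, 2, 1, 1]) (b' := [6, 4, 2, 2, 1, 1]) (c' := [6, 4, 3, 3]) 1 3 (by decide +kernel)) <|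
    AllG.cons (t180.var (a' := [6, 4, 2, 2, 1, 1]) (b' := [6, 4, 2, 2, 1, 1]) (c' := [6, 4, 3, 2, 1]) 1 3 (by decide +kernel)) <|
    AllG.cons (t182.var (a' := [6, 4, 2, 2, 1, 1]) (b' := [6, 4, 2, 2, 1, 1]) (c' := [6, 4, 3, 1, 1, 1]) 1 3 (by decide +kernel)) <|
    AllG.cons t185 <|
    AllG.cons (t186.var (a' := [6, 4, 2, 2, 1, 1]) (b' := [6, 4, 2, 2, 1, 1]) (c' := [6, 3, 3, 3, 1]) 1 3 (by decide +kernel)) <|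
    AllG.cons (t188.var (a' := [6, 4, 2, 2, 1, 1]) (b' := [6, 4, 2, 2, 1, 1]) (c' := [6, 3, 3, 2, 2]) 0 3 (by decide +kernel)) <|
    AllG.cons (t182.var (a' := [6, 4, 2, 2, 1, 1]) (b' := [6, 4, 2, 2, 1, 1]) (c' := [6, 3, 3, 2, 1, 1]) 0 3 (by decide +kernel)) <|
    AllG.cons (t191.var (a' := [6, 4, 2, 2, 1, 1]) (b' := [6, 4, 2, 2, 1, 1]) (c' := [5, 5, 5, 1]) 0 3 (by decide +kernel)) <|
    AllG.cons (t194.var (a' := [6, 4, 2, 2, 1, 1]) (b' := [6, 4, 2, 2, 1, 1]) (c' := [5, 5, 4, 2]) 0 3 (by decide +kernel)) <|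
    AllG.cons (t197.var (a' := [6, 4, 2, 2, 1, 1]) (b' := [6, 4, 2, 2, 1, 1]) (c' := [5, 5, 4, 1, 1]) 1 3 (by decide +kernel)) <|
    AllG.cons (t201.var (a' := [6, 4, 2, 2, 1, 1]) (b' := [6, 4, 2, 2, 1, 1]) (c' := [5, 5, 3, 2, 1]) 1 3 (by decide +kernel)) <|
    AllG.cons (t204.var (a' := [6, 4, 2, 2, 1, 1]) (b' := [6, 4, 2, 2, 1, 1]) (c' := [5, 5, 2, 2, 2]) 0 3 (by decide +kernel)) <|
    AllG.cons (t206.var (a' := [6, 4, 2, 2, 1, 1]) (b' := [6, 4, 2, 2, 1, 1]) (c' := [5, 4, 4, 3]) 0 3 (by decide +kernel)) <|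
    AllG.cons (t208.var (a' := [6, 4, 2, 2, 1, 1]) (b' := [6, 4, 2, 2, 1, 1]) (c' := [5, 4, 4, 2, 1]) 0 3 (by decide +kernel)) <|
    AllG.cons (t208.var (a' := [6, 4, 2, 2, 1, 1]) (b' := [6, 4, 2, 2, 1, 1]) (c' := [5, 4, 3, 3, 1]) 1 3 (by decide +kernel)) <|
    AllG.cons (t201.var (a' := [6, 4, 2, 2, 1, 1]) (b' := [6, 4, 2, 2, 1, 1]) (c' := [5, 4, 3, 2, 2]) 0 3 (by decide +kernel)) <|
    AllG.cons (t197.var (a' := [6, 4, 2, 2, 1, 1]) (b' := [6, 4, 2, 2, 1, 1]) (c' := [5, 3, 3, 3, 2]) 0 3 (by decide +kernel)) <|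
    AllG.cons (t210.var (a' := [6, 4, 2, 2, 1, 1]) (b' := [6, 4, 2, 2, 1, 1]) (c' := [4, 4, 4, 4]) 0 3 (by decide +kernel)) <|
    AllG.nil _
theorem F16 : Full (ofL [6, 4, 2, 2, 1, 1]) 16 :=
  full2 3 2 F5 full_nil A16 (by decide +kernel)
theorem t211 : GG [4, 3, 2, 1] [4, 3, 2, 1] [2, 1, 1, 1, 1, 1, 1, 1, 1] :=
  F10.gg (by decide +kernel)
theorem t212 : GG [3, 1, 1, 1, 1, 1, 1, 1, 1] [5, 3, 2, 1] [5, 3, 2, 1] :=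
  GG.sg t0
    (t211.var (a' := [2, 1, 1, 1, 1, 1, 1, 1, 1]) (b' := [4, 3, 2, 1]) (c' := [4, 3, 2, 1]) 0 4 (by decide +kernel)) (by decide +kernel)
theorem t213 : GG [6, 4, 3, 2, 1, 1] [6, 4, 3, 2, 1, 1] [9, 1, 1, 1, 1, 1, 1, 1, 1] :=
  GG.m1 6 11 (t212.var (a' := [5, 3, 2, 1]) (b' := [5, 3, 2, 1]) (c' := [3, 1, 1, 1, 1, 1, 1, 1, 1]) 0 3 (by decide +kernel)) (by decide +kernel)
theorem t214 : GG [2, 2, 1, 1] [4, 2] [3, 3] :=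
  GG.sg (t39.var (a' := [1, 1]) (b' := [2]) (c' := [1, 1]) 0 1 (by decide +kernel))
    (t58.var (a' := [1, 1, 1, 1]) (b' := [2, 2]) (c' := [2, 2]) 1 2 (by decide +kernel)) (by decide +kernel)
theorem t215 : GG [3, 3, 3, 1, 1] [5, 3, 2, 1] [5, 3, 2, 1] :=
  GG.sg (t4.var (a' := [1, 1, 1, 1, 1]) (b' := [3, 1, 1]) (c' := [3, 1, 1]) 0 4 (by decide +kernel))
    (t214.var (a' := [2, 2, 2]) (b' := [2, 2, 1, 1]) (c' := [2, 2, 1, 1]) 3 4 (by decide +kernel)) (by decide +kernel)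
theorem t216 : GG [6, 4, 3, 2, 1, 1] [6, 4, 3, 2, 1, 1] [7, 3, 3, 3, 1] :=
  GG.m1 6 11 (t215.var (a' := [5, 3, 2, 1]) (b' := [5, 3, 2, 1]) (c' := [3, 3, 3, 1, 1]) 0 3 (by decide +kernel)) (by decide +kernel)
theorem t217 : GG [6, 4, 3, 2, 1, 1] [7, 3, 3, 2, 2] [6, 4, 3, 2, 1, 1] :=
  GG.sg (t19.var (a' := [2, 1, 1]) (b' := [4]) (c' := [2, 1, 1]) 0 1 (by decide +kernel))
    (t200.var (a' := [4, 3, 2, 2, 1, 1]) (b' := [3, 3, 3, 2, 2]) (c' := [4, 3, 2, 2, 1, 1]) 3 2 (by decide +kernel)) (by decide +kernel)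
theorem t218 : GG [6, 4, 3, 2, 1, 1] [6, 4, 3, 2, 1, 1] [7, 3, 3, 2, 1, 1] :=
  GG.m1 6 11 (t215.var (a' := [5, 3, 2, 1]) (b' := [5, 3, 2, 1]) (c' := [3, 3, 3, 1, 1]) 0 3 (by decide +kernel)) (by decide +kernel)
theorem t219 : GG [5, 3, 2, 1] [6, 3, 2] [4, 3, 2, 1, 1] :=
  GG.sg t4
    (t152.var (a' := [2, 2, 1, 1]) (b' := [3, 2, 1]) (c' := [3, 2, 1]) 0 4 (by decide +kernel)) (by decide +kernel)
theorem t220 : GG [6, 4, 3, 2, 1, 1] [6, 4, 3, 2, 1, 1] [7, 3, 3, 1, 1, 1, 1] :=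
  GG.m1 6 11 (t219.var (a' := [5, 3, 2, 1]) (b' := [5, 3, 2, 1]) (c' := [3, 3, 2, 1, 1, 1]) 3 1 (by decide +kernel)) (by decide +kernel)
theorem t221 : GG [6, 4, 3, 2, 1, 1] [6, 4, 3, 2, 1, 1] [6, 3, 3, 3, 1, 1] :=
  GG.m1 6 11 (t215.var (a' := [5, 3, 2, 1]) (b' := [5, 3, 2, 1]) (c' := [3, 3, 3, 1, 1]) 0 3 (by decide +kernel)) (by decide +kernel)
theorem t222 : GG [5, 3, 2, 1] [5, 3, 2, 1] [4, 3, 3, 1] :=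
  GG.m1 4 7 (t75.var (a' := [4, 2, 1]) (b' := [4, 2, 1]) (c' := [3, 3, 1]) 0 3 (by decide +kernel)) (by decide +kernel)
theorem t223 : GG [5, 4, 4, 2, 1, 1] [6, 4, 3, 2, 1, 1] [6, 4, 3, 2, 1, 1] :=
  GG.m1 6 11 (t222.var (a' := [4, 3, 3, 1]) (b' := [5, 3, 2, 1]) (c' := [4, 3, 2, 1, 1]) 2 5 (by decide +kernel)) (by decide +kernel)
theorem t224 : GG [5, 3, 2, 1] [5, 3, 2, 1] [4, 3, 2, 1, 1] :=
  GG.m1 4 7 t79 (by decide +kernel)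
theorem t225 : GG [6, 4, 3, 2, 1, 1] [6, 4, 3, 2, 1, 1] [6, 4, 3, 2, 1, 1] :=
  GG.m1 6 11 t224 (by decide +kernel)
theorem t226 : GG [5, 4, 3, 2, 1] [5, 4, 3, 2, 1] [4, 3, 3, 3, 2] :=
  F15.gg (by decide +kernel)
theorem t227 : GG [5, 3, 3, 3, 2] [6, 4, 3, 2, 1] [6, 4, 3, 2, 1] :=
  GG.sg t0
    (t226.var (a' := [4, 3, 3, 3, 2]) (b' := [5, 4, 3, 2, 1]) (c' := [5, 4, 3, 2, 1]) 0 4 (by decide +kernel)) (by decide +kernel)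
theorem t228 : GG [6, 3, 3, 3, 2] [6, 4, 3, 2, 1, 1] [6, 4, 3, 2, 1, 1] :=
  GG.sg t0
    (t227.var (a' := [5, 3, 3, 3, 2]) (b' := [5, 4, 3, 2, 1, 1]) (c' := [5, 4, 3, 2, 1, 1]) 3 0 (by decide +kernel)) (by decide +kernel)
theorem t229 : GG [6, 4, 3, 1] [6, 4, 3, 1] [4, 4, 4, 2] :=
  GG.sg t1
    (t64.var (a' := [4, 3, 3, 1]) (b' := [4, 3, 3, 1]) (c' := [3, 3, 3, 2]) 0 3 (by decide +kernel)) (by decide +kernel)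
theorem t230 : GG [5, 5, 5, 2] [6, 4, 3, 2, 1, 1] [6, 4, 3, 2, 1, 1] :=
  GG.sg (t1.var (a' := [1, 1, 1]) (b' := [2, 1]) (c' := [2, 1]) 0 4 (by decide +kernel))
    (t229.var (a' := [4, 4, 4, 2]) (b' := [4, 3, 3, 2, 1, 1]) (c' := [4, 3, 3, 2, 1, 1]) 1 4 (by decide +kernel)) (by decide +kernel)
theorem t231 : GG [5, 4, 3, 2, 1] [5, 4, 3, 2, 1] [3, 3, 3, 3, 3] :=
  F15.gg (by decide +kernel)
theorem t232 : GG [4, 3, 3, 3, 3] [6, 4, 3, 2, 1] [6, 4, 3, 2, 1] :=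
  GG.sg t0
    (t231.var (a' := [3, 3, 3, 3, 3]) (b' := [5, 4, 3, 2, 1]) (c' := [5, 4, 3, 2, 1]) 0 4 (by decide +kernel)) (by decide +kernel)
theorem t233 : GG [5, 3, 3, 3, 3] [6, 4, 3, 2, 1, 1] [6, 4, 3, 2, 1, 1] :=
  GG.sg t0
    (t232.var (a' := [4, 3, 3, 3, 3]) (b' := [5, 4, 3, 2, 1, 1]) (c' := [5, 4, 3, 2, 1, 1]) 3 0 (by decide +kernel)) (by decide +kernel)
theorem t234 : GG [6, 4, 3, 1] [6, 4, 3, 1] [4, 4, 3, 2, 1] :=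
  GG.sg t1
    (t56.var (a' := [4, 3, 3, 1]) (b' := [4, 3, 3, 1]) (c' := [3, 3, 2, 2, 1]) 2 0 (by decide +kernel)) (by decide +kernel)
theorem t235 : GG [5, 5, 4, 2, 1] [6, 4, 3, 2, 1, 1] [6, 4, 3, 2, 1, 1] :=
  GG.sg (t1.var (a' := [1, 1, 1]) (b' := [2, 1]) (c' := [2, 1]) 0 4 (by decide +kernel))
    (t234.var (a' := [4, 4, 3, 2, 1]) (b' := [4, 3, 3, 2, 1, 1]) (c' := [4, 3, 3, 2, 1, 1]) 1 4 (by decide +kernel)) (by decide +kernel)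
theorem t236 : GG [5, 5, 3, 2, 2] [6, 4, 3, 2, 1, 1] [6, 4, 3, 2, 1, 1] :=
  GG.sg (t65.var (a' := [2, 2]) (b' := [2, 1, 1]) (c' := [2, 1, 1]) 1 4 (by decide +kernel))
    (t200.var (a' := [3, 3, 3, 2, 2]) (b' := [4, 3, 2, 2, 1, 1]) (c' := [4, 3, 2, 2, 1, 1]) 3 0 (by decide +kernel)) (by decide +kernel)
theorem t237 : GG [4, 3] [4, 3] [3, 2, 1, 1] :=
  GG.sg t198
    (t58.var (a' := [2, 2]) (b' := [2, 2]) (c' := [1, 1, 1, 1]) 1 1 (by decide +kernel)) (by decide +kernel)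
theorem t238 : GG [3, 3, 3, 2, 1, 1] [6, 4, 2, 1] [5, 4, 3, 1] :=
  GG.sg (t52.var (a' := [1, 1, 1, 1, 1, 1]) (b' := [3, 2, 1]) (c' := [3, 2, 1]) 0 4 (by decide +kernel))
    (t237.var (a' := [2, 2, 2, 1]) (b' := [3, 2, 1, 1]) (c' := [2, 2, 2, 1]) 1 1 (by decide +kernel)) (by decide +kernel)
theorem t239 : GG [5, 4, 4, 3, 1] [6, 4, 3, 2, 1, 1] [6, 4, 3, 2, 1, 1] :=
  GG.sg (t19.var (a' := [1, 1, 1, 1]) (b' := [3, 1]) (c' := [2, 1, 1]) 2 4 (by decide +kernel))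
    (t238.var (a' := [4, 3, 3, 2, 1]) (b' := [3, 3, 3, 2, 1, 1]) (c' := [4, 3, 2, 2, 1, 1]) 3 4 (by decide +kernel)) (by decide +kernel)
theorem A17 : AllG [6, 4, 3, 2, 1, 1] [[9, 1, 1, 1, 1, 1, 1, 1, 1], [7, 3, 3, 3, 1], [7, 3, 3, 2, 2], [7, 3, 3, 2, 1, 1], [7, 3, 3, 1, 1, 1, 1], [6, 4, 4, 1, 1, 1], [6, 4, 3, 3, 1], [6, 4, 3, 2, 1, 1], [6, 3, 3, 3, 2], [6, 3, 3, 3, 1, 1], [5, 5, 5, 2], [5, 5, 5, 1, 1], [5, 5, 4, 2, 1], [5, 5, 3, 2, 2], [5, 4, 4, 3, 1], [5, 4, 3, 3, 2], [5, 3, 3, 3, 3]] :=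
  AllG.cons t213 <|
    AllG.cons t216 <|
    AllG.cons (t217.var (a' := [6, 4, 3, 2, 1, 1]) (b' := [6, 4, 3, 2, 1, 1]) (c' := [7, 3, 3, 2, 2]) 0 1 (by decide +kernel)) <|
    AllG.cons t218 <|
    AllG.cons t220 <|
    AllG.cons (t221.var (a' := [6, 4, 3, 2, 1, 1]) (b' := [6, 4, 3, 2, 1, 1]) (c' := [6, 4, 4, 1, 1, 1]) 2 0 (by decide +kernel)) <|
    AllG.cons (t223.var (a' := [6, 4, 3, 2, 1, 1]) (b' := [6, 4, 3, 2, 1, 1]) (c' := [6, 4, 3, 3, 1]) 1 3 (by decide +kernel)) <|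
    AllG.cons t225 <|
    AllG.cons (t228.var (a' := [6, 4, 3, 2, 1, 1]) (b' := [6, 4, 3, 2, 1, 1]) (c' := [6, 3, 3, 3, 2]) 0 3 (by decide +kernel)) <|
    AllG.cons t221 <|
    AllG.cons (t230.var (a' := [6, 4, 3, 2, 1, 1]) (b' := [6, 4, 3, 2, 1, 1]) (c' := [5, 5, 5, 2]) 0 3 (by decide +kernel)) <|
    AllG.cons (t233.var (a' := [6, 4, 3, 2, 1, 1]) (b' := [6, 4, 3, 2, 1, 1]) (c' := [5, 5, 5, 1, 1]) 1 3 (by decide +kernel)) <|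
    AllG.cons (t235.var (a' := [6, 4, 3, 2, 1, 1]) (b' := [6, 4, 3, 2, 1, 1]) (c' := [5, 5, 4, 2, 1]) 0 3 (by decide +kernel)) <|
    AllG.cons (t236.var (a' := [6, 4, 3, 2, 1, 1]) (b' := [6, 4, 3, 2, 1, 1]) (c' := [5, 5, 3, 2, 2]) 0 3 (by decide +kernel)) <|
    AllG.cons (t239.var (a' := [6, 4, 3, 2, 1, 1]) (b' := [6, 4, 3, 2, 1, 1]) (c' := [5, 4, 4, 3, 1]) 0 3 (by decide +kernel)) <|
    AllG.cons (t235.var (a' := [6, 4, 3, 2, 1, 1]) (b' := [6, 4, 3, 2, 1, 1]) (c' := [5, 4, 3, 3, 2]) 1 3 (by decide +kernel)) <|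
    AllG.cons (t233.var (a' := [6, 4, 3, 2, 1, 1]) (b' := [6, 4, 3, 2, 1, 1]) (c' := [5, 3, 3, 3, 3]) 0 3 (by decide +kernel)) <|
    AllG.nil _
theorem F17 : Full (ofL [6, 4, 3, 2, 1, 1]) 17 :=
  full2 3 2 F6 F1 A17 (by decide +kernel)
theorem t240 : GG [5, 3, 3, 3, 2] [6, 5, 2, 2, 1] [6, 5, 2, 2, 1] :=
  GG.sg (t39.var (a' := [2]) (b' := [1, 1]) (c' := [1, 1]) 0 4 (by decide +kernel))
    (t195.var (a' := [3, 3, 3, 3, 2]) (b' := [5, 4, 2, 2, 1]) (c' := [5, 4, 2, 2, 1]) 0 4 (by decide +kernel)) (by decide +kernel)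
theorem t241 : GG [6, 5, 2, 2, 2, 1] [7, 3, 3, 3, 2] [6, 5, 2, 2, 2, 1] :=
  GG.sg (t39.var (a' := [1, 1]) (b' := [2]) (c' := [1, 1]) 0 1 (by decide +kernel))
    (t240.var (a' := [5, 4, 2, 2, 2, 1]) (b' := [5, 3, 3, 3, 2]) (c' := [5, 4, 2, 2, 2, 1]) 3 2 (by decide +kernel)) (by decide +kernel)
theorem t242 : GG [5, 4, 2, 2, 1] [5, 4, 2, 2, 1] [3, 3, 3, 3, 1, 1] :=
  F14.gg (by decide +kernel)
theorem t243 : GG [5, 3, 3, 3, 1, 1] [6, 5, 2, 2, 1] [6, 5, 2, 2, 1] :=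
  GG.sg (t39.var (a' := [2]) (b' := [1, 1]) (c' := [1, 1]) 0 4 (by decide +kernel))
    (t242.var (a' := [3, 3, 3, 3, 1, 1]) (b' := [5, 4, 2, 2, 1]) (c' := [5, 4, 2, 2, 1]) 0 4 (by decide +kernel)) (by decide +kernel)
theorem t244 : GG [6, 5, 2, 2, 2, 1] [7, 3, 3, 3, 1, 1] [6, 5, 2, 2, 2, 1] :=
  GG.sg (t39.var (a' := [1, 1]) (b' := [2]) (c' := [1, 1]) 0 1 (by decide +kernel))
    (t243.var (a' := [5, 4, 2, 2, 2, 1]) (b' := [5, 3, 3, 3, 1, 1]) (c' := [5, 4, 2, 2, 2, 1]) 3 2 (by decide +kernel)) (by decide +kernel)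
theorem t245 : GG [4, 3, 2, 1] [4, 3, 2, 1] [2, 2, 2, 2, 1, 1] :=
  F10.gg (by decide +kernel)
theorem t246 : GG [3, 3, 3, 3, 1, 1] [6, 5, 2, 1] [6, 5, 2, 1] :=
  GG.sg (t58.var (a' := [1, 1, 1, 1]) (b' := [2, 2]) (c' := [2, 2]) 1 2 (by decide +kernel))
    (t245.var (a' := [2, 2, 2, 2, 1, 1]) (b' := [4, 3, 2, 1]) (c' := [4, 3, 2, 1]) 0 4 (by decide +kernel)) (by decide +kernel)
theorem t247 : GG [4, 4, 4, 4, 1, 1] [6, 5, 2, 2, 2, 1] [6, 5, 2, 2, 2, 1] :=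
  GG.sg (t58.var (a' := [1, 1, 1, 1]) (b' := [2, 2]) (c' := [2, 2]) 1 2 (by decide +kernel))
    (t246.var (a' := [3, 3, 3, 3, 1, 1]) (b' := [4, 3, 2, 2, 2, 1]) (c' := [4, 3, 2, 2, 2, 1]) 3 0 (by decide +kernel)) (by decide +kernel)
theorem t248 : GG [6, 4, 4, 1] [6, 5, 2, 2] [4, 4, 2, 2, 2, 1] :=
  GG.sg (t155.var (a' := [2, 2, 2, 1]) (b' := [3, 2, 1, 1]) (c' := [2, 2, 1, 1, 1]) 1 1 (by decide +kernel))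
    (t106.var (a' := [4, 2, 2]) (b' := [3, 3, 1, 1]) (c' := [2, 2, 1, 1, 1, 1]) 2 0 (by decide +kernel)) (by decide +kernel)
theorem t249 : GG [5, 4, 4, 3, 1, 1] [6, 5, 2, 2, 2, 1] [6, 5, 2, 2, 2, 1] :=
  GG.sg (t1.var (a' := [1, 1, 1]) (b' := [2, 1]) (c' := [2, 1]) 0 4 (by decide +kernel))
    (t248.var (a' := [4, 3, 3, 3, 1, 1]) (b' := [4, 4, 2, 2, 2, 1]) (c' := [4, 4, 2, 2, 2, 1]) 1 0 (by decide +kernel)) (by decide +kernel)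
theorem t250 : GG [4, 3, 2, 1] [4, 3, 2, 1] [3, 3, 1, 1, 1, 1] :=
  F10.gg (by decide +kernel)
theorem t251 : GG [6, 5, 2, 1] [6, 5, 2, 1] [4, 4, 2, 2, 1, 1] :=
  GG.sg (t58.var (a' := [2, 2]) (b' := [2, 2]) (c' := [1, 1, 1, 1]) 1 1 (by decide +kernel))
    t250 (by decide +kernel)
theorem t252 : GG [5, 5, 3, 3, 1, 1] [6, 5, 2, 2, 2, 1] [6, 5, 2, 2, 2, 1] :=
  GG.sg (t58.var (a' := [1, 1, 1, 1]) (b' := [2, 2]) (c' := [2, 2]) 1 2 (by decide +kernel))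
    (t251.var (a' := [4, 4, 2, 2, 1, 1]) (b' := [4, 3, 2, 2, 2, 1]) (c' := [4, 3, 2, 2, 2, 1]) 1 4 (by decide +kernel)) (by decide +kernel)
theorem t253 : GG [6, 4, 3, 3, 1, 1] [6, 5, 2, 2, 2, 1] [6, 5, 2, 2, 2, 1] :=
  GG.sg t198
    (t248.var (a' := [4, 3, 3, 3, 1, 1]) (b' := [4, 4, 2, 2, 2, 1]) (c' := [4, 4, 2, 2, 2, 1]) 1 0 (by decide +kernel)) (by decide +kernel)
theorem t254 : GG [6, 5, 2, 1] [6, 5, 2, 1] [5, 3, 2, 2, 2] :=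
  GG.m1 4 10 t153 (by decide +kernel)
theorem t255 : GG [6, 4, 3, 3, 2] [6, 5, 2, 2, 2, 1] [6, 5, 2, 2, 2, 1] :=
  GG.sg (t58.var (a' := [1, 1, 1, 1]) (b' := [2, 2]) (c' := [2, 2]) 1 2 (by decide +kernel))
    (t254.var (a' := [5, 3, 2, 2, 2]) (b' := [4, 3, 2, 2, 2, 1]) (c' := [4, 3, 2, 2, 2, 1]) 1 4 (by decide +kernel)) (by decide +kernel)
theorem t256 : GG [5, 2, 1] [5, 2, 1] [4, 1, 1, 1, 1] :=
  GG.sg t0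
    (t72.var (a' := [4, 2, 1]) (b' := [4, 2, 1]) (c' := [3, 1, 1, 1, 1]) 0 3 (by decide +kernel)) (by decide +kernel)
theorem t257 : GG [6, 3, 3, 3, 3] [6, 5, 2, 2, 2, 1] [6, 5, 2, 2, 2, 1] :=
  GG.sg (t256.var (a' := [4, 1, 1, 1, 1]) (b' := [3, 2, 1, 1, 1]) (c' := [3, 2, 1, 1, 1]) 1 4 (by decide +kernel))
    (t203.var (a' := [2, 2, 2, 2, 2]) (b' := [3, 3, 1, 1, 1, 1]) (c' := [3, 3, 1, 1, 1, 1]) 3 0 (by decide +kernel)) (by decide +kernel)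
theorem t258 : GG [6, 5, 2, 1] [6, 5, 2, 1] [4, 4, 4, 2] :=
  GG.sg (t58.var (a' := [2, 2]) (b' := [2, 2]) (c' := [1, 1, 1, 1]) 1 1 (by decide +kernel))
    t189 (by decide +kernel)
theorem t259 : GG [5, 5, 5, 3] [6, 5, 2, 2, 2, 1] [6, 5, 2, 2, 2, 1] :=
  GG.sg (t58.var (a' := [1, 1, 1, 1]) (b' := [2, 2]) (c' := [2, 2]) 1 2 (by decide +kernel))
    (t258.var (a' := [4, 4, 4, 2]) (b' := [4, 3, 2, 2, 2, 1]) (c' := [4, 3, 2, 2, 2, 1]) 1 4 (by decide +kernel)) (by decide +kernel)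
theorem t260 : GG [5, 2, 1] [5, 2, 1] [3, 2, 1, 1, 1] :=
  GG.sg t198
    t4 (by decide +kernel)
theorem t261 : GG [5, 4, 3, 3, 3] [6, 5, 2, 2, 2, 1] [6, 5, 2, 2, 2, 1] :=
  GG.sg (t260.var (a' := [3, 2, 1, 1, 1]) (b' := [3, 2, 1, 1, 1]) (c' := [3, 2, 1, 1, 1]) 1 0 (by decide +kernel))
    (t203.var (a' := [2, 2, 2, 2, 2]) (b' := [3, 3, 1, 1, 1, 1]) (c' := [3, 3, 1, 1, 1, 1]) 3 0 (by decide +kernel)) (by decide +kernel)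
theorem t262 : GG [3, 3, 3, 3, 2] [6, 5, 2, 1] [6, 5, 2, 1] :=
  GG.sg (t58.var (a' := [1, 1, 1, 1]) (b' := [2, 2]) (c' := [2, 2]) 1 2 (by decide +kernel))
    (t199.var (a' := [2, 2, 2, 2, 2]) (b' := [4, 3, 2, 1]) (c' := [4, 3, 2, 1]) 0 4 (by decide +kernel)) (by decide +kernel)
theorem t263 : GG [4, 4, 4, 4, 2] [6, 5, 2, 2, 2, 1] [6, 5, 2, 2, 2, 1] :=
  GG.sg (t58.var (a' := [1, 1, 1, 1]) (b' := [2, 2]) (c' := [2, 2]) 1 2 (by decide +kernel))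
    (t262.var (a' := [3, 3, 3, 3, 2]) (b' := [4, 3, 2, 2, 2, 1]) (c' := [4, 3, 2, 2, 2, 1]) 3 0 (by decide +kernel)) (by decide +kernel)
theorem t264 : GG [6, 5, 2, 1] [6, 5, 2, 1] [4, 3, 3, 2, 2] :=
  GG.m1 4 10 t153 (by decide +kernel)
theorem t265 : GG [5, 4, 4, 3, 2] [6, 5, 2, 2, 2, 1] [6, 5, 2, 2, 2, 1] :=
  GG.sg (t58.var (a' := [1, 1, 1, 1]) (b' := [2, 2]) (c' := [2, 2]) 1 2 (by decide +kernel))
    (t264.var (a' := [4, 3, 3, 2, 2]) (b' := [4, 3, 2, 2, 2, 1]) (c' := [4, 3, 2, 2, 2, 1]) 1 4 (by decide +kernel)) (by decide +kernel)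
theorem t266 : GG [6, 5, 2, 1] [6, 5, 2, 1] [4, 4, 2, 2, 2] :=
  GG.m1 4 10 t150 (by decide +kernel)
theorem t267 : GG [5, 5, 3, 3, 2] [6, 5, 2, 2, 2, 1] [6, 5, 2, 2, 2, 1] :=
  GG.sg (t58.var (a' := [1, 1, 1, 1]) (b' := [2, 2]) (c' := [2, 2]) 1 2 (by decide +kernel))
    (t266.var (a' := [4, 4, 2, 2, 2]) (b' := [4, 3, 2, 2, 2, 1]) (c' := [4, 3, 2, 2, 2, 1]) 1 4 (by decide +kernel)) (by decide +kernel)
theorem A18 : AllG [6, 5, 2, 2, 2, 1] [[7, 3, 3, 3, 2], [7, 3, 3, 3, 1, 1], [6, 4, 4, 4], [6, 4, 4, 3, 1], [6, 4, 4, 2, 2], [6, 4, 4, 2, 1, 1], [6, 4, 3, 3, 2], [6, 4, 3, 3, 1, 1], [6, 3, 3, 3, 3], [5, 5, 5, 3], [5, 5, 5, 2, 1], [5, 5, 4, 4], [5, 5, 4, 3, 1], [5, 5, 4, 2, 2], [5, 5, 3, 3, 2], [5, 4, 4, 3, 2], [5, 4, 3, 3, 3]] :=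
  AllG.cons (t241.var (a' := [6, 5, 2, 2, 2, 1]) (b' := [6, 5, 2, 2, 2, 1]) (c' := [7, 3, 3, 3, 2]) 0 1 (by decide +kernel)) <|
    AllG.cons (t244.var (a' := [6, 5, 2, 2, 2, 1]) (b' := [6, 5, 2, 2, 2, 1]) (c' := [7, 3, 3, 3, 1, 1]) 0 1 (by decide +kernel)) <|
    AllG.cons (t247.var (a' := [6, 5, 2, 2, 2, 1]) (b' := [6, 5, 2, 2, 2, 1]) (c' := [6, 4, 4, 4]) 1 3 (by decide +kernel)) <|
    AllG.cons (t249.var (a' := [6, 5, 2, 2, 2, 1]) (b' := [6, 5, 2, 2, 2, 1]) (c' := [6, 4, 4, 3, 1]) 1 3 (by decide +kernel)) <|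
    AllG.cons (t252.var (a' := [6, 5, 2, 2, 2, 1]) (b' := [6, 5, 2, 2, 2, 1]) (c' := [6, 4, 4, 2, 2]) 1 3 (by decide +kernel)) <|
    AllG.cons (t253.var (a' := [6, 5, 2, 2, 2, 1]) (b' := [6, 5, 2, 2, 2, 1]) (c' := [6, 4, 4, 2, 1, 1]) 1 3 (by decide +kernel)) <|
    AllG.cons (t255.var (a' := [6, 5, 2, 2, 2, 1]) (b' := [6, 5, 2, 2, 2, 1]) (c' := [6, 4, 3, 3, 2]) 0 3 (by decide +kernel)) <|
    AllG.cons (t253.var (a' := [6, 5, 2, 2, 2, 1]) (b' := [6, 5, 2, 2, 2, 1]) (c' := [6, 4, 3, 3, 1, 1]) 0 3 (by decide +kernel)) <|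
    AllG.cons (t257.var (a' := [6, 5, 2, 2, 2, 1]) (b' := [6, 5, 2, 2, 2, 1]) (c' := [6, 3, 3, 3, 3]) 0 3 (by decide +kernel)) <|
    AllG.cons (t259.var (a' := [6, 5, 2, 2, 2, 1]) (b' := [6, 5, 2, 2, 2, 1]) (c' := [5, 5, 5, 3]) 0 3 (by decide +kernel)) <|
    AllG.cons (t261.var (a' := [6, 5, 2, 2, 2, 1]) (b' := [6, 5, 2, 2, 2, 1]) (c' := [5, 5, 5, 2, 1]) 1 3 (by decide +kernel)) <|
    AllG.cons (t263.var (a' := [6, 5, 2, 2, 2, 1]) (b' := [6, 5, 2, 2, 2, 1]) (c' := [5, 5, 4, 4]) 1 3 (by decide +kernel)) <|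
    AllG.cons (t265.var (a' := [6, 5, 2, 2, 2, 1]) (b' := [6, 5, 2, 2, 2, 1]) (c' := [5, 5, 4, 3, 1]) 1 3 (by decide +kernel)) <|
    AllG.cons (t267.var (a' := [6, 5, 2, 2, 2, 1]) (b' := [6, 5, 2, 2, 2, 1]) (c' := [5, 5, 4, 2, 2]) 1 3 (by decide +kernel)) <|
    AllG.cons (t267.var (a' := [6, 5, 2, 2, 2, 1]) (b' := [6, 5, 2, 2, 2, 1]) (c' := [5, 5, 3, 3, 2]) 0 3 (by decide +kernel)) <|
    AllG.cons (t265.var (a' := [6, 5, 2, 2, 2, 1]) (b' := [6, 5, 2, 2, 2, 1]) (c' := [5, 4, 4, 3, 2]) 0 3 (by decide +kernel)) <|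
    AllG.cons (t261.var (a' := [6, 5, 2, 2, 2, 1]) (b' := [6, 5, 2, 2, 2, 1]) (c' := [5, 4, 3, 3, 3]) 0 3 (by decide +kernel)) <|
    AllG.nil _
theorem F18 : Full (ofL [6, 5, 2, 2, 2, 1]) 18 :=
  full2 4 1 F7 full_nil A18 (by decide +kernel)
theorem t268 : GG [4, 3, 3, 3] [5, 4, 2, 1, 1] [5, 4, 2, 1, 1] :=
  GG.sg (t58.var (a' := [1, 1, 1, 1]) (b' := [2, 2]) (c' := [2, 2]) 1 2 (by decide +kernel))
    (t81.var (a' := [3, 2, 2, 2]) (b' := [3, 2, 2, 1, 1]) (c' := [3, 2, 2, 1, 1]) 1 4 (by decide +kernel)) (by decide +kernel)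
theorem t269 : GG [6, 5, 3, 2, 2, 1] [6, 5, 3, 2, 2, 1] [7, 3, 3, 3, 3] :=
  GG.m1 6 13 (t268.var (a' := [5, 4, 2, 1, 1]) (b' := [5, 4, 2, 1, 1]) (c' := [4, 3, 3, 3]) 0 3 (by decide +kernel)) (by decide +kernel)
theorem t270 : GG [6, 4, 4, 3, 2] [6, 5, 3, 2, 2, 1] [6, 5, 3, 2, 2, 1] :=
  GG.sg (t40.var (a' := [2, 1, 1, 1]) (b' := [2, 2, 1]) (c' := [2, 2, 1]) 1 2 (by decide +kernel))
    (t264.var (a' := [4, 3, 3, 2, 2]) (b' := [4, 3, 2, 2, 2, 1]) (c' := [4, 3, 2, 2, 2, 1]) 1 4 (by decide +kernel)) (by decide +kernel)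
theorem t271 : GG [6, 4, 4, 3, 1, 1] [6, 5, 3, 2, 2, 1] [6, 5, 3, 2, 2, 1] :=
  GG.sg (t2.var (a' := [2, 1, 1]) (b' := [2, 1, 1]) (c' := [2, 1, 1]) 1 0 (by decide +kernel))
    (t248.var (a' := [4, 3, 3, 3, 1, 1]) (b' := [4, 4, 2, 2, 2, 1]) (c' := [4, 4, 2, 2, 2, 1]) 1 0 (by decide +kernel)) (by decide +kernel)
theorem t272 : GG [5, 5, 5, 2, 1, 1] [6, 5, 3, 2, 2, 1] [6, 5, 3, 2, 2, 1] :=
  GG.m1 6 13 (t268.var (a' := [4, 4, 4, 1]) (b' := [5, 4, 2, 1, 1]) (c' := [5, 3, 2, 2, 1]) 1 1 (by decide +kernel)) (by decide +kernel)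
theorem t273 : GG [3, 3] [6] [3, 3] :=
  GG.sg (t39.var (a' := [1, 1]) (b' := [2]) (c' := [1, 1]) 0 1 (by decide +kernel))
    t58 (by decide +kernel)
theorem t274 : GG [3, 3, 2, 2, 2, 1] [6, 5, 2] [5, 5, 3] :=
  GG.sg (t273.var (a' := [1, 1, 1, 1, 1, 1]) (b' := [3, 3]) (c' := [2, 2, 2]) 1 3 (by decide +kernel))
    (t44.var (a' := [2, 2, 1, 1, 1]) (b' := [3, 2, 2]) (c' := [3, 3, 1]) 1 2 (by decide +kernel)) (by decide +kernel)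
theorem t275 : GG [5, 5, 4, 3, 2] [6, 5, 3, 2, 2, 1] [6, 5, 3, 2, 2, 1] :=
  GG.sg (t152.var (a' := [2, 2, 1, 1]) (b' := [3, 2, 1]) (c' := [3, 2, 1]) 0 4 (by decide +kernel))
    (t274.var (a' := [3, 3, 3, 2, 2]) (b' := [3, 3, 2, 2, 2, 1]) (c' := [3, 3, 2, 2, 2, 1]) 3 4 (by decide +kernel)) (by decide +kernel)
theorem A19 : AllG [6, 5, 3, 2, 2, 1] [[7, 3, 3, 3, 3], [6, 4, 4, 3, 2], [6, 4, 4, 3, 1, 1], [6, 4, 3, 3, 3], [5, 5, 4, 3, 2]] :=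
  AllG.cons t269 <|
    AllG.cons (t270.var (a' := [6, 5, 3, 2, 2, 1]) (b' := [6, 5, 3, 2, 2, 1]) (c' := [6, 4, 4, 3, 2]) 0 3 (by decide +kernel)) <|
    AllG.cons (t271.var (a' := [6, 5, 3, 2, 2, 1]) (b' := [6, 5, 3, 2, 2, 1]) (c' := [6, 4, 4, 3, 1, 1]) 0 3 (by decide +kernel)) <|
    AllG.cons (t272.var (a' := [6, 5, 3, 2, 2, 1]) (b' := [6, 5, 3, 2, 2, 1]) (c' := [6, 4, 3, 3, 3]) 1 3 (by decide +kernel)) <|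
    AllG.cons (t275.var (a' := [6, 5, 3, 2, 2, 1]) (b' := [6, 5, 3, 2, 2, 1]) (c' := [5, 5, 4, 3, 2]) 0 3 (by decide +kernel)) <|
    AllG.nil _
theorem F19 : Full (ofL [6, 5, 3, 2, 2, 1]) 19 :=
  full2 4 1 F8 F1 A19 (by decide +kernel)

end Crest.Agent.R195
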