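import Crest.Agent.R195.Cert2

/-!
# Row 195: generated certificates, part 3
-/

set_option autoImplicit false
set_option maxRecDepth 4000

namespace Crest.Agent.R195

theorem t276 : GG [6, 5, 2, 2, 2, 1] [6, 5, 2, 2, 2, 1] [8, 1, 1, 1, 1, 1, 1, 1, 1, 1, 1] :=
  F18.gg (by decide +kernel)
theorem t277 : GG [7, 5, 2, 2, 2, 1] [7, 5, 2, 2, 2, 1] [9, 1, 1, 1, 1, 1, 1, 1, 1, 1, 1] :=
  GG.sg t0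
    t276 (by decide +kernel)
theorem t278 : GG [7, 5, 2, 2, 2, 1, 1] [7, 5, 2, 2, 2, 1, 1] [10, 1, 1, 1, 1, 1, 1, 1, 1, 1, 1] :=
  GG.sg t0
    (t277.var (a' := [6, 5, 2, 2, 2, 1, 1]) (b' := [6, 5, 2, 2, 2, 1, 1]) (c' := [9, 1, 1, 1, 1, 1, 1, 1, 1, 1, 1]) 1 0 (by decide +kernel)) (by decide +kernel)
theorem t279 : GG [6, 5, 2, 2, 2, 1] [6, 5, 2, 2, 2, 1] [6, 6, 1, 1, 1, 1, 1, 1] :=
  F18.gg (by decide +kernel)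
theorem t280 : GG [7, 5, 2, 2, 2, 1] [7, 5, 2, 2, 2, 1] [9, 2, 2, 2, 2, 2] :=
  GG.sg t0
    (t279.var (a' := [6, 5, 2, 2, 2, 1]) (b' := [6, 5, 2, 2, 2, 1]) (c' := [8, 2, 2, 2, 2, 2]) 2 0 (by decide +kernel)) (by decide +kernel)
theorem t281 : GG [7, 5, 2, 2, 2, 1, 1] [10, 2, 2, 2, 2, 2] [7, 5, 2, 2, 2, 1, 1] :=
  GG.sg t0
    (t280.var (a' := [6, 5, 2, 2, 2, 1, 1]) (b' := [9, 2, 2, 2, 2, 2]) (c' := [6, 5, 2, 2, 2, 1, 1]) 1 1 (by decide +kernel)) (by decide +kernel)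
theorem t282 : GG [6, 5, 2, 2, 2, 1] [6, 5, 2, 2, 2, 1] [5, 5, 1, 1, 1, 1, 1, 1, 1, 1] :=
  F18.gg (by decide +kernel)
theorem t283 : GG [6, 5, 1, 1, 1, 1, 1, 1, 1, 1] [7, 5, 2, 2, 2, 1] [7, 5, 2, 2, 2, 1] :=
  GG.sg t0
    (t282.var (a' := [5, 5, 1, 1, 1, 1, 1, 1, 1, 1]) (b' := [6, 5, 2, 2, 2, 1]) (c' := [6, 5, 2, 2, 2, 1]) 0 4 (by decide +kernel)) (by decide +kernel)
theorem t284 : GG [7, 5, 1, 1, 1, 1, 1, 1, 1, 1] [7, 5, 2, 2, 2, 1, 1] [7, 5, 2, 2, 2, 1, 1] :=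
  GG.sg t0
    (t283.var (a' := [6, 5, 1, 1, 1, 1, 1, 1, 1, 1]) (b' := [6, 5, 2, 2, 2, 1, 1]) (c' := [6, 5, 2, 2, 2, 1, 1]) 3 0 (by decide +kernel)) (by decide +kernel)
theorem t285 : GG [6, 5, 2, 2, 2, 1] [6, 5, 2, 2, 2, 1] [6, 4, 1, 1, 1, 1, 1, 1, 1, 1] :=
  F18.gg (by decide +kernel)
theorem t286 : GG [7, 5, 2, 2, 2, 1] [7, 5, 2, 2, 2, 1] [7, 4, 1, 1, 1, 1, 1, 1, 1, 1] :=
  GG.sg t0
    t285 (by decide +kernel)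
theorem t287 : GG [7, 5, 2, 2, 2, 1, 1] [7, 5, 2, 2, 2, 1, 1] [8, 4, 1, 1, 1, 1, 1, 1, 1, 1] :=
  GG.sg t0
    (t286.var (a' := [6, 5, 2, 2, 2, 1, 1]) (b' := [6, 5, 2, 2, 2, 1, 1]) (c' := [7, 4, 1, 1, 1, 1, 1, 1, 1, 1]) 1 0 (by decide +kernel)) (by decide +kernel)
theorem t288 : GG [6, 5, 2, 2, 2, 1] [6, 5, 2, 2, 2, 1] [7, 3, 1, 1, 1, 1, 1, 1, 1, 1] :=
  F18.gg (by decide +kernel)
theorem t289 : GG [7, 5, 2, 2, 2, 1] [7, 5, 2, 2, 2, 1] [8, 3, 1, 1, 1, 1, 1, 1, 1, 1] :=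
  GG.sg t0
    t288 (by decide +kernel)
theorem t290 : GG [7, 5, 2, 2, 2, 1, 1] [7, 5, 2, 2, 2, 1, 1] [9, 3, 1, 1, 1, 1, 1, 1, 1, 1] :=
  GG.sg t0
    (t289.var (a' := [6, 5, 2, 2, 2, 1, 1]) (b' := [6, 5, 2, 2, 2, 1, 1]) (c' := [8, 3, 1, 1, 1, 1, 1, 1, 1, 1]) 1 0 (by decide +kernel)) (by decide +kernel)
theorem t291 : GG [6, 5, 2, 2, 2, 1] [6, 5, 2, 2, 2, 1] [8, 2, 1, 1, 1, 1, 1, 1, 1, 1] :=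
  F18.gg (by decide +kernel)
theorem t292 : GG [7, 5, 2, 2, 2, 1] [7, 5, 2, 2, 2, 1] [9, 2, 1, 1, 1, 1, 1, 1, 1, 1] :=
  GG.sg t0
    t291 (by decide +kernel)
theorem t293 : GG [7, 5, 2, 2, 2, 1, 1] [7, 5, 2, 2, 2, 1, 1] [10, 2, 1, 1, 1, 1, 1, 1, 1, 1] :=
  GG.sg t0
    (t292.var (a' := [6, 5, 2, 2, 2, 1, 1]) (b' := [6, 5, 2, 2, 2, 1, 1]) (c' := [9, 2, 1, 1, 1, 1, 1, 1, 1, 1]) 1 0 (by decide +kernel)) (by decide +kernel)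
theorem t294 : GG [4, 3, 3, 3] [5, 2, 2, 2, 1, 1] [5, 2, 2, 2, 1, 1] :=
  GG.sg t0
    (t209.var (a' := [3, 3, 3, 3]) (b' := [4, 2, 2, 2, 1, 1]) (c' := [4, 2, 2, 2, 1, 1]) 3 0 (by decide +kernel)) (by decide +kernel)
theorem t295 : GG [7, 5, 2, 2, 2, 1, 1] [7, 5, 2, 2, 2, 1, 1] [9, 3, 3, 3, 2] :=
  GG.m1 7 13 (t294.var (a' := [6, 4, 1, 1, 1]) (b' := [6, 4, 1, 1, 1]) (c' := [4, 3, 3, 3]) 3 3 (by decide +kernel)) (by decide +kernel)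
theorem t296 : GG [6, 3, 3, 1] [6, 4, 1, 1, 1] [5, 2, 2, 2, 1, 1] :=
  GG.sg (t273.var (a' := [2, 2, 2]) (b' := [3, 3]) (c' := [1, 1, 1, 1, 1, 1]) 1 1 (by decide +kernel))
    (t6.var (a' := [4, 1, 1, 1]) (b' := [3, 1, 1, 1, 1]) (c' := [4, 1, 1, 1]) 0 2 (by decide +kernel)) (by decide +kernel)
theorem t297 : GG [7, 5, 2, 2, 2, 1, 1] [7, 5, 2, 2, 2, 1, 1] [9, 3, 3, 3, 1, 1] :=
  GG.m1 7 13 (t296.var (a' := [6, 4, 1, 1, 1]) (b' := [6, 4, 1, 1, 1]) (c' := [4, 3, 3, 1, 1, 1]) 2 3 (by decide +kernel)) (by decide +kernel)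
theorem t298 : GG [5, 3, 2, 2, 1] [6, 4, 1, 1, 1] [6, 4, 1, 1, 1] :=
  GG.m1 5 8 (t183.var (a' := [4, 2, 1, 1]) (b' := [5, 3]) (c' := [4, 2, 1, 1]) 2 1 (by decide +kernel)) (by decide +kernel)
theorem t299 : GG [7, 5, 2, 2, 2, 1, 1] [7, 5, 2, 2, 2, 1, 1] [9, 3, 3, 2, 2, 1] :=
  GG.m1 7 13 (t298.var (a' := [6, 4, 1, 1, 1]) (b' := [6, 4, 1, 1, 1]) (c' := [5, 3, 2, 2, 1]) 0 3 (by decide +kernel)) (by decide +kernel)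
theorem t300 : GG [7, 5, 2, 2, 2, 1, 1] [7, 5, 2, 2, 2, 1, 1] [9, 3, 3, 2, 1, 1, 1] :=
  GG.m1 7 13 (t296.var (a' := [6, 4, 1, 1, 1]) (b' := [6, 4, 1, 1, 1]) (c' := [4, 3, 3, 1, 1, 1]) 2 3 (by decide +kernel)) (by decide +kernel)
theorem t301 : GG [6, 5, 2, 2, 2, 1] [6, 5, 2, 2, 2, 1] [6, 3, 3, 1, 1, 1, 1, 1, 1] :=
  F18.gg (by decide +kernel)
theorem t302 : GG [7, 5, 2, 2, 2, 1] [7, 5, 2, 2, 2, 1] [7, 3, 3, 1, 1, 1, 1, 1, 1] :=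
  GG.sg t0
    t301 (by decide +kernel)
theorem t303 : GG [7, 5, 2, 2, 2, 1, 1] [7, 5, 2, 2, 2, 1, 1] [8, 3, 3, 1, 1, 1, 1, 1, 1] :=
  GG.sg t0
    (t302.var (a' := [6, 5, 2, 2, 2, 1, 1]) (b' := [6, 5, 2, 2, 2, 1, 1]) (c' := [7, 3, 3, 1, 1, 1, 1, 1, 1]) 1 0 (by decide +kernel)) (by decide +kernel)
theorem t304 : GG [6, 5, 2, 2, 2, 1] [6, 5, 2, 2, 2, 1] [6, 6, 2, 1, 1, 1, 1] :=
  F18.gg (by decide +kernel)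
theorem t305 : GG [7, 5, 2, 2, 2, 1] [7, 5, 2, 2, 2, 1] [8, 3, 2, 2, 2, 2] :=
  GG.sg t0
    (t304.var (a' := [6, 5, 2, 2, 2, 1]) (b' := [6, 5, 2, 2, 2, 1]) (c' := [7, 3, 2, 2, 2, 2]) 2 0 (by decide +kernel)) (by decide +kernel)
theorem t306 : GG [7, 5, 2, 2, 2, 1, 1] [9, 3, 2, 2, 2, 2] [7, 5, 2, 2, 2, 1, 1] :=
  GG.sg t0
    (t305.var (a' := [6, 5, 2, 2, 2, 1, 1]) (b' := [8, 3, 2, 2, 2, 2]) (c' := [6, 5, 2, 2, 2, 1, 1]) 1 1 (by decide +kernel)) (by decide +kernel)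
theorem t307 : GG [6, 5, 2, 2, 2, 1] [6, 5, 2, 2, 2, 1] [5, 5, 2, 1, 1, 1, 1, 1, 1] :=
  F18.gg (by decide +kernel)
theorem t308 : GG [6, 5, 2, 1, 1, 1, 1, 1, 1] [7, 5, 2, 2, 2, 1] [7, 5, 2, 2, 2, 1] :=
  GG.sg t0
    (t307.var (a' := [5, 5, 2, 1, 1, 1, 1, 1, 1]) (b' := [6, 5, 2, 2, 2, 1]) (c' := [6, 5, 2, 2, 2, 1]) 0 4 (by decide +kernel)) (by decide +kernel)
theorem t309 : GG [7, 5, 2, 1, 1, 1, 1, 1, 1] [7, 5, 2, 2, 2, 1, 1] [7, 5, 2, 2, 2, 1, 1] :=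
  GG.sg t0
    (t308.var (a' := [6, 5, 2, 1, 1, 1, 1, 1, 1]) (b' := [6, 5, 2, 2, 2, 1, 1]) (c' := [6, 5, 2, 2, 2, 1, 1]) 3 0 (by decide +kernel)) (by decide +kernel)
theorem t310 : GG [6, 5, 2, 2, 2, 1] [6, 5, 2, 2, 2, 1] [6, 4, 2, 1, 1, 1, 1, 1, 1] :=
  F18.gg (by decide +kernel)
theorem t311 : GG [7, 5, 2, 2, 2, 1] [7, 5, 2, 2, 2, 1] [7, 4, 2, 1, 1, 1, 1, 1, 1] :=
  GG.sg t0
    t310 (by decide +kernel)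
theorem t312 : GG [7, 5, 2, 2, 2, 1, 1] [7, 5, 2, 2, 2, 1, 1] [8, 4, 2, 1, 1, 1, 1, 1, 1] :=
  GG.sg t0
    (t311.var (a' := [6, 5, 2, 2, 2, 1, 1]) (b' := [6, 5, 2, 2, 2, 1, 1]) (c' := [7, 4, 2, 1, 1, 1, 1, 1, 1]) 1 0 (by decide +kernel)) (by decide +kernel)
theorem t313 : GG [6, 5, 2, 2, 2, 1] [6, 5, 2, 2, 2, 1] [7, 3, 2, 1, 1, 1, 1, 1, 1] :=
  F18.gg (by decide +kernel)
theorem t314 : GG [7, 5, 2, 2, 2, 1] [7, 5, 2, 2, 2, 1] [8, 3, 2, 1, 1, 1, 1, 1, 1] :=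
  GG.sg t0
    t313 (by decide +kernel)
theorem t315 : GG [7, 5, 2, 2, 2, 1, 1] [7, 5, 2, 2, 2, 1, 1] [9, 3, 2, 1, 1, 1, 1, 1, 1] :=
  GG.sg t0
    (t314.var (a' := [6, 5, 2, 2, 2, 1, 1]) (b' := [6, 5, 2, 2, 2, 1, 1]) (c' := [8, 3, 2, 1, 1, 1, 1, 1, 1]) 1 0 (by decide +kernel)) (by decide +kernel)
theorem t316 : GG [2, 2, 2, 1] [2, 2, 2, 1] [6, 1] :=
  GG.m1 4 3 t13 (by decide +kernel)
theorem t317 : GG [5, 3, 3, 2] [6, 4, 1, 1, 1] [5, 2, 2, 2, 1, 1] :=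
  GG.sg (t5.var (a' := [3, 1, 1, 1]) (b' := [2, 1, 1, 1, 1]) (c' := [3, 1, 1, 1]) 3 2 (by decide +kernel))
    (t316.var (a' := [2, 2, 2, 1]) (b' := [4, 3]) (c' := [2, 1, 1, 1, 1, 1]) 2 2 (by decide +kernel)) (by decide +kernel)
theorem t318 : GG [7, 5, 2, 2, 2, 1, 1] [7, 5, 2, 2, 2, 1, 1] [8, 4, 4, 3, 1] :=
  GG.m1 7 13 (t317.var (a' := [6, 4, 1, 1, 1]) (b' := [6, 4, 1, 1, 1]) (c' := [4, 4, 3, 1, 1]) 2 3 (by decide +kernel)) (by decide +kernel)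
theorem t319 : GG [7, 5, 2, 2, 2, 1, 1] [7, 5, 2, 2, 2, 1, 1] [8, 4, 4, 2, 1, 1] :=
  GG.m1 7 13 (t317.var (a' := [6, 4, 1, 1, 1]) (b' := [6, 4, 1, 1, 1]) (c' := [4, 4, 3, 1, 1]) 2 3 (by decide +kernel)) (by decide +kernel)
theorem t320 : GG [6, 5, 2, 2, 2, 1] [6, 5, 2, 2, 2, 1] [5, 3, 3, 3, 1, 1, 1, 1] :=
  F18.gg (by decide +kernel)
theorem t321 : GG [6, 3, 3, 3, 1, 1, 1, 1] [7, 5, 2, 2, 2, 1] [7, 5, 2, 2, 2, 1] :=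
  GG.sg t0
    (t320.var (a' := [5, 3, 3, 3, 1, 1, 1, 1]) (b' := [6, 5, 2, 2, 2, 1]) (c' := [6, 5, 2, 2, 2, 1]) 0 4 (by decide +kernel)) (by decide +kernel)
theorem t322 : GG [7, 3, 3, 3, 1, 1, 1, 1] [7, 5, 2, 2, 2, 1, 1] [7, 5, 2, 2, 2, 1, 1] :=
  GG.sg t0
    (t321.var (a' := [6, 3, 3, 3, 1, 1, 1, 1]) (b' := [6, 5, 2, 2, 2, 1, 1]) (c' := [6, 5, 2, 2, 2, 1, 1]) 3 0 (by decide +kernel)) (by decide +kernel)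
theorem t323 : GG [7, 5, 2, 2, 2, 1, 1] [7, 5, 2, 2, 2, 1, 1] [8, 4, 3, 3, 2] :=
  GG.m1 7 13 (t294.var (a' := [6, 4, 1, 1, 1]) (b' := [6, 4, 1, 1, 1]) (c' := [4, 3, 3, 3]) 3 3 (by decide +kernel)) (by decide +kernel)
theorem t324 : GG [7, 5, 2, 2, 2, 1, 1] [7, 5, 2, 2, 2, 1, 1] [8, 4, 3, 3, 1, 1] :=
  GG.m1 7 13 (t296.var (a' := [6, 4, 1, 1, 1]) (b' := [6, 4, 1, 1, 1]) (c' := [4, 3, 3, 1, 1, 1]) 2 3 (by decide +kernel)) (by decide +kernel)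
theorem t325 : GG [7, 5, 2, 2, 2, 1, 1] [7, 5, 2, 2, 2, 1, 1] [8, 4, 3, 2, 2, 1] :=
  GG.m1 7 13 (t298.var (a' := [6, 4, 1, 1, 1]) (b' := [6, 4, 1, 1, 1]) (c' := [5, 3, 2, 2, 1]) 0 3 (by decide +kernel)) (by decide +kernel)
theorem t326 : GG [7, 5, 2, 2, 2, 1, 1] [7, 5, 2, 2, 2, 1, 1] [8, 4, 3, 2, 1, 1, 1] :=
  GG.m1 7 13 (t296.var (a' := [6, 4, 1, 1, 1]) (b' := [6, 4, 1, 1, 1]) (c' := [4, 3, 3, 1, 1, 1]) 2 3 (by decide +kernel)) (by decide +kernel)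
theorem t327 : GG [6, 5, 2, 2, 2, 1] [6, 5, 2, 2, 2, 1] [6, 3, 3, 2, 1, 1, 1, 1] :=
  F18.gg (by decide +kernel)
theorem t328 : GG [7, 5, 2, 2, 2, 1] [7, 5, 2, 2, 2, 1] [7, 3, 3, 2, 1, 1, 1, 1] :=
  GG.sg t0
    t327 (by decide +kernel)
theorem t329 : GG [7, 5, 2, 2, 2, 1, 1] [7, 5, 2, 2, 2, 1, 1] [8, 3, 3, 2, 1, 1, 1, 1] :=
  GG.sg t0
    (t328.var (a' := [6, 5, 2, 2, 2, 1, 1]) (b' := [6, 5, 2, 2, 2, 1, 1]) (c' := [7, 3, 3, 2, 1, 1, 1, 1]) 1 0 (by decide +kernel)) (by decide +kernel)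
theorem t330 : GG [6, 5, 2, 2, 2, 1] [6, 5, 2, 2, 2, 1] [5, 5, 2, 2, 1, 1, 1, 1] :=
  F18.gg (by decide +kernel)
theorem t331 : GG [6, 5, 2, 2, 1, 1, 1, 1] [7, 5, 2, 2, 2, 1] [7, 5, 2, 2, 2, 1] :=
  GG.sg t0
    (t330.var (a' := [5, 5, 2, 2, 1, 1, 1, 1]) (b' := [6, 5, 2, 2, 2, 1]) (c' := [6, 5, 2, 2, 2, 1]) 0 4 (by decide +kernel)) (by decide +kernel)
theorem t332 : GG [7, 5, 2, 2, 1, 1, 1, 1] [7, 5, 2, 2, 2, 1, 1] [7, 5, 2, 2, 2, 1, 1] :=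
  GG.sg t0
    (t331.var (a' := [6, 5, 2, 2, 1, 1, 1, 1]) (b' := [6, 5, 2, 2, 2, 1, 1]) (c' := [6, 5, 2, 2, 2, 1, 1]) 3 0 (by decide +kernel)) (by decide +kernel)
theorem t333 : GG [6, 5, 2, 2, 2, 1] [6, 5, 2, 2, 2, 1] [6, 4, 2, 2, 1, 1, 1, 1] :=
  F18.gg (by decide +kernel)
theorem t334 : GG [7, 5, 2, 2, 2, 1] [7, 5, 2, 2, 2, 1] [7, 4, 2, 2, 1, 1, 1, 1] :=
  GG.sg t0
    t333 (by decide +kernel)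
theorem t335 : GG [7, 5, 2, 2, 2, 1, 1] [7, 5, 2, 2, 2, 1, 1] [8, 4, 2, 2, 1, 1, 1, 1] :=
  GG.sg t0
    (t334.var (a' := [6, 5, 2, 2, 2, 1, 1]) (b' := [6, 5, 2, 2, 2, 1, 1]) (c' := [7, 4, 2, 2, 1, 1, 1, 1]) 1 0 (by decide +kernel)) (by decide +kernel)
theorem t336 : GG [7, 5, 2, 2, 2, 1, 1] [7, 5, 2, 2, 2, 1, 1] [8, 3, 3, 3, 3] :=
  GG.m1 7 13 (t294.var (a' := [6, 4, 1, 1, 1]) (b' := [6, 4, 1, 1, 1]) (c' := [4, 3, 3, 3]) 3 3 (by decide +kernel)) (by decide +kernel)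
theorem t337 : GG [6, 5, 2, 2, 2, 1] [6, 5, 2, 2, 2, 1] [6, 3, 3, 3, 2, 1] :=
  F18.gg (by decide +kernel)
theorem t338 : GG [7, 5, 2, 2, 2, 1] [7, 5, 2, 2, 2, 1] [7, 3, 3, 3, 2, 1] :=
  GG.sg t0
    t337 (by decide +kernel)
theorem t339 : GG [7, 5, 2, 2, 2, 1, 1] [8, 3, 3, 3, 2, 1] [7, 5, 2, 2, 2, 1, 1] :=
  GG.sg t0
    (t338.var (a' := [6, 5, 2, 2, 2, 1, 1]) (b' := [7, 3, 3, 3, 2, 1]) (c' := [6, 5, 2, 2, 2, 1, 1]) 1 1 (by decide +kernel)) (by decide +kernel)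
theorem t340 : GG [7, 5, 2, 2, 2, 1, 1] [7, 5, 2, 2, 2, 1, 1] [8, 3, 3, 3, 1, 1, 1] :=
  GG.m1 7 13 (t296.var (a' := [6, 4, 1, 1, 1]) (b' := [6, 4, 1, 1, 1]) (c' := [4, 3, 3, 1, 1, 1]) 2 3 (by decide +kernel)) (by decide +kernel)
theorem t341 : GG [6, 5, 2, 2, 2, 1] [6, 5, 2, 2, 2, 1] [6, 3, 3, 2, 2, 2] :=
  F18.gg (by decide +kernel)
theorem t342 : GG [7, 5, 2, 2, 2, 1] [7, 5, 2, 2, 2, 1] [7, 3, 3, 2, 2, 2] :=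
  GG.sg t0
    t341 (by decide +kernel)
theorem t343 : GG [7, 5, 2, 2, 2, 1, 1] [8, 3, 3, 2, 2, 2] [7, 5, 2, 2, 2, 1, 1] :=
  GG.sg t0
    (t342.var (a' := [6, 5, 2, 2, 2, 1, 1]) (b' := [7, 3, 3, 2, 2, 2]) (c' := [6, 5, 2, 2, 2, 1, 1]) 1 1 (by decide +kernel)) (by decide +kernel)
theorem t344 : GG [6, 5, 2, 2, 2, 1] [6, 5, 2, 2, 2, 1] [5, 5, 3, 1, 1, 1, 1, 1] :=
  F18.gg (by decide +kernel)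
theorem t345 : GG [7, 5, 2, 2, 2, 1] [7, 5, 2, 2, 2, 1] [6, 5, 3, 1, 1, 1, 1, 1] :=
  GG.sg t0
    t344 (by decide +kernel)
theorem t346 : GG [7, 5, 2, 2, 2, 1, 1] [7, 5, 2, 2, 2, 1, 1] [7, 5, 3, 1, 1, 1, 1, 1] :=
  GG.sg t0
    (t345.var (a' := [6, 5, 2, 2, 2, 1, 1]) (b' := [6, 5, 2, 2, 2, 1, 1]) (c' := [6, 5, 3, 1, 1, 1, 1, 1]) 1 0 (by decide +kernel)) (by decide +kernel)
theorem t347 : GG [6, 5, 5, 3] [7, 5, 2, 2, 2, 1] [7, 5, 2, 2, 2, 1] :=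
  GG.sg t0
    t259 (by decide +kernel)
theorem t348 : GG [7, 5, 2, 2, 2, 1, 1] [7, 5, 5, 3] [7, 5, 2, 2, 2, 1, 1] :=
  GG.sg t0
    (t347.var (a' := [6, 5, 2, 2, 2, 1, 1]) (b' := [6, 5, 5, 3]) (c' := [6, 5, 2, 2, 2, 1, 1]) 3 2 (by decide +kernel)) (by decide +kernel)
theorem t349 : GG [6, 5, 5, 2, 1] [7, 5, 2, 2, 2, 1] [7, 5, 2, 2, 2, 1] :=
  GG.sg t0
    (t261.var (a' := [5, 5, 5, 2, 1]) (b' := [6, 5, 2, 2, 2, 1]) (c' := [6, 5, 2, 2, 2, 1]) 1 0 (by decide +kernel)) (by decide +kernel)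
theorem t350 : GG [7, 5, 2, 2, 2, 1, 1] [7, 5, 5, 2, 1] [7, 5, 2, 2, 2, 1, 1] :=
  GG.sg t0
    (t349.var (a' := [6, 5, 2, 2, 2, 1, 1]) (b' := [6, 5, 5, 2, 1]) (c' := [6, 5, 2, 2, 2, 1, 1]) 3 2 (by decide +kernel)) (by decide +kernel)
theorem t351 : GG [6, 5, 2, 2, 2, 1] [6, 5, 2, 2, 2, 1] [4, 3, 3, 3, 3, 1, 1] :=
  F18.gg (by decide +kernel)
theorem t352 : GG [5, 3, 3, 3, 3, 1, 1] [7, 5, 2, 2, 2, 1] [7, 5, 2, 2, 2, 1] :=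
  GG.sg t0
    (t351.var (a' := [4, 3, 3, 3, 3, 1, 1]) (b' := [6, 5, 2, 2, 2, 1]) (c' := [6, 5, 2, 2, 2, 1]) 0 4 (by decide +kernel)) (by decide +kernel)
theorem t353 : GG [6, 3, 3, 3, 3, 1, 1] [7, 5, 2, 2, 2, 1, 1] [7, 5, 2, 2, 2, 1, 1] :=
  GG.sg t0
    (t352.var (a' := [5, 3, 3, 3, 3, 1, 1]) (b' := [6, 5, 2, 2, 2, 1, 1]) (c' := [6, 5, 2, 2, 2, 1, 1]) 3 0 (by decide +kernel)) (by decide +kernel)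
theorem t354 : GG [6, 5, 4, 4] [7, 5, 2, 2, 2, 1] [7, 5, 2, 2, 2, 1] :=
  GG.sg t0
    (t263.var (a' := [5, 5, 4, 4]) (b' := [6, 5, 2, 2, 2, 1]) (c' := [6, 5, 2, 2, 2, 1]) 1 0 (by decide +kernel)) (by decide +kernel)
theorem t355 : GG [7, 5, 2, 2, 2, 1, 1] [7, 5, 4, 4] [7, 5, 2, 2, 2, 1, 1] :=
  GG.sg t0
    (t354.var (a' := [6, 5, 2, 2, 2, 1, 1]) (b' := [6, 5, 4, 4]) (c' := [6, 5, 2, 2, 2, 1, 1]) 3 2 (by decide +kernel)) (by decide +kernel)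
theorem t356 : GG [6, 5, 4, 3, 1] [7, 5, 2, 2, 2, 1] [7, 5, 2, 2, 2, 1] :=
  GG.sg t0
    (t265.var (a' := [5, 5, 4, 3, 1]) (b' := [6, 5, 2, 2, 2, 1]) (c' := [6, 5, 2, 2, 2, 1]) 1 0 (by decide +kernel)) (by decide +kernel)
theorem t357 : GG [7, 5, 2, 2, 2, 1, 1] [7, 5, 4, 3, 1] [7, 5, 2, 2, 2, 1, 1] :=
  GG.sg t0
    (t356.var (a' := [6, 5, 2, 2, 2, 1, 1]) (b' := [6, 5, 4, 3, 1]) (c' := [6, 5, 2, 2, 2, 1, 1]) 3 2 (by decide +kernel)) (by decide +kernel)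
theorem t358 : GG [6, 5, 4, 2, 2] [7, 5, 2, 2, 2, 1] [7, 5, 2, 2, 2, 1] :=
  GG.sg t0
    (t267.var (a' := [5, 5, 4, 2, 2]) (b' := [6, 5, 2, 2, 2, 1]) (c' := [6, 5, 2, 2, 2, 1]) 1 0 (by decide +kernel)) (by decide +kernel)
theorem t359 : GG [7, 5, 2, 2, 2, 1, 1] [7, 5, 4, 2, 2] [7, 5, 2, 2, 2, 1, 1] :=
  GG.sg t0
    (t358.var (a' := [6, 5, 2, 2, 2, 1, 1]) (b' := [6, 5, 4, 2, 2]) (c' := [6, 5, 2, 2, 2, 1, 1]) 3 2 (by decide +kernel)) (by decide +kernel)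
theorem t360 : GG [4, 1] [4, 1] [5] :=
  GG.m1 2 3 (t13.var (a' := [3]) (b' := [3]) (c' := [3]) 1 0 (by decide +kernel)) (by decide +kernel)
theorem t361 : GG [5, 2] [6, 1] [4, 3] :=
  GG.m1 2 5 (t360.var (a' := [4, 1]) (b' := [5]) (c' := [4, 1]) 0 1 (by decide +kernel)) (by decide +kernel)
theorem t362 : GG [5, 2, 2, 2, 1, 1] [6, 4, 1, 1, 1] [5, 3, 2, 2, 1] :=
  GG.sg (t5.var (a' := [3, 1, 1, 1]) (b' := [2, 1, 1, 1, 1]) (c' := [3, 1, 1, 1]) 3 2 (by decide +kernel))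
    (t361.var (a' := [2, 1, 1, 1, 1, 1]) (b' := [4, 3]) (c' := [2, 2, 1, 1, 1]) 1 3 (by decide +kernel)) (by decide +kernel)
theorem t363 : GG [6, 4, 3, 3, 2, 1, 1] [7, 5, 2, 2, 2, 1, 1] [7, 5, 2, 2, 2, 1, 1] :=
  GG.m1 7 13 (t362.var (a' := [5, 3, 2, 2, 1]) (b' := [6, 4, 1, 1, 1]) (c' := [5, 2, 2, 2, 1, 1]) 0 5 (by decide +kernel)) (by decide +kernel)
theorem t364 : GG [6, 5, 2, 2, 2, 1] [6, 5, 2, 2, 2, 1] [5, 3, 3, 3, 2, 1, 1] :=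
  F18.gg (by decide +kernel)
theorem t365 : GG [6, 3, 3, 3, 2, 1, 1] [7, 5, 2, 2, 2, 1] [7, 5, 2, 2, 2, 1] :=
  GG.sg t0
    (t364.var (a' := [5, 3, 3, 3, 2, 1, 1]) (b' := [6, 5, 2, 2, 2, 1]) (c' := [6, 5, 2, 2, 2, 1]) 0 4 (by decide +kernel)) (by decide +kernel)
theorem t366 : GG [7, 3, 3, 3, 2, 1, 1] [7, 5, 2, 2, 2, 1, 1] [7, 5, 2, 2, 2, 1, 1] :=
  GG.sg t0
    (t365.var (a' := [6, 3, 3, 3, 2, 1, 1]) (b' := [6, 5, 2, 2, 2, 1, 1]) (c' := [6, 5, 2, 2, 2, 1, 1]) 3 0 (by decide +kernel)) (by decide +kernel)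
theorem t367 : GG [6, 5, 3, 3, 2] [7, 5, 2, 2, 2, 1] [7, 5, 2, 2, 2, 1] :=
  GG.sg t0
    t267 (by decide +kernel)
theorem t368 : GG [7, 5, 2, 2, 2, 1, 1] [7, 5, 3, 3, 2] [7, 5, 2, 2, 2, 1, 1] :=
  GG.sg t0
    (t367.var (a' := [6, 5, 2, 2, 2, 1, 1]) (b' := [6, 5, 3, 3, 2]) (c' := [6, 5, 2, 2, 2, 1, 1]) 3 2 (by decide +kernel)) (by decide +kernel)
theorem t369 : GG [6, 5, 2, 2, 2, 1] [6, 5, 2, 2, 2, 1] [4, 4, 4, 2, 2, 1, 1] :=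
  F18.gg (by decide +kernel)
theorem t370 : GG [5, 4, 4, 2, 2, 1, 1] [7, 5, 2, 2, 2, 1] [7, 5, 2, 2, 2, 1] :=
  GG.sg t0
    (t369.var (a' := [4, 4, 4, 2, 2, 1, 1]) (b' := [6, 5, 2, 2, 2, 1]) (c' := [6, 5, 2, 2, 2, 1]) 0 4 (by decide +kernel)) (by decide +kernel)
theorem t371 : GG [6, 4, 4, 2, 2, 1, 1] [7, 5, 2, 2, 2, 1, 1] [7, 5, 2, 2, 2, 1, 1] :=
  GG.sg t0
    (t370.var (a' := [5, 4, 4, 2, 2, 1, 1]) (b' := [6, 5, 2, 2, 2, 1, 1]) (c' := [6, 5, 2, 2, 2, 1, 1]) 3 0 (by decide +kernel)) (by decide +kernel)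
theorem t372 : GG [6, 5, 3, 2, 2, 1, 1] [7, 5, 2, 2, 2, 1, 1] [7, 5, 2, 2, 2, 1, 1] :=
  GG.m1 7 13 (t298.var (a' := [5, 4, 2, 1, 1]) (b' := [6, 4, 1, 1, 1]) (c' := [5, 2, 2, 2, 1, 1]) 1 1 (by decide +kernel)) (by decide +kernel)
theorem t373 : GG [6, 5, 2, 2, 2, 1] [6, 5, 2, 2, 2, 1] [5, 4, 3, 2, 2, 1, 1] :=
  F18.gg (by decide +kernel)
theorem t374 : GG [6, 4, 3, 2, 2, 1, 1] [7, 5, 2, 2, 2, 1] [7, 5, 2, 2, 2, 1] :=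
  GG.sg t0
    (t373.var (a' := [5, 4, 3, 2, 2, 1, 1]) (b' := [6, 5, 2, 2, 2, 1]) (c' := [6, 5, 2, 2, 2, 1]) 0 4 (by decide +kernel)) (by decide +kernel)
theorem t375 : GG [7, 4, 3, 2, 2, 1, 1] [7, 5, 2, 2, 2, 1, 1] [7, 5, 2, 2, 2, 1, 1] :=
  GG.sg t0
    (t374.var (a' := [6, 4, 3, 2, 2, 1, 1]) (b' := [6, 5, 2, 2, 2, 1, 1]) (c' := [6, 5, 2, 2, 2, 1, 1]) 3 0 (by decide +kernel)) (by decide +kernel)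
theorem t376 : GG [6, 5, 2, 2, 2, 1] [6, 5, 2, 2, 2, 1] [5, 5, 2, 2, 2, 2] :=
  F18.gg (by decide +kernel)
theorem t377 : GG [7, 5, 2, 2, 2, 1] [7, 5, 2, 2, 2, 1] [6, 5, 2, 2, 2, 2] :=
  GG.sg t0
    t376 (by decide +kernel)
theorem t378 : GG [7, 5, 2, 2, 2, 1, 1] [7, 5, 2, 2, 2, 2] [7, 5, 2, 2, 2, 1, 1] :=
  GG.sg t0
    (t377.var (a' := [6, 5, 2, 2, 2, 1, 1]) (b' := [6, 5, 2, 2, 2, 2]) (c' := [6, 5, 2, 2, 2, 1, 1]) 1 1 (by decide +kernel)) (by decide +kernel)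
theorem t379 : GG [6, 5, 2, 2, 2, 1] [6, 5, 2, 2, 2, 1] [5, 5, 2, 2, 2, 1, 1] :=
  F18.gg (by decide +kernel)
theorem t380 : GG [7, 5, 2, 2, 2, 1] [7, 5, 2, 2, 2, 1] [6, 5, 2, 2, 2, 1, 1] :=
  GG.sg t0
    t379 (by decide +kernel)
theorem t381 : GG [7, 5, 2, 2, 2, 1, 1] [7, 5, 2, 2, 2, 1, 1] [7, 5, 2, 2, 2, 1, 1] :=
  GG.sg t0
    (t380.var (a' := [6, 5, 2, 2, 2, 1, 1]) (b' := [6, 5, 2, 2, 2, 1, 1]) (c' := [6, 5, 2, 2, 2, 1, 1]) 1 0 (by decide +kernel)) (by decide +kernel)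
theorem t382 : GG [6, 5, 2, 2, 2, 1] [6, 5, 2, 2, 2, 1] [5, 4, 4, 4, 1] :=
  F18.gg (by decide +kernel)
theorem t383 : GG [6, 4, 4, 4, 1] [7, 5, 2, 2, 2, 1] [7, 5, 2, 2, 2, 1] :=
  GG.sg t0
    (t382.var (a' := [5, 4, 4, 4, 1]) (b' := [6, 5, 2, 2, 2, 1]) (c' := [6, 5, 2, 2, 2, 1]) 0 4 (by decide +kernel)) (by decide +kernel)
theorem t384 : GG [7, 4, 4, 4, 1] [7, 5, 2, 2, 2, 1, 1] [7, 5, 2, 2, 2, 1, 1] :=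
  GG.sg t0
    (t383.var (a' := [6, 4, 4, 4, 1]) (b' := [6, 5, 2, 2, 2, 1, 1]) (c' := [6, 5, 2, 2, 2, 1, 1]) 3 0 (by decide +kernel)) (by decide +kernel)
theorem t385 : GG [6, 4, 4, 3, 2] [7, 5, 2, 2, 2, 1] [7, 5, 2, 2, 2, 1] :=
  GG.sg t0
    t265 (by decide +kernel)
theorem t386 : GG [7, 4, 4, 3, 2] [7, 5, 2, 2, 2, 1, 1] [7, 5, 2, 2, 2, 1, 1] :=
  GG.sg t0
    (t385.var (a' := [6, 4, 4, 3, 2]) (b' := [6, 5, 2, 2, 2, 1, 1]) (c' := [6, 5, 2, 2, 2, 1, 1]) 3 0 (by decide +kernel)) (by decide +kernel)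
theorem t387 : GG [6, 4, 4, 3, 1, 1, 1] [7, 5, 2, 2, 2, 1, 1] [7, 5, 2, 2, 2, 1, 1] :=
  GG.m1 7 13 t317 (by decide +kernel)
theorem t388 : GG [6, 5, 2, 2, 2, 1] [6, 5, 2, 2, 2, 1] [5, 4, 4, 2, 2, 1] :=
  F18.gg (by decide +kernel)
theorem t389 : GG [6, 4, 4, 2, 2, 1] [7, 5, 2, 2, 2, 1] [7, 5, 2, 2, 2, 1] :=
  GG.sg t0
    (t388.var (a' := [5, 4, 4, 2, 2, 1]) (b' := [6, 5, 2, 2, 2, 1]) (c' := [6, 5, 2, 2, 2, 1]) 0 4 (by decide +kernel)) (by decide +kernel)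
theorem t390 : GG [7, 4, 4, 2, 2, 1] [7, 5, 2, 2, 2, 1, 1] [7, 5, 2, 2, 2, 1, 1] :=
  GG.sg t0
    (t389.var (a' := [6, 4, 4, 2, 2, 1]) (b' := [6, 5, 2, 2, 2, 1, 1]) (c' := [6, 5, 2, 2, 2, 1, 1]) 3 0 (by decide +kernel)) (by decide +kernel)
theorem t391 : GG [7, 5, 2, 2, 2, 1, 1] [7, 5, 2, 2, 2, 1, 1] [7, 4, 3, 3, 1, 1, 1] :=
  GG.m1 7 13 (t296.var (a' := [6, 4, 1, 1, 1]) (b' := [6, 4, 1, 1, 1]) (c' := [4, 3, 3, 1, 1, 1]) 2 3 (by decide +kernel)) (by decide +kernel)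
theorem t392 : GG [5, 5, 5, 2, 1, 1, 1] [7, 5, 2, 2, 2, 1, 1] [7, 5, 2, 2, 2, 1, 1] :=
  GG.m1 7 13 (t294.var (a' := [4, 4, 4, 1]) (b' := [6, 4, 1, 1, 1]) (c' := [5, 2, 2, 2, 1, 1]) 1 0 (by decide +kernel)) (by decide +kernel)
theorem t393 : GG [6, 4, 3, 3, 2, 1] [7, 5, 2, 2, 2, 1] [7, 5, 2, 2, 2, 1] :=
  GG.m1 6 13 (t362.var (a' := [5, 3, 2, 2, 1]) (b' := [6, 4, 1, 1, 1]) (c' := [5, 2, 2, 2, 1, 1]) 0 5 (by decide +kernel)) (by decide +kernel)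
theorem t394 : GG [7, 4, 3, 3, 2, 1] [7, 5, 2, 2, 2, 1, 1] [7, 5, 2, 2, 2, 1, 1] :=
  GG.sg t0
    (t393.var (a' := [6, 4, 3, 3, 2, 1]) (b' := [6, 5, 2, 2, 2, 1, 1]) (c' := [6, 5, 2, 2, 2, 1, 1]) 3 0 (by decide +kernel)) (by decide +kernel)
theorem t395 : GG [6, 5, 2, 2, 2, 1] [6, 5, 2, 2, 2, 1] [5, 4, 3, 2, 2, 2] :=
  F18.gg (by decide +kernel)
theorem t396 : GG [6, 4, 3, 2, 2, 2] [7, 5, 2, 2, 2, 1] [7, 5, 2, 2, 2, 1] :=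
  GG.sg t0
    (t395.var (a' := [5, 4, 3, 2, 2, 2]) (b' := [6, 5, 2, 2, 2, 1]) (c' := [6, 5, 2, 2, 2, 1]) 0 4 (by decide +kernel)) (by decide +kernel)
theorem t397 : GG [7, 4, 3, 2, 2, 2] [7, 5, 2, 2, 2, 1, 1] [7, 5, 2, 2, 2, 1, 1] :=
  GG.sg t0
    (t396.var (a' := [6, 4, 3, 2, 2, 2]) (b' := [6, 5, 2, 2, 2, 1, 1]) (c' := [6, 5, 2, 2, 2, 1, 1]) 3 0 (by decide +kernel)) (by decide +kernel)
theorem t398 : GG [6, 5, 2, 2, 2, 1] [6, 5, 2, 2, 2, 1] [5, 3, 3, 3, 3, 1] :=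
  F18.gg (by decide +kernel)
theorem t399 : GG [6, 3, 3, 3, 3, 1] [7, 5, 2, 2, 2, 1] [7, 5, 2, 2, 2, 1] :=
  GG.sg t0
    (t398.var (a' := [5, 3, 3, 3, 3, 1]) (b' := [6, 5, 2, 2, 2, 1]) (c' := [6, 5, 2, 2, 2, 1]) 0 4 (by decide +kernel)) (by decide +kernel)
theorem t400 : GG [7, 3, 3, 3, 3, 1] [7, 5, 2, 2, 2, 1, 1] [7, 5, 2, 2, 2, 1, 1] :=
  GG.sg t0
    (t399.var (a' := [6, 3, 3, 3, 3, 1]) (b' := [6, 5, 2, 2, 2, 1, 1]) (c' := [6, 5, 2, 2, 2, 1, 1]) 3 0 (by decide +kernel)) (by decide +kernel)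
theorem t401 : GG [6, 3, 3, 3, 2, 2] [7, 5, 2, 2, 2, 1] [7, 5, 2, 2, 2, 1] :=
  GG.m1 6 13 t362 (by decide +kernel)
theorem t402 : GG [7, 3, 3, 3, 2, 2] [7, 5, 2, 2, 2, 1, 1] [7, 5, 2, 2, 2, 1, 1] :=
  GG.sg t0
    (t401.var (a' := [6, 3, 3, 3, 2, 2]) (b' := [6, 5, 2, 2, 2, 1, 1]) (c' := [6, 5, 2, 2, 2, 1, 1]) 3 0 (by decide +kernel)) (by decide +kernel)
theorem t403 : GG [6, 5, 2, 2, 2, 1] [6, 5, 2, 2, 2, 1] [3, 3, 3, 3, 3, 3] :=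
  F18.gg (by decide +kernel)
theorem t404 : GG [4, 3, 3, 3, 3, 3] [7, 5, 2, 2, 2, 1] [7, 5, 2, 2, 2, 1] :=
  GG.sg t0
    (t403.var (a' := [3, 3, 3, 3, 3, 3]) (b' := [6, 5, 2, 2, 2, 1]) (c' := [6, 5, 2, 2, 2, 1]) 0 4 (by decide +kernel)) (by decide +kernel)
theorem t405 : GG [5, 3, 3, 3, 3, 3] [7, 5, 2, 2, 2, 1, 1] [7, 5, 2, 2, 2, 1, 1] :=
  GG.sg t0
    (t404.var (a' := [4, 3, 3, 3, 3, 3]) (b' := [6, 5, 2, 2, 2, 1, 1]) (c' := [6, 5, 2, 2, 2, 1, 1]) 3 0 (by decide +kernel)) (by decide +kernel)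
theorem t406 : GG [5, 5, 4, 3] [7, 5, 2, 2, 1] [7, 5, 2, 2, 1] :=
  GG.sg (t1.var (a' := [1, 1, 1]) (b' := [2, 1]) (c' := [2, 1]) 0 4 (by decide +kernel))
    t154 (by decide +kernel)
theorem t407 : GG [6, 6, 5, 3] [7, 5, 2, 2, 2, 1, 1] [7, 5, 2, 2, 2, 1, 1] :=
  GG.sg (t1.var (a' := [1, 1, 1]) (b' := [2, 1]) (c' := [2, 1]) 0 4 (by decide +kernel))
    (t406.var (a' := [5, 5, 4, 3]) (b' := [5, 4, 2, 2, 2, 1, 1]) (c' := [5, 4, 2, 2, 2, 1, 1]) 3 0 (by decide +kernel)) (by decide +kernel)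
theorem t408 : GG [5, 5, 5, 2, 1] [7, 5, 2, 2, 2] [7, 5, 2, 2, 1, 1] :=
  GG.m1 5 13 (t294.var (a' := [4, 4, 4, 1]) (b' := [6, 4, 1, 1, 1]) (c' := [5, 2, 2, 2, 1, 1]) 1 0 (by decide +kernel)) (by decide +kernel)
theorem t409 : GG [6, 6, 5, 2, 1] [7, 5, 2, 2, 2, 1, 1] [7, 5, 2, 2, 2, 1, 1] :=
  GG.sg (t39.var (a' := [1, 1]) (b' := [2]) (c' := [1, 1]) 0 1 (by decide +kernel))
    (t408.var (a' := [5, 5, 5, 2, 1]) (b' := [5, 5, 2, 2, 2, 1, 1]) (c' := [6, 4, 2, 2, 2, 1, 1]) 3 0 (by decide +kernel)) (by decide +kernel)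
theorem t410 : GG [6, 5, 2, 2, 2, 1] [6, 5, 2, 2, 2, 1] [4, 3, 3, 3, 3, 2] :=
  F18.gg (by decide +kernel)
theorem t411 : GG [5, 3, 3, 3, 3, 2] [7, 5, 2, 2, 2, 1] [7, 5, 2, 2, 2, 1] :=
  GG.sg t0
    (t410.var (a' := [4, 3, 3, 3, 3, 2]) (b' := [6, 5, 2, 2, 2, 1]) (c' := [6, 5, 2, 2, 2, 1]) 0 4 (by decide +kernel)) (by decide +kernel)
theorem t412 : GG [6, 3, 3, 3, 3, 2] [7, 5, 2, 2, 2, 1, 1] [7, 5, 2, 2, 2, 1, 1] :=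
  GG.sg t0
    (t411.var (a' := [5, 3, 3, 3, 3, 2]) (b' := [6, 5, 2, 2, 2, 1, 1]) (c' := [6, 5, 2, 2, 2, 1, 1]) 3 0 (by decide +kernel)) (by decide +kernel)
theorem t413 : GG [7, 5, 2, 1, 1] [7, 5, 2, 1, 1] [5, 5, 3, 2, 1] :=
  GG.sg (t58.var (a' := [2, 2]) (b' := [2, 2]) (c' := [1, 1, 1, 1]) 1 1 (by decide +kernel))
    (t78.var (a' := [5, 3, 2, 1, 1]) (b' := [5, 3, 2, 1, 1]) (c' := [4, 4, 2, 1, 1]) 0 3 (by decide +kernel)) (by decide +kernel)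
theorem t414 : GG [6, 6, 4, 3, 1] [7, 5, 2, 2, 2, 1, 1] [7, 5, 2, 2, 2, 1, 1] :=
  GG.sg (t58.var (a' := [1, 1, 1, 1]) (b' := [2, 2]) (c' := [2, 2]) 1 2 (by decide +kernel))
    (t413.var (a' := [5, 5, 3, 2, 1]) (b' := [5, 3, 2, 2, 2, 1, 1]) (c' := [5, 3, 2, 2, 2, 1, 1]) 1 4 (by decide +kernel)) (by decide +kernel)
theorem t415 : GG [6, 5, 2, 2, 2, 1] [6, 5, 2, 2, 2, 1] [4, 4, 3, 3, 2, 2] :=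
  F18.gg (by decide +kernel)
theorem t416 : GG [5, 4, 3, 3, 2, 2] [7, 5, 2, 2, 2, 1] [7, 5, 2, 2, 2, 1] :=
  GG.sg t0
    (t415.var (a' := [4, 4, 3, 3, 2, 2]) (b' := [6, 5, 2, 2, 2, 1]) (c' := [6, 5, 2, 2, 2, 1]) 0 4 (by decide +kernel)) (by decide +kernel)
theorem t417 : GG [6, 4, 3, 3, 2, 2] [7, 5, 2, 2, 2, 1, 1] [7, 5, 2, 2, 2, 1, 1] :=
  GG.sg t0
    (t416.var (a' := [5, 4, 3, 3, 2, 2]) (b' := [6, 5, 2, 2, 2, 1, 1]) (c' := [6, 5, 2, 2, 2, 1, 1]) 3 0 (by decide +kernel)) (by decide +kernel)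
theorem t418 : GG [5, 4, 2, 2, 1] [5, 4, 2, 2, 1] [3, 3, 2, 2, 2, 2] :=
  F14.gg (by decide +kernel)
theorem t419 : GG [4, 4, 3, 2, 2, 2] [7, 5, 2, 2, 1] [7, 5, 2, 2, 1] :=
  GG.sg (t1.var (a' := [1, 1, 1]) (b' := [2, 1]) (c' := [2, 1]) 0 4 (by decide +kernel))
    (t418.var (a' := [3, 3, 2, 2, 2, 2]) (b' := [5, 4, 2, 2, 1]) (c' := [5, 4, 2, 2, 1]) 0 4 (by decide +kernel)) (by decide +kernel)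
theorem t420 : GG [5, 5, 4, 2, 2, 2] [7, 5, 2, 2, 2, 1, 1] [7, 5, 2, 2, 2, 1, 1] :=
  GG.sg (t1.var (a' := [1, 1, 1]) (b' := [2, 1]) (c' := [2, 1]) 0 4 (by decide +kernel))
    (t419.var (a' := [4, 4, 3, 2, 2, 2]) (b' := [5, 4, 2, 2, 2, 1, 1]) (c' := [5, 4, 2, 2, 2, 1, 1]) 3 0 (by decide +kernel)) (by decide +kernel)
theorem t421 : GG [6, 5, 3, 2, 2, 2] [7, 5, 2, 2, 2, 1, 1] [7, 5, 2, 2, 2, 1, 1] :=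
  GG.sg t198
    (t419.var (a' := [4, 4, 3, 2, 2, 2]) (b' := [5, 4, 2, 2, 2, 1, 1]) (c' := [5, 4, 2, 2, 2, 1, 1]) 3 0 (by decide +kernel)) (by decide +kernel)
theorem t422 : GG [6, 2, 2] [7, 2, 1] [4, 3, 1, 1, 1] :=
  GG.sg (t65.var (a' := [2, 1, 1]) (b' := [3, 1]) (c' := [2, 2]) 2 0 (by decide +kernel))
    (t5.var (a' := [4, 1, 1]) (b' := [4, 1, 1]) (c' := [2, 1, 1, 1, 1]) 0 3 (by decide +kernel)) (by decide +kernel)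
theorem t423 : GG [6, 6, 2, 2, 2, 2] [7, 5, 2, 2, 2, 1, 1] [7, 5, 2, 2, 2, 1, 1] :=
  GG.sg (t422.var (a' := [3, 3, 1, 1, 1, 1]) (b' := [4, 3, 1, 1, 1]) (c' := [3, 2, 1, 1, 1, 1, 1]) 1 1 (by decide +kernel))
    (t422.var (a' := [3, 3, 1, 1, 1, 1]) (b' := [3, 2, 1, 1, 1, 1, 1]) (c' := [4, 3, 1, 1, 1]) 1 0 (by decide +kernel)) (by decide +kernel)
theorem t424 : GG [5, 4, 4, 4] [7, 5, 2, 2, 1] [7, 5, 2, 2, 1] :=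
  GG.sg (t58.var (a' := [1, 1, 1, 1]) (b' := [2, 2]) (c' := [2, 2]) 1 2 (by decide +kernel))
    (t268.var (a' := [4, 3, 3, 3]) (b' := [5, 3, 2, 2, 1]) (c' := [5, 3, 2, 2, 1]) 3 0 (by decide +kernel)) (by decide +kernel)
theorem t425 : GG [6, 5, 5, 4] [7, 5, 2, 2, 2, 1, 1] [7, 5, 2, 2, 2, 1, 1] :=
  GG.sg (t1.var (a' := [1, 1, 1]) (b' := [2, 1]) (c' := [2, 1]) 0 4 (by decide +kernel))
    (t424.var (a' := [5, 4, 4, 4]) (b' := [5, 4, 2, 2, 2, 1, 1]) (c' := [5, 4, 2, 2, 2, 1, 1]) 3 0 (by decide +kernel)) (by decide +kernel)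
theorem t426 : GG [5, 4, 2, 2, 1] [5, 4, 2, 2, 1] [4, 3, 3, 3, 1] :=
  F14.gg (by decide +kernel)
theorem t427 : GG [7, 5, 2, 2, 1] [7, 5, 2, 2, 1] [5, 4, 4, 3, 1] :=
  GG.sg t1
    t426 (by decide +kernel)
theorem t428 : GG [6, 5, 5, 3, 1] [7, 5, 2, 2, 2, 1, 1] [7, 5, 2, 2, 2, 1, 1] :=
  GG.sg (t1.var (a' := [1, 1, 1]) (b' := [2, 1]) (c' := [2, 1]) 0 4 (by decide +kernel))
    (t427.var (a' := [5, 4, 4, 3, 1]) (b' := [5, 4, 2, 2, 2, 1, 1]) (c' := [5, 4, 2, 2, 2, 1, 1]) 1 4 (by decide +kernel)) (by decide +kernel)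
theorem t429 : GG [5, 5, 5, 2, 2] [7, 5, 2, 2, 2, 1] [7, 5, 2, 2, 2, 1] :=
  GG.sg (t214.var (a' := [2, 2, 2]) (b' := [4, 2]) (c' := [4, 2]) 2 4 (by decide +kernel))
    (t274.var (a' := [3, 3, 3, 2, 2]) (b' := [3, 3, 2, 2, 2, 1]) (c' := [3, 3, 2, 2, 2, 1]) 3 4 (by decide +kernel)) (by decide +kernel)
theorem t430 : GG [6, 5, 5, 2, 2] [7, 5, 2, 2, 2, 1, 1] [7, 5, 2, 2, 2, 1, 1] :=
  GG.sg t0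
    (t429.var (a' := [5, 5, 5, 2, 2]) (b' := [6, 5, 2, 2, 2, 1, 1]) (c' := [6, 5, 2, 2, 2, 1, 1]) 3 0 (by decide +kernel)) (by decide +kernel)
theorem t431 : GG [6, 5, 2, 2, 2, 1] [6, 5, 2, 2, 2, 1] [4, 4, 3, 3, 3, 1] :=
  F18.gg (by decide +kernel)
theorem t432 : GG [5, 4, 3, 3, 3, 1] [7, 5, 2, 2, 2, 1] [7, 5, 2, 2, 2, 1] :=
  GG.sg t0
    (t431.var (a' := [4, 4, 3, 3, 3, 1]) (b' := [6, 5, 2, 2, 2, 1]) (c' := [6, 5, 2, 2, 2, 1]) 0 4 (by decide +kernel)) (by decide +kernel)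
theorem t433 : GG [6, 4, 3, 3, 3, 1] [7, 5, 2, 2, 2, 1, 1] [7, 5, 2, 2, 2, 1, 1] :=
  GG.sg t0
    (t432.var (a' := [5, 4, 3, 3, 3, 1]) (b' := [6, 5, 2, 2, 2, 1, 1]) (c' := [6, 5, 2, 2, 2, 1, 1]) 3 0 (by decide +kernel)) (by decide +kernel)
theorem t434 : GG [5, 3, 2, 1, 1] [5, 3, 2, 1, 1] [3, 2, 2, 2, 2, 1] :=
  F12.gg (by decide +kernel)
theorem t435 : GG [4, 3, 3, 3, 2, 1] [7, 5, 2, 1, 1] [7, 5, 2, 1, 1] :=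
  GG.sg (t58.var (a' := [1, 1, 1, 1]) (b' := [2, 2]) (c' := [2, 2]) 1 2 (by decide +kernel))
    (t434.var (a' := [3, 2, 2, 2, 2, 1]) (b' := [5, 3, 2, 1, 1]) (c' := [5, 3, 2, 1, 1]) 0 4 (by decide +kernel)) (by decide +kernel)
theorem t436 : GG [5, 4, 4, 4, 2, 1] [7, 5, 2, 2, 2, 1, 1] [7, 5, 2, 2, 2, 1, 1] :=
  GG.sg (t58.var (a' := [1, 1, 1, 1]) (b' := [2, 2]) (c' := [2, 2]) 1 2 (by decide +kernel))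
    (t435.var (a' := [4, 3, 3, 3, 2, 1]) (b' := [5, 3, 2, 2, 2, 1, 1]) (c' := [5, 3, 2, 2, 2, 1, 1]) 3 0 (by decide +kernel)) (by decide +kernel)
theorem t437 : GG [4, 4, 4, 3, 2] [7, 5, 2, 2, 1] [7, 5, 2, 2, 1] :=
  GG.sg (t1.var (a' := [1, 1, 1]) (b' := [2, 1]) (c' := [2, 1]) 0 4 (by decide +kernel))
    (t195.var (a' := [3, 3, 3, 3, 2]) (b' := [5, 4, 2, 2, 1]) (c' := [5, 4, 2, 2, 1]) 0 4 (by decide +kernel)) (by decide +kernel)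
theorem t438 : GG [6, 5, 4, 3, 2] [7, 5, 2, 2, 2, 1, 1] [7, 5, 2, 2, 2, 1, 1] :=
  GG.sg t198
    (t437.var (a' := [4, 4, 4, 3, 2]) (b' := [5, 4, 2, 2, 2, 1, 1]) (c' := [5, 4, 2, 2, 2, 1, 1]) 3 0 (by decide +kernel)) (by decide +kernel)
theorem t439 : GG [6, 5, 2, 2, 2, 1] [6, 5, 2, 2, 2, 1] [4, 4, 4, 3, 2, 1] :=
  F18.gg (by decide +kernel)
theorem t440 : GG [5, 4, 4, 3, 2, 1] [7, 5, 2, 2, 2, 1] [7, 5, 2, 2, 2, 1] :=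
  GG.sg t0
    (t439.var (a' := [4, 4, 4, 3, 2, 1]) (b' := [6, 5, 2, 2, 2, 1]) (c' := [6, 5, 2, 2, 2, 1]) 0 4 (by decide +kernel)) (by decide +kernel)
theorem t441 : GG [6, 4, 4, 3, 2, 1] [7, 5, 2, 2, 2, 1, 1] [7, 5, 2, 2, 2, 1, 1] :=
  GG.sg t0
    (t440.var (a' := [5, 4, 4, 3, 2, 1]) (b' := [6, 5, 2, 2, 2, 1, 1]) (c' := [6, 5, 2, 2, 2, 1, 1]) 3 0 (by decide +kernel)) (by decide +kernel)
theorem t442 : GG [5, 4, 2, 2, 1] [5, 4, 2, 2, 1] [3, 3, 3, 2, 2, 1] :=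
  F14.gg (by decide +kernel)
theorem t443 : GG [4, 4, 4, 2, 2, 1] [7, 5, 2, 2, 1] [7, 5, 2, 2, 1] :=
  GG.sg (t1.var (a' := [1, 1, 1]) (b' := [2, 1]) (c' := [2, 1]) 0 4 (by decide +kernel))
    (t442.var (a' := [3, 3, 3, 2, 2, 1]) (b' := [5, 4, 2, 2, 1]) (c' := [5, 4, 2, 2, 1]) 0 4 (by decide +kernel)) (by decide +kernel)
theorem t444 : GG [6, 5, 4, 2, 2, 1] [7, 5, 2, 2, 2, 1, 1] [7, 5, 2, 2, 2, 1, 1] :=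
  GG.sg t198
    (t443.var (a' := [4, 4, 4, 2, 2, 1]) (b' := [5, 4, 2, 2, 2, 1, 1]) (c' := [5, 4, 2, 2, 2, 1, 1]) 3 0 (by decide +kernel)) (by decide +kernel)
theorem t445 : GG [5, 5, 5, 2, 2, 1] [7, 5, 2, 2, 2, 1, 1] [7, 5, 2, 2, 2, 1, 1] :=
  GG.sg (t1.var (a' := [1, 1, 1]) (b' := [2, 1]) (c' := [2, 1]) 0 4 (by decide +kernel))
    (t443.var (a' := [4, 4, 4, 2, 2, 1]) (b' := [5, 4, 2, 2, 2, 1, 1]) (c' := [5, 4, 2, 2, 2, 1, 1]) 3 0 (by decide +kernel)) (by decide +kernel)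
theorem t446 : GG [5, 4, 4, 4, 1, 1] [7, 5, 2, 2, 2, 1] [7, 5, 2, 2, 2, 1] :=
  GG.sg t0
    t247 (by decide +kernel)
theorem t447 : GG [6, 4, 4, 4, 1, 1] [7, 5, 2, 2, 2, 1, 1] [7, 5, 2, 2, 2, 1, 1] :=
  GG.sg t0
    (t446.var (a' := [5, 4, 4, 4, 1, 1]) (b' := [6, 5, 2, 2, 2, 1, 1]) (c' := [6, 5, 2, 2, 2, 1, 1]) 3 0 (by decide +kernel)) (by decide +kernel)
theorem t448 : GG [5, 4, 4, 3, 3] [7, 5, 2, 2, 2, 1] [7, 5, 2, 2, 2, 1] :=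
  GG.sg t0
    (t259.var (a' := [4, 4, 4, 3, 3]) (b' := [6, 5, 2, 2, 2, 1]) (c' := [6, 5, 2, 2, 2, 1]) 1 0 (by decide +kernel)) (by decide +kernel)
theorem t449 : GG [6, 4, 4, 3, 3] [7, 5, 2, 2, 2, 1, 1] [7, 5, 2, 2, 2, 1, 1] :=
  GG.sg t0
    (t448.var (a' := [5, 4, 4, 3, 3]) (b' := [6, 5, 2, 2, 2, 1, 1]) (c' := [6, 5, 2, 2, 2, 1, 1]) 3 0 (by decide +kernel)) (by decide +kernel)
theorem t450 : GG [5, 3, 2, 1, 1] [5, 3, 2, 1, 1] [3, 3, 3, 3] :=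
  F12.gg (by decide +kernel)
theorem t451 : GG [4, 4, 4, 4] [7, 5, 2, 1, 1] [7, 5, 2, 1, 1] :=
  GG.sg (t58.var (a' := [1, 1, 1, 1]) (b' := [2, 2]) (c' := [2, 2]) 1 2 (by decide +kernel))
    (t450.var (a' := [3, 3, 3, 3]) (b' := [5, 3, 2, 1, 1]) (c' := [5, 3, 2, 1, 1]) 0 4 (by decide +kernel)) (by decide +kernel)
theorem t452 : GG [5, 5, 5, 5] [7, 5, 2, 2, 2, 1, 1] [7, 5, 2, 2, 2, 1, 1] :=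
  GG.sg (t58.var (a' := [1, 1, 1, 1]) (b' := [2, 2]) (c' := [2, 2]) 1 2 (by decide +kernel))
    (t451.var (a' := [4, 4, 4, 4]) (b' := [5, 3, 2, 2, 2, 1, 1]) (c' := [5, 3, 2, 2, 2, 1, 1]) 3 0 (by decide +kernel)) (by decide +kernel)
theorem t453 : GG [5, 3, 2, 1, 1] [5, 3, 2, 1, 1] [3, 3, 3, 2, 1] :=
  F12.gg (by decide +kernel)
theorem t454 : GG [4, 4, 4, 3, 1] [7, 5, 2, 1, 1] [7, 5, 2, 1, 1] :=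
  GG.sg (t58.var (a' := [1, 1, 1, 1]) (b' := [2, 2]) (c' := [2, 2]) 1 2 (by decide +kernel))
    (t453.var (a' := [3, 3, 3, 2, 1]) (b' := [5, 3, 2, 1, 1]) (c' := [5, 3, 2, 1, 1]) 0 4 (by decide +kernel)) (by decide +kernel)
theorem t455 : GG [5, 5, 5, 4, 1] [7, 5, 2, 2, 2, 1, 1] [7, 5, 2, 2, 2, 1, 1] :=
  GG.sg (t58.var (a' := [1, 1, 1, 1]) (b' := [2, 2]) (c' := [2, 2]) 1 2 (by decide +kernel))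
    (t454.var (a' := [4, 4, 4, 3, 1]) (b' := [5, 3, 2, 2, 2, 1, 1]) (c' := [5, 3, 2, 2, 2, 1, 1]) 3 0 (by decide +kernel)) (by decide +kernel)
theorem t456 : GG [5, 5, 5, 3, 2] [7, 5, 2, 2, 2, 1, 1] [7, 5, 2, 2, 2, 1, 1] :=
  GG.sg (t1.var (a' := [1, 1, 1]) (b' := [2, 1]) (c' := [2, 1]) 0 4 (by decide +kernel))
    (t437.var (a' := [4, 4, 4, 3, 2]) (b' := [5, 4, 2, 2, 2, 1, 1]) (c' := [5, 4, 2, 2, 2, 1, 1]) 3 0 (by decide +kernel)) (by decide +kernel)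
theorem t457 : GG [5, 3, 2, 1, 1] [5, 3, 2, 1, 1] [3, 3, 2, 2, 2] :=
  F12.gg (by decide +kernel)
theorem t458 : GG [4, 4, 3, 3, 2] [7, 5, 2, 1, 1] [7, 5, 2, 1, 1] :=
  GG.sg (t58.var (a' := [1, 1, 1, 1]) (b' := [2, 2]) (c' := [2, 2]) 1 2 (by decide +kernel))
    (t457.var (a' := [3, 3, 2, 2, 2]) (b' := [5, 3, 2, 1, 1]) (c' := [5, 3, 2, 1, 1]) 0 4 (by decide +kernel)) (by decide +kernel)
theorem t459 : GG [5, 5, 4, 4, 2] [7, 5, 2, 2, 2, 1, 1] [7, 5, 2, 2, 2, 1, 1] :=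
  GG.sg (t58.var (a' := [1, 1, 1, 1]) (b' := [2, 2]) (c' := [2, 2]) 1 2 (by decide +kernel))
    (t458.var (a' := [4, 4, 3, 3, 2]) (b' := [5, 3, 2, 2, 2, 1, 1]) (c' := [5, 3, 2, 2, 2, 1, 1]) 3 0 (by decide +kernel)) (by decide +kernel)
theorem A20 : AllG [7, 5, 2, 2, 2, 1, 1] [[11, 1, 1, 1, 1, 1, 1, 1, 1, 1], [10, 2, 2, 2, 2, 2], [10, 2, 2, 2, 2, 1, 1], [10, 2, 2, 2, 1, 1, 1, 1], [10, 2, 2, 1, 1, 1, 1, 1, 1], [10, 2, 1, 1, 1, 1, 1, 1, 1, 1], [9, 3, 3, 3, 2], [9, 3, 3, 3, 1, 1], [9, 3, 3, 2, 2, 1], [9, 3, 3, 2, 1, 1, 1], [9, 3, 3, 1, 1, 1, 1, 1], [9, 3, 2, 2, 2, 2], [9, 3, 2, 2, 2, 1, 1], [9, 3, 2, 2, 1, 1, 1, 1], [9, 3, 2, 1, 1, 1, 1, 1, 1], [8, 4, 4, 3, 1], [8, 4, 4, 2, 1, 1], [8, 4, 4, 1, 1, 1, 1], [8, 4, 3, 3, 2], [8, 4, 3, 3, 1, 1], [8, 4, 3, 2, 2, 1], [8, 4, 3, 2, 1, 1,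 1], [8, 4, 3, 1, 1, 1, 1, 1], [8, 4, 2, 2, 2, 1, 1], [8, 4, 2, 2, 1, 1, 1, 1], [8, 3, 3, 3, 3], [8, 3, 3, 3, 2, 1], [8, 3, 3, 3, 1, 1, 1], [8, 3, 3, 2, 2, 2], [8, 3, 3, 2, 2, 1, 1], [8, 3, 3, 2, 1, 1, 1, 1], [7, 5, 5, 3], [7, 5, 5, 2, 1], [7, 5, 5, 1, 1, 1], [7, 5, 4, 4], [7, 5, 4, 3, 1], [7, 5, 4, 2, 2], [7, 5, 4, 2, 1, 1], [7, 5, 4, 1, 1, 1, 1], [7, 5, 3, 3, 2], [7, 5, 3, 3, 1, 1], [7, 5, 3, 2, 2, 1], [7, 5, 3, 2, 1, 1, 1], [7, 5, 2, 2, 2, 2], [7, 5, 2, 2, 2, 1, 1], [7, 4, 4, 4, 1], [7, 4, 4, 3, 2], [7, 4, 4, 3, 1, 1], [7, 4, 4, 2, 2, 1], [7, 4, 4, 2, 1, 1, 1], [7, 4, 3, 3, 3], [7, 4, 3, 3, 2, 1], [7, 4, 3, 3, 1, 1, 1], [7, 4, 3, 2, 2, 2], [7, 4, 3, 2, 2, 1, 1], [7, 3, 3, 3, 3, 1], [7, 3, 3, 3, 2, 2], [7, 3, 3, 3, 2, 1, 1], [6, 6, 6, 1, 1], [6, 6, 5, 3], [6, 6, 5, 2, 1], [6,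 6, 5, 1, 1, 1], [6, 6, 4, 3, 1], [6, 6, 4, 2, 1, 1], [6, 6, 3, 3, 2], [6, 6, 3, 2, 2, 1], [6, 6, 2, 2, 2, 2], [6, 5, 5, 4], [6, 5, 5, 3, 1], [6, 5, 5, 2, 2], [6, 5, 5, 2, 1, 1], [6, 5, 4, 4, 1], [6, 5, 4, 3, 2], [6, 5, 4, 3, 1, 1], [6, 5, 4, 2, 2, 1], [6, 5, 3, 3, 3], [6, 5, 3, 3, 2, 1], [6, 5, 3, 2, 2, 2], [6, 4, 4, 4, 1, 1], [6, 4, 4, 3, 3], [6, 4, 4, 3, 2, 1], [6, 4, 3, 3, 3, 1], [6, 4, 3, 3, 2, 2], [6, 3, 3, 3, 3, 2], [5, 5, 5, 5], [5, 5, 5, 4, 1], [5, 5, 5, 3, 2], [5, 5, 4, 4, 2], [5, 5, 4, 3, 3], [5, 4, 4, 4, 3]] :=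
  AllG.cons (t278.var (a' := [7, 5, 2, 2, 2, 1, 1]) (b' := [7, 5, 2, 2, 2, 1, 1]) (c' := [11, 1, 1, 1, 1, 1, 1, 1, 1, 1]) 2 0 (by decide +kernel)) <|
    AllG.cons (t281.var (a' := [7, 5, 2, 2, 2, 1, 1]) (b' := [7, 5, 2, 2, 2, 1, 1]) (c' := [10, 2, 2, 2, 2, 2]) 0 1 (by decide +kernel)) <|
    AllG.cons (t284.var (a' := [7, 5, 2, 2, 2, 1, 1]) (b' := [7, 5, 2, 2, 2, 1, 1]) (c' := [10, 2, 2, 2, 2, 1, 1]) 1 3 (by decide +kernel)) <|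
    AllG.cons (t287.var (a' := [7, 5, 2, 2, 2, 1, 1]) (b' := [7, 5, 2, 2, 2, 1, 1]) (c' := [10, 2, 2, 2, 1, 1, 1, 1]) 2 0 (by decide +kernel)) <|
    AllG.cons (t290.var (a' := [7, 5, 2, 2, 2, 1, 1]) (b' := [7, 5, 2, 2, 2, 1, 1]) (c' := [10, 2, 2, 1, 1, 1, 1, 1, 1]) 2 0 (by decide +kernel)) <|
    AllG.cons t293 <|
    AllG.cons t295 <|
    AllG.cons t297 <|
    AllG.cons t299 <|
    AllG.cons t300 <|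
    AllG.cons (t303.var (a' := [7, 5, 2, 2, 2, 1, 1]) (b' := [7, 5, 2, 2, 2, 1, 1]) (c' := [9, 3, 3, 1, 1, 1, 1, 1]) 2 0 (by decide +kernel)) <|
    AllG.cons (t306.var (a' := [7, 5, 2, 2, 2, 1, 1]) (b' := [7, 5, 2, 2, 2, 1, 1]) (c' := [9, 3, 2, 2, 2, 2]) 0 1 (by decide +kernel)) <|
    AllG.cons (t309.var (a' := [7, 5, 2, 2, 2, 1, 1]) (b' := [7, 5, 2, 2, 2, 1, 1]) (c' := [9, 3, 2, 2, 2, 1, 1]) 1 3 (by decide +kernel)) <|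
    AllG.cons (t312.var (a' := [7, 5, 2, 2, 2, 1, 1]) (b' := [7, 5, 2, 2, 2, 1, 1]) (c' := [9, 3, 2, 2, 1, 1, 1, 1]) 2 0 (by decide +kernel)) <|
    AllG.cons t315 <|
    AllG.cons t318 <|
    AllG.cons t319 <|
    AllG.cons (t322.var (a' := [7, 5, 2, 2, 2, 1, 1]) (b' := [7, 5, 2, 2, 2, 1, 1]) (c' := [8, 4, 4, 1, 1, 1, 1]) 1 3 (by decide +kernel)) <|
    AllG.cons t323 <|
    AllG.cons t324 <|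
    AllG.cons t325 <|
    AllG.cons t326 <|
    AllG.cons (t329.var (a' := [7, 5, 2, 2, 2, 1, 1]) (b' := [7, 5, 2, 2, 2, 1, 1]) (c' := [8, 4, 3, 1, 1, 1, 1, 1]) 2 0 (by decide +kernel)) <|
    AllG.cons (t332.var (a' := [7, 5, 2, 2, 2, 1, 1]) (b' := [7, 5, 2, 2, 2, 1, 1]) (c' := [8, 4, 2, 2, 2, 1, 1]) 1 3 (by decide +kernel)) <|
    AllG.cons t335 <|
    AllG.cons t336 <|
    AllG.cons (t339.var (a' := [7, 5, 2, 2, 2, 1, 1]) (b' := [7, 5, 2, 2, 2, 1, 1]) (c' := [8, 3, 3, 3, 2, 1]) 0 1 (by decide +kernel)) <|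
    AllG.cons t340 <|
    AllG.cons (t343.var (a' := [7, 5, 2, 2, 2, 1, 1]) (b' := [7, 5, 2, 2, 2, 1, 1]) (c' := [8, 3, 3, 2, 2, 2]) 0 1 (by decide +kernel)) <|
    AllG.cons (t346.var (a' := [7, 5, 2, 2, 2, 1, 1]) (b' := [7, 5, 2, 2, 2, 1, 1]) (c' := [8, 3, 3, 2, 2, 1, 1]) 2 0 (by decide +kernel)) <|
    AllG.cons t329 <|
    AllG.cons (t348.var (a' := [7, 5, 2, 2, 2, 1, 1]) (b' := [7, 5, 2, 2, 2, 1, 1]) (c' := [7, 5, 5, 3]) 0 1 (by decide +kernel)) <|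
    AllG.cons (t350.var (a' := [7, 5, 2, 2, 2, 1, 1]) (b' := [7, 5, 2, 2, 2, 1, 1]) (c' := [7, 5, 5, 2, 1]) 0 1 (by decide +kernel)) <|
    AllG.cons (t353.var (a' := [7, 5, 2, 2, 2, 1, 1]) (b' := [7, 5, 2, 2, 2, 1, 1]) (c' := [7, 5, 5, 1, 1, 1]) 1 3 (by decide +kernel)) <|
    AllG.cons (t355.var (a' := [7, 5, 2, 2, 2, 1, 1]) (b' := [7, 5, 2, 2, 2, 1, 1]) (c' := [7, 5, 4, 4]) 0 1 (by decide +kernel)) <|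
    AllG.cons (t357.var (a' := [7, 5, 2, 2, 2, 1, 1]) (b' := [7, 5, 2, 2, 2, 1, 1]) (c' := [7, 5, 4, 3, 1]) 0 1 (by decide +kernel)) <|
    AllG.cons (t359.var (a' := [7, 5, 2, 2, 2, 1, 1]) (b' := [7, 5, 2, 2, 2, 1, 1]) (c' := [7, 5, 4, 2, 2]) 0 1 (by decide +kernel)) <|
    AllG.cons (t363.var (a' := [7, 5, 2, 2, 2, 1, 1]) (b' := [7, 5, 2, 2, 2, 1, 1]) (c' := [7, 5, 4, 2, 1, 1]) 1 3 (by decide +kernel)) <|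
    AllG.cons (t366.var (a' := [7, 5, 2, 2, 2, 1, 1]) (b' := [7, 5, 2, 2, 2, 1, 1]) (c' := [7, 5, 4, 1, 1, 1, 1]) 1 3 (by decide +kernel)) <|
    AllG.cons (t368.var (a' := [7, 5, 2, 2, 2, 1, 1]) (b' := [7, 5, 2, 2, 2, 1, 1]) (c' := [7, 5, 3, 3, 2]) 0 1 (by decide +kernel)) <|
    AllG.cons (t371.var (a' := [7, 5, 2, 2, 2, 1, 1]) (b' := [7, 5, 2, 2, 2, 1, 1]) (c' := [7, 5, 3, 3, 1, 1]) 1 3 (by decide +kernel)) <|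
    AllG.cons (t372.var (a' := [7, 5, 2, 2, 2, 1, 1]) (b' := [7, 5, 2, 2, 2, 1, 1]) (c' := [7, 5, 3, 2, 2, 1]) 1 3 (by decide +kernel)) <|
    AllG.cons (t375.var (a' := [7, 5, 2, 2, 2, 1, 1]) (b' := [7, 5, 2, 2, 2, 1, 1]) (c' := [7, 5, 3, 2, 1, 1, 1]) 1 3 (by decide +kernel)) <|
    AllG.cons (t378.var (a' := [7, 5, 2, 2, 2, 1, 1]) (b' := [7, 5, 2, 2, 2, 1, 1]) (c' := [7, 5, 2, 2, 2, 2]) 0 1 (by decide +kernel)) <|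
    AllG.cons t381 <|
    AllG.cons (t384.var (a' := [7, 5, 2, 2, 2, 1, 1]) (b' := [7, 5, 2, 2, 2, 1, 1]) (c' := [7, 4, 4, 4, 1]) 0 3 (by decide +kernel)) <|
    AllG.cons (t386.var (a' := [7, 5, 2, 2, 2, 1, 1]) (b' := [7, 5, 2, 2, 2, 1, 1]) (c' := [7, 4, 4, 3, 2]) 0 3 (by decide +kernel)) <|
    AllG.cons (t387.var (a' := [7, 5, 2, 2, 2, 1, 1]) (b' := [7, 5, 2, 2, 2, 1, 1]) (c' := [7, 4, 4, 3, 1, 1]) 1 3 (by decide +kernel)) <|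
    AllG.cons (t390.var (a' := [7, 5, 2, 2, 2, 1, 1]) (b' := [7, 5, 2, 2, 2, 1, 1]) (c' := [7, 4, 4, 2, 2, 1]) 0 3 (by decide +kernel)) <|
    AllG.cons (t391.var (a' := [7, 5, 2, 2, 2, 1, 1]) (b' := [7, 5, 2, 2, 2, 1, 1]) (c' := [7, 4, 4, 2, 1, 1, 1]) 2 0 (by decide +kernel)) <|
    AllG.cons (t392.var (a' := [7, 5, 2, 2, 2, 1, 1]) (b' := [7, 5, 2, 2, 2, 1, 1]) (c' := [7, 4, 3, 3, 3]) 1 3 (by decide +kernel)) <|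
    AllG.cons (t394.var (a' := [7, 5, 2, 2, 2, 1, 1]) (b' := [7, 5, 2, 2, 2, 1, 1]) (c' := [7, 4, 3, 3, 2, 1]) 0 3 (by decide +kernel)) <|
    AllG.cons t391 <|
    AllG.cons (t397.var (a' := [7, 5, 2, 2, 2, 1, 1]) (b' := [7, 5, 2, 2, 2, 1, 1]) (c' := [7, 4, 3, 2, 2, 2]) 0 3 (by decide +kernel)) <|
    AllG.cons (t375.var (a' := [7, 5, 2, 2, 2, 1, 1]) (b' := [7, 5, 2, 2, 2, 1, 1]) (c' := [7, 4, 3, 2, 2, 1, 1]) 0 3 (by decide +kernel)) <|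
    AllG.cons (t400.var (a' := [7, 5, 2, 2, 2, 1, 1]) (b' := [7, 5, 2, 2, 2, 1, 1]) (c' := [7, 3, 3, 3, 3, 1]) 0 3 (by decide +kernel)) <|
    AllG.cons (t402.var (a' := [7, 5, 2, 2, 2, 1, 1]) (b' := [7, 5, 2, 2, 2, 1, 1]) (c' := [7, 3, 3, 3, 2, 2]) 0 3 (by decide +kernel)) <|
    AllG.cons (t366.var (a' := [7, 5, 2, 2, 2, 1, 1]) (b' := [7, 5, 2, 2, 2, 1, 1]) (c' := [7, 3, 3, 3, 2, 1, 1]) 0 3 (by decide +kernel)) <|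
    AllG.cons (t405.var (a' := [7, 5, 2, 2, 2, 1, 1]) (b' := [7, 5, 2, 2, 2, 1, 1]) (c' := [6, 6, 6, 1, 1]) 1 3 (by decide +kernel)) <|
    AllG.cons (t407.var (a' := [7, 5, 2, 2, 2, 1, 1]) (b' := [7, 5, 2, 2, 2, 1, 1]) (c' := [6, 6, 5, 3]) 0 3 (by decide +kernel)) <|
    AllG.cons (t409.var (a' := [7, 5, 2, 2, 2, 1, 1]) (b' := [7, 5, 2, 2, 2, 1, 1]) (c' := [6, 6, 5, 2, 1]) 0 3 (by decide +kernel)) <|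
    AllG.cons (t412.var (a' := [7, 5, 2, 2, 2, 1, 1]) (b' := [7, 5, 2, 2, 2, 1, 1]) (c' := [6, 6, 5, 1, 1, 1]) 1 3 (by decide +kernel)) <|
    AllG.cons (t414.var (a' := [7, 5, 2, 2, 2, 1, 1]) (b' := [7, 5, 2, 2, 2, 1, 1]) (c' := [6, 6, 4, 3, 1]) 0 3 (by decide +kernel)) <|
    AllG.cons (t417.var (a' := [7, 5, 2, 2, 2, 1, 1]) (b' := [7, 5, 2, 2, 2, 1, 1]) (c' := [6, 6, 4, 2, 1, 1]) 1 3 (by decide +kernel)) <|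
    AllG.cons (t420.var (a' := [7, 5, 2, 2, 2, 1, 1]) (b' := [7, 5, 2, 2, 2, 1, 1]) (c' := [6, 6, 3, 3, 2]) 1 3 (by decide +kernel)) <|
    AllG.cons (t421.var (a' := [7, 5, 2, 2, 2, 1, 1]) (b' := [7, 5, 2, 2, 2, 1, 1]) (c' := [6, 6, 3, 2, 2, 1]) 1 3 (by decide +kernel)) <|
    AllG.cons (t423.var (a' := [7, 5, 2, 2, 2, 1, 1]) (b' := [7, 5, 2, 2, 2, 1, 1]) (c' := [6, 6, 2, 2, 2, 2]) 0 3 (by decide +kernel)) <|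
    AllG.cons (t425.var (a' := [7, 5, 2, 2, 2, 1, 1]) (b' := [7, 5, 2, 2, 2, 1, 1]) (c' := [6, 5, 5, 4]) 0 3 (by decide +kernel)) <|
    AllG.cons (t428.var (a' := [7, 5, 2, 2, 2, 1, 1]) (b' := [7, 5, 2, 2, 2, 1, 1]) (c' := [6, 5, 5, 3, 1]) 0 3 (by decide +kernel)) <|
    AllG.cons (t430.var (a' := [7, 5, 2, 2, 2, 1, 1]) (b' := [7, 5, 2, 2, 2, 1, 1]) (c' := [6, 5, 5, 2, 2]) 0 3 (by decide +kernel)) <|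
    AllG.cons (t433.var (a' := [7, 5, 2, 2, 2, 1, 1]) (b' := [7, 5, 2, 2, 2, 1, 1]) (c' := [6, 5, 5, 2, 1, 1]) 1 3 (by decide +kernel)) <|
    AllG.cons (t436.var (a' := [7, 5, 2, 2, 2, 1, 1]) (b' := [7, 5, 2, 2, 2, 1, 1]) (c' := [6, 5, 4, 4, 1]) 1 3 (by decide +kernel)) <|
    AllG.cons (t438.var (a' := [7, 5, 2, 2, 2, 1, 1]) (b' := [7, 5, 2, 2, 2, 1, 1]) (c' := [6, 5, 4, 3, 2]) 0 3 (by decide +kernel)) <|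
    AllG.cons (t441.var (a' := [7, 5, 2, 2, 2, 1, 1]) (b' := [7, 5, 2, 2, 2, 1, 1]) (c' := [6, 5, 4, 3, 1, 1]) 1 3 (by decide +kernel)) <|
    AllG.cons (t444.var (a' := [7, 5, 2, 2, 2, 1, 1]) (b' := [7, 5, 2, 2, 2, 1, 1]) (c' := [6, 5, 4, 2, 2, 1]) 0 3 (by decide +kernel)) <|
    AllG.cons (t445.var (a' := [7, 5, 2, 2, 2, 1, 1]) (b' := [7, 5, 2, 2, 2, 1, 1]) (c' := [6, 5, 3, 3, 3]) 1 3 (by decide +kernel)) <|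
    AllG.cons (t444.var (a' := [7, 5, 2, 2, 2, 1, 1]) (b' := [7, 5, 2, 2, 2, 1, 1]) (c' := [6, 5, 3, 3, 2, 1]) 1 3 (by decide +kernel)) <|
    AllG.cons (t421.var (a' := [7, 5, 2, 2, 2, 1, 1]) (b' := [7, 5, 2, 2, 2, 1, 1]) (c' := [6, 5, 3, 2, 2, 2]) 0 3 (by decide +kernel)) <|
    AllG.cons (t447.var (a' := [7, 5, 2, 2, 2, 1, 1]) (b' := [7, 5, 2, 2, 2, 1, 1]) (c' := [6, 4, 4, 4, 1, 1]) 0 3 (by decide +kernel)) <|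
    AllG.cons (t449.var (a' := [7, 5, 2, 2, 2, 1, 1]) (b' := [7, 5, 2, 2, 2, 1, 1]) (c' := [6, 4, 4, 3, 3]) 0 3 (by decide +kernel)) <|
    AllG.cons (t441.var (a' := [7, 5, 2, 2, 2, 1, 1]) (b' := [7, 5, 2, 2, 2, 1, 1]) (c' := [6, 4, 4, 3, 2, 1]) 0 3 (by decide +kernel)) <|
    AllG.cons (t433.var (a' := [7, 5, 2, 2, 2, 1, 1]) (b' := [7, 5, 2, 2, 2, 1, 1]) (c' := [6, 4, 3, 3, 3, 1]) 0 3 (by decide +kernel)) <|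
    AllG.cons (t417.var (a' := [7, 5, 2, 2, 2, 1, 1]) (b' := [7, 5, 2, 2, 2, 1, 1]) (c' := [6, 4, 3, 3, 2, 2]) 0 3 (by decide +kernel)) <|
    AllG.cons (t412.var (a' := [7, 5, 2, 2, 2, 1, 1]) (b' := [7, 5, 2, 2, 2, 1, 1]) (c' := [6, 3, 3, 3, 3, 2]) 0 3 (by decide +kernel)) <|
    AllG.cons (t452.var (a' := [7, 5, 2, 2, 2, 1, 1]) (b' := [7, 5, 2, 2, 2, 1, 1]) (c' := [5, 5, 5, 5]) 0 3 (by decide +kernel)) <|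
    AllG.cons (t455.var (a' := [7, 5, 2, 2, 2, 1, 1]) (b' := [7, 5, 2, 2, 2, 1, 1]) (c' := [5, 5, 5, 4, 1]) 0 3 (by decide +kernel)) <|
    AllG.cons (t456.var (a' := [7, 5, 2, 2, 2, 1, 1]) (b' := [7, 5, 2, 2, 2, 1, 1]) (c' := [5, 5, 5, 3, 2]) 0 3 (by decide +kernel)) <|
    AllG.cons (t459.var (a' := [7, 5, 2, 2, 2, 1, 1]) (b' := [7, 5, 2, 2, 2, 1, 1]) (c' := [5, 5, 4, 4, 2]) 0 3 (by decide +kernel)) <|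
    AllG.cons (t456.var (a' := [7, 5, 2, 2, 2, 1, 1]) (b' := [7, 5, 2, 2, 2, 1, 1]) (c' := [5, 5, 4, 3, 3]) 1 3 (by decide +kernel)) <|
    AllG.cons (t455.var (a' := [7, 5, 2, 2, 2, 1, 1]) (b' := [7, 5, 2, 2, 2, 1, 1]) (c' := [5, 4, 4, 4, 3]) 1 3 (by decide +kernel)) <|
    AllG.nil _
theorem F20 : Full (ofL [7, 5, 2, 2, 2, 1, 1]) 20 :=
  full2 4 2 F7 full_nil A20 (by decide +kernel)

end Crest.Agent.R195
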