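import Crest.Agent.R195.Cert3

/-!
# Row 195: generated certificates, part 4
-/

set_option autoImplicit false
set_option maxRecDepth 4000

namespace Crest.Agent.R195

theorem A21 : AllG [6, 5, 4, 3, 2, 1] [] :=
  AllG.nil _
theorem F21 : Full (ofL [6, 5, 4, 3, 2, 1]) 21 :=
  full2 4 1 F10 F3 A21 (by decide +kernel)
theorem t460 : GG [4, 4, 4, 4] [5, 4, 4, 2, 1] [5, 4, 4, 2, 1] :=
  GG.sg (t156.var (a' := [2, 2, 2, 2]) (b' := [3, 2, 2, 1]) (c' := [2, 2, 2, 1, 1]) 1 1 (by decide +kernel))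
    (t156.var (a' := [2, 2, 2, 2]) (b' := [2, 2, 2, 1, 1]) (c' := [3, 2, 2, 1]) 1 0 (by decide +kernel)) (by decide +kernel)
theorem t461 : GG [5, 5, 5, 5, 1, 1] [6, 5, 4, 4, 2, 1] [6, 5, 4, 4, 2, 1] :=
  GG.m1 6 16 (t460.var (a' := [4, 4, 4, 4]) (b' := [5, 4, 3, 3, 1]) (c' := [5, 4, 4, 2, 1]) 1 0 (by decide +kernel)) (by decide +kernel)
theorem t462 : GG [4, 4] [4, 4] [2, 2, 2, 2] :=
  GG.sg (t58.var (a' := [2, 2]) (b' := [2, 2]) (c' := [1, 1, 1, 1]) 1 1 (by decide +kernel))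
    (t58.var (a' := [2, 2]) (b' := [2, 2]) (c' := [1, 1, 1, 1]) 1 1 (by decide +kernel)) (by decide +kernel)
theorem t463 : GG [5, 5, 5, 5, 2] [6, 5, 4, 4, 2, 1] [6, 5, 4, 4, 2, 1] :=
  GG.sg (t462.var (a' := [2, 2, 2, 2]) (b' := [2, 2, 2, 2]) (c' := [2, 2, 2, 2]) 1 0 (by decide +kernel))
    (t262.var (a' := [3, 3, 3, 3, 2]) (b' := [4, 3, 2, 2, 2, 1]) (c' := [4, 3, 2, 2, 2, 1]) 3 0 (by decide +kernel)) (by decide +kernel)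
theorem t464 : GG [5, 4] [5, 4] [3, 2, 2, 2] :=
  GG.sg t0
    t462 (by decide +kernel)
theorem t465 : GG [2, 2, 1] [2, 2, 1] [5] :=
  GG.m1 3 2 t39 (by decide +kernel)
theorem t466 : GG [3, 3, 3, 2, 2] [6, 5, 2] [6, 4, 2, 1] :=
  GG.sg (t465.var (a' := [1, 1, 1, 1, 1]) (b' := [2, 2, 1]) (c' := [3, 2]) 2 5 (by decide +kernel))
    (t27.var (a' := [2, 2, 2, 1, 1]) (b' := [4, 3, 1]) (c' := [3, 2, 2, 1]) 2 4 (by decide +kernel)) (by decide +kernel)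
theorem t467 : GG [5, 5, 5, 4, 3] [6, 5, 4, 4, 2, 1] [6, 5, 4, 4, 2, 1] :=
  GG.sg (t464.var (a' := [2, 2, 2, 2, 1]) (b' := [3, 2, 2, 2]) (c' := [2, 2, 2, 2, 1]) 1 1 (by decide +kernel))
    (t466.var (a' := [3, 3, 3, 2, 2]) (b' := [3, 3, 2, 2, 2, 1]) (c' := [4, 3, 2, 2, 1, 1]) 3 0 (by decide +kernel)) (by decide +kernel)
theorem A22 : AllG [6, 5, 4, 4, 2, 1] [[6, 4, 4, 4, 4], [5, 5, 5, 5, 2], [5, 5, 5, 4, 3], [5, 5, 4, 4, 4]] :=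
  AllG.cons (t461.var (a' := [6, 5, 4, 4, 2, 1]) (b' := [6, 5, 4, 4, 2, 1]) (c' := [6, 4, 4, 4, 4]) 1 3 (by decide +kernel)) <|
    AllG.cons (t463.var (a' := [6, 5, 4, 4, 2, 1]) (b' := [6, 5, 4, 4, 2, 1]) (c' := [5, 5, 5, 5, 2]) 0 3 (by decide +kernel)) <|
    AllG.cons (t467.var (a' := [6, 5, 4, 4, 2, 1]) (b' := [6, 5, 4, 4, 2, 1]) (c' := [5, 5, 5, 4, 3]) 0 3 (by decide +kernel)) <|
    AllG.cons (t463.var (a' := [6, 5, 4, 4, 2, 1]) (b' := [6, 5, 4, 4, 2, 1]) (c' := [5, 5, 4, 4, 4]) 1 3 (by decide +kernel)) <|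
    AllG.nil _
theorem F22 : Full (ofL [6, 5, 4, 4, 2, 1]) 22 :=
  full1 6 F11 A22 (by decide +kernel)
theorem t468 : GG [7, 5, 4, 3, 2, 1, 1] [7, 5, 4, 3, 2, 1, 1] [9, 3, 3, 3, 3, 2] :=
  GG.m1 7 16 (t232.var (a' := [6, 4, 3, 2, 1]) (b' := [6, 4, 3, 2, 1]) (c' := [4, 3, 3, 3, 3]) 0 3 (by decide +kernel)) (by decide +kernel)
theorem t469 : GG [5, 4, 3, 2, 1] [5, 4, 3, 2, 1] [3, 3, 3, 3, 1, 1, 1] :=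
  F15.gg (by decide +kernel)
theorem t470 : GG [4, 3, 3, 3, 1, 1, 1] [6, 4, 3, 2, 1] [6, 4, 3, 2, 1] :=
  GG.sg t0
    (t469.var (a' := [3, 3, 3, 3, 1, 1, 1]) (b' := [5, 4, 3, 2, 1]) (c' := [5, 4, 3, 2, 1]) 0 4 (by decide +kernel)) (by decide +kernel)
theorem t471 : GG [7, 5, 4, 3, 2, 1, 1] [7, 5, 4, 3, 2, 1, 1] [9, 3, 3, 3, 3, 1, 1] :=
  GG.m1 7 16 (t470.var (a' := [6, 4, 3, 2, 1]) (b' := [6, 4, 3, 2, 1]) (c' := [4, 3, 3, 3, 1, 1, 1]) 0 3 (by decide +kernel)) (by decide +kernel)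
theorem t472 : GG [5, 4, 3, 2, 1] [5, 4, 3, 2, 1] [4, 4, 3, 1, 1, 1, 1] :=
  F15.gg (by decide +kernel)
theorem t473 : GG [5, 4, 3, 1, 1, 1, 1] [6, 4, 3, 2, 1] [6, 4, 3, 2, 1] :=
  GG.sg t0
    (t472.var (a' := [4, 4, 3, 1, 1, 1, 1]) (b' := [5, 4, 3, 2, 1]) (c' := [5, 4, 3, 2, 1]) 0 4 (by decide +kernel)) (by decide +kernel)
theorem t474 : GG [7, 5, 4, 3, 2, 1, 1] [7, 5, 4, 3, 2, 1, 1] [8, 4, 4, 3, 1, 1, 1, 1] :=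
  GG.m1 7 16 (t473.var (a' := [6, 4, 3, 2, 1]) (b' := [6, 4, 3, 2, 1]) (c' := [5, 4, 3, 1, 1, 1, 1]) 0 3 (by decide +kernel)) (by decide +kernel)
theorem t475 : GG [7, 5, 4, 3, 2, 1, 1] [7, 5, 4, 3, 2, 1, 1] [8, 4, 3, 3, 3, 1, 1] :=
  GG.m1 7 16 (t470.var (a' := [6, 4, 3, 2, 1]) (b' := [6, 4, 3, 2, 1]) (c' := [4, 3, 3, 3, 1, 1, 1]) 0 3 (by decide +kernel)) (by decide +kernel)
theorem t476 : GG [7, 5, 4, 3, 2, 1, 1] [7, 5, 4, 3, 2, 1, 1] [8, 3, 3, 3, 3, 3] :=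
  GG.m1 7 16 (t232.var (a' := [6, 4, 3, 2, 1]) (b' := [6, 4, 3, 2, 1]) (c' := [4, 3, 3, 3, 3]) 0 3 (by decide +kernel)) (by decide +kernel)
theorem t477 : GG [5, 5, 3, 3] [6, 4, 3, 2, 1] [6, 4, 3, 2, 1] :=
  GG.sg (t152.var (a' := [2, 2, 1, 1]) (b' := [3, 2, 1]) (c' := [3, 2, 1]) 0 4 (by decide +kernel))
    (t153.var (a' := [3, 3, 2, 2]) (b' := [3, 2, 2, 2, 1]) (c' := [3, 2, 2, 2, 1]) 1 4 (by decide +kernel)) (by decide +kernel)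
theorem t478 : GG [5, 5, 5, 3, 3, 1, 1] [7, 5, 4, 3, 2, 1, 1] [7, 5, 4, 3, 2, 1, 1] :=
  GG.m1 7 16 (t477.var (a' := [4, 4, 4, 2, 2]) (b' := [6, 4, 3, 2, 1]) (c' := [5, 4, 3, 2, 1, 1]) 1 1 (by decide +kernel)) (by decide +kernel)
theorem t479 : GG [6, 5, 4, 3, 2, 1] [6, 5, 4, 3, 2, 1] [5, 5, 5, 3, 2, 1] :=
  F21.gg (by decide +kernel)
theorem t480 : GG [7, 5, 4, 3, 2, 1] [7, 5, 4, 3, 2, 1] [6, 5, 5, 3, 2, 1] :=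
  GG.sg t0
    t479 (by decide +kernel)
theorem t481 : GG [7, 5, 4, 3, 2, 1, 1] [7, 5, 5, 3, 2, 1] [7, 5, 4, 3, 2, 1, 1] :=
  GG.sg t0
    (t480.var (a' := [6, 5, 4, 3, 2, 1, 1]) (b' := [6, 5, 5, 3, 2, 1]) (c' := [6, 5, 4, 3, 2, 1, 1]) 1 1 (by decide +kernel)) (by decide +kernel)
theorem t482 : GG [6, 4, 3, 2, 1] [6, 4, 3, 2, 1] [5, 5, 3, 1, 1, 1] :=
  GG.sg (t214.var (a' := [2, 2, 1, 1]) (b' := [2, 2, 1, 1]) (c' := [2, 2, 2]) 3 0 (by decide +kernel))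
    (t169.var (a' := [4, 2, 2, 1, 1]) (b' := [4, 2, 2, 1, 1]) (c' := [3, 3, 1, 1, 1, 1]) 1 1 (by decide +kernel)) (by decide +kernel)
theorem t483 : GG [7, 4, 4, 3, 3, 1, 1] [7, 5, 4, 3, 2, 1, 1] [7, 5, 4, 3, 2, 1, 1] :=
  GG.m1 7 16 (t482.var (a' := [6, 3, 3, 2, 2]) (b' := [6, 4, 3, 2, 1]) (c' := [5, 4, 3, 2, 1, 1]) 2 5 (by decide +kernel)) (by decide +kernel)
theorem t484 : GG [6, 4, 3, 2, 1] [6, 4, 4, 1, 1] [5, 4, 3, 2, 1, 1] :=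
  GG.m1 5 11 (t215.var (a' := [5, 3, 2, 1]) (b' := [5, 3, 3]) (c' := [4, 3, 2, 1, 1]) 1 4 (by decide +kernel)) (by decide +kernel)
theorem t485 : GG [7, 5, 4, 3, 2, 1, 1] [7, 5, 4, 3, 2, 1, 1] [7, 5, 3, 3, 3, 1, 1] :=
  GG.m1 7 16 (t484.var (a' := [6, 4, 3, 2, 1]) (b' := [6, 4, 3, 2, 1]) (c' := [5, 3, 3, 3, 1, 1]) 3 1 (by decide +kernel)) (by decide +kernel)
theorem t486 : GG [6, 4, 3, 2, 1] [6, 4, 3, 2, 1] [5, 4, 3, 3, 1] :=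
  GG.m1 5 11 t222 (by decide +kernel)
theorem t487 : GG [6, 5, 5, 3, 2, 1, 1] [7, 5, 4, 3, 2, 1, 1] [7, 5, 4, 3, 2, 1, 1] :=
  GG.m1 7 16 (t486.var (a' := [5, 4, 4, 2, 1]) (b' := [6, 4, 3, 2, 1]) (c' := [5, 4, 3, 2, 1, 1]) 2 5 (by decide +kernel)) (by decide +kernel)
theorem t488 : GG [6, 4, 3, 2, 1] [6, 4, 3, 2, 1] [5, 4, 3, 2, 1, 1] :=
  GG.m1 5 11 t224 (by decide +kernel)
theorem t489 : GG [7, 5, 4, 3, 2, 1, 1] [7, 5, 4, 3, 2, 1, 1] [7, 5, 4, 3, 2, 1, 1] :=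
  GG.m1 7 16 t488 (by decide +kernel)
theorem t490 : GG [5, 5, 5, 3, 3, 1] [7, 5, 4, 3, 2, 1] [7, 5, 4, 3, 2, 1] :=
  GG.m1 6 16 (t477.var (a' := [4, 4, 4, 2, 2]) (b' := [6, 4, 3, 2, 1]) (c' := [5, 4, 3, 2, 1, 1]) 1 1 (by decide +kernel)) (by decide +kernel)
theorem t491 : GG [6, 5, 5, 3, 3, 1] [7, 5, 4, 3, 2, 1, 1] [7, 5, 4, 3, 2, 1, 1] :=
  GG.sg t0
    (t490.var (a' := [5, 5, 5, 3, 3, 1]) (b' := [6, 5, 4, 3, 2, 1, 1]) (c' := [6, 5, 4, 3, 2, 1, 1]) 3 0 (by decide +kernel)) (by decide +kernel)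
theorem A23 : AllG [7, 5, 4, 3, 2, 1, 1] [[9, 3, 3, 3, 3, 2], [9, 3, 3, 3, 3, 1, 1], [8, 4, 4, 3, 1, 1, 1, 1], [8, 4, 3, 3, 3, 1, 1], [8, 3, 3, 3, 3, 3], [7, 5, 5, 3, 3], [7, 5, 5, 3, 2, 1], [7, 5, 5, 3, 1, 1, 1], [7, 5, 5, 2, 2, 1, 1], [7, 5, 4, 3, 3, 1], [7, 5, 4, 3, 2, 1, 1], [7, 5, 3, 3, 3, 1, 1], [7, 4, 4, 3, 3, 1, 1], [6, 5, 5, 3, 3, 1]] :=
  AllG.cons t468 <|
    AllG.cons t471 <|
    AllG.cons t474 <|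
    AllG.cons t475 <|
    AllG.cons t476 <|
    AllG.cons (t478.var (a' := [7, 5, 4, 3, 2, 1, 1]) (b' := [7, 5, 4, 3, 2, 1, 1]) (c' := [7, 5, 5, 3, 3]) 1 3 (by decide +kernel)) <|
    AllG.cons (t481.var (a' := [7, 5, 4, 3, 2, 1, 1]) (b' := [7, 5, 4, 3, 2, 1, 1]) (c' := [7, 5, 5, 3, 2, 1]) 0 1 (by decide +kernel)) <|
    AllG.cons (t483.var (a' := [7, 5, 4, 3, 2, 1, 1]) (b' := [7, 5, 4, 3, 2, 1, 1]) (c' := [7, 5, 5, 3, 1, 1, 1]) 1 3 (by decide +kernel)) <|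
    AllG.cons (t485.var (a' := [7, 5, 4, 3, 2, 1, 1]) (b' := [7, 5, 4, 3, 2, 1, 1]) (c' := [7, 5, 5, 2, 2, 1, 1]) 2 0 (by decide +kernel)) <|
    AllG.cons (t487.var (a' := [7, 5, 4, 3, 2, 1, 1]) (b' := [7, 5, 4, 3, 2, 1, 1]) (c' := [7, 5, 4, 3, 3, 1]) 1 3 (by decide +kernel)) <|
    AllG.cons t489 <|
    AllG.cons t485 <|
    AllG.cons (t483.var (a' := [7, 5, 4, 3, 2, 1, 1]) (b' := [7, 5, 4, 3, 2, 1, 1]) (c' := [7, 4, 4, 3, 3, 1, 1]) 0 3 (by decide +kernel)) <|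
    AllG.cons (t491.var (a' := [7, 5, 4, 3, 2, 1, 1]) (b' := [7, 5, 4, 3, 2, 1, 1]) (c' := [6, 5, 5, 3, 3, 1]) 0 3 (by decide +kernel)) <|
    AllG.nil _
theorem F23 : Full (ofL [7, 5, 4, 3, 2, 1, 1]) 23 :=
  full2 4 2 F10 F3 A23 (by decide +kernel)

end Crest.Agent.R195
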