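import Crest.Agent.R195.Cert4

/-!
# Row 195: generated certificates, part 5
-/

set_option autoImplicit false
set_option maxRecDepth 4000

namespace Crest.Agent.R195

theorem t492 : GG [6, 5, 4, 4, 2, 1] [6, 5, 4, 4, 2, 1] [6, 6, 6, 1, 1, 1, 1] :=
  F22.gg (by decide +kernel)
theorem t493 : GG [7, 5, 4, 4, 2, 1] [7, 5, 4, 4, 2, 1] [8, 3, 3, 3, 3, 3] :=
  GG.sg t0
    (t492.var (a' := [6, 5, 4, 4, 2, 1]) (b' := [6, 5, 4, 4, 2, 1]) (c' := [7, 3, 3, 3, 3, 3]) 2 0 (by decide +kernel)) (by decide +kernel)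
theorem t494 : GG [7, 5, 4, 4, 2, 1, 1] [9, 3, 3, 3, 3, 3] [7, 5, 4, 4, 2, 1, 1] :=
  GG.sg t0
    (t493.var (a' := [6, 5, 4, 4, 2, 1, 1]) (b' := [8, 3, 3, 3, 3, 3]) (c' := [6, 5, 4, 4, 2, 1, 1]) 1 1 (by decide +kernel)) (by decide +kernel)
theorem t495 : GG [5, 4, 4, 4] [6, 4, 3, 3, 1] [6, 4, 3, 3, 1] :=
  GG.sg t0
    (t460.var (a' := [4, 4, 4, 4]) (b' := [5, 4, 3, 3, 1]) (c' := [5, 4, 3, 3, 1]) 3 0 (by decide +kernel)) (by decide +kernel)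
theorem t496 : GG [7, 5, 4, 4, 2, 1, 1] [7, 5, 4, 4, 2, 1, 1] [8, 4, 4, 4, 4] :=
  GG.m1 7 17 (t495.var (a' := [6, 4, 3, 3, 1]) (b' := [6, 4, 3, 3, 1]) (c' := [5, 4, 4, 4]) 0 3 (by decide +kernel)) (by decide +kernel)
theorem t497 : GG [6, 4, 3, 3, 1] [6, 4, 3, 3, 1] [5, 4, 4, 3, 1] :=
  GG.sg (t155.var (a' := [3, 2, 1, 1]) (b' := [2, 2, 1, 1, 1]) (c' := [2, 2, 2, 1]) 1 5 (by decide +kernel))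
    (t150.var (a' := [3, 2, 2, 2, 1]) (b' := [4, 2, 2, 2]) (c' := [3, 2, 2, 2, 1]) 1 1 (by decide +kernel)) (by decide +kernel)
theorem t498 : GG [7, 5, 4, 4, 2, 1, 1] [7, 5, 4, 4, 2, 1, 1] [8, 4, 4, 4, 3, 1] :=
  GG.m1 7 17 t497 (by decide +kernel)
theorem t499 : GG [6, 5, 4, 4, 2, 1] [6, 5, 4, 4, 2, 1] [6, 4, 4, 4, 2, 2] :=
  F22.gg (by decide +kernel)
theorem t500 : GG [7, 5, 4, 4, 2, 1] [7, 5, 4, 4, 2, 1] [7, 4, 4, 4, 2, 2] :=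
  GG.sg t0
    t499 (by decide +kernel)
theorem t501 : GG [7, 5, 4, 4, 2, 1, 1] [8, 4, 4, 4, 2, 2] [7, 5, 4, 4, 2, 1, 1] :=
  GG.sg t0
    (t500.var (a' := [6, 5, 4, 4, 2, 1, 1]) (b' := [7, 4, 4, 4, 2, 2]) (c' := [6, 5, 4, 4, 2, 1, 1]) 1 1 (by decide +kernel)) (by decide +kernel)
theorem t502 : GG [6, 5, 4, 4, 2, 1] [6, 5, 4, 4, 2, 1] [5, 5, 4, 4, 1, 1, 1, 1] :=
  F22.gg (by decide +kernel)
theorem t503 : GG [6, 5, 4, 4, 1, 1, 1, 1] [7, 5, 4, 4, 2, 1] [7, 5, 4, 4, 2, 1] :=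
  GG.sg t0
    (t502.var (a' := [5, 5, 4, 4, 1, 1, 1, 1]) (b' := [6, 5, 4, 4, 2, 1]) (c' := [6, 5, 4, 4, 2, 1]) 0 4 (by decide +kernel)) (by decide +kernel)
theorem t504 : GG [7, 5, 4, 4, 1, 1, 1, 1] [7, 5, 4, 4, 2, 1, 1] [7, 5, 4, 4, 2, 1, 1] :=
  GG.sg t0
    (t503.var (a' := [6, 5, 4, 4, 1, 1, 1, 1]) (b' := [6, 5, 4, 4, 2, 1, 1]) (c' := [6, 5, 4, 4, 2, 1, 1]) 3 0 (by decide +kernel)) (by decide +kernel)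
theorem t505 : GG [6, 5, 4, 4, 2, 1] [6, 5, 4, 4, 2, 1] [6, 4, 4, 4, 1, 1, 1, 1] :=
  F22.gg (by decide +kernel)
theorem t506 : GG [7, 5, 4, 4, 2, 1] [7, 5, 4, 4, 2, 1] [7, 4, 4, 4, 1, 1, 1, 1] :=
  GG.sg t0
    t505 (by decide +kernel)
theorem t507 : GG [7, 5, 4, 4, 2, 1, 1] [7, 5, 4, 4, 2, 1, 1] [8, 4, 4, 4, 1, 1, 1, 1] :=
  GG.sg t0
    (t506.var (a' := [6, 5, 4, 4, 2, 1, 1]) (b' := [6, 5, 4, 4, 2, 1, 1]) (c' := [7, 4, 4, 4, 1, 1, 1, 1]) 1 0 (by decide +kernel)) (by decide +kernel)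
theorem t508 : GG [6, 5, 4, 4, 2, 1] [6, 5, 4, 4, 2, 1] [6, 4, 4, 3, 3, 2] :=
  F22.gg (by decide +kernel)
theorem t509 : GG [7, 5, 4, 4, 2, 1] [7, 5, 4, 4, 2, 1] [7, 4, 4, 3, 3, 2] :=
  GG.sg t0
    t508 (by decide +kernel)
theorem t510 : GG [7, 5, 4, 4, 2, 1, 1] [8, 4, 4, 3, 3, 2] [7, 5, 4, 4, 2, 1, 1] :=
  GG.sg t0
    (t509.var (a' := [6, 5, 4, 4, 2, 1, 1]) (b' := [7, 4, 4, 3, 3, 2]) (c' := [6, 5, 4, 4, 2, 1, 1]) 1 1 (by decide +kernel)) (by decide +kernel)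
theorem t511 : GG [5, 4, 3, 3, 1, 1] [6, 4, 3, 3, 1] [6, 4, 3, 3, 1] :=
  GG.sg (t69.var (a' := [2, 1, 1, 1, 1, 1]) (b' := [3, 2, 1, 1]) (c' := [3, 2, 1, 1]) 3 0 (by decide +kernel))
    (t153.var (a' := [3, 3, 2, 2]) (b' := [3, 2, 2, 2, 1]) (c' := [3, 2, 2, 2, 1]) 1 4 (by decide +kernel)) (by decide +kernel)
theorem t512 : GG [7, 5, 4, 4, 2, 1, 1] [7, 5, 4, 4, 2, 1, 1] [8, 4, 4, 3, 3, 1, 1] :=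
  GG.m1 7 17 (t511.var (a' := [6, 4, 3, 3, 1]) (b' := [6, 4, 3, 3, 1]) (c' := [5, 4, 3, 3, 1, 1]) 0 3 (by decide +kernel)) (by decide +kernel)
theorem t513 : GG [6, 5, 4, 4, 2, 1] [6, 5, 4, 4, 2, 1] [6, 4, 3, 3, 3, 3] :=
  F22.gg (by decide +kernel)
theorem t514 : GG [7, 5, 4, 4, 2, 1] [7, 5, 4, 4, 2, 1] [7, 4, 3, 3, 3, 3] :=
  GG.sg t0
    t513 (by decide +kernel)
theorem t515 : GG [7, 5, 4, 4, 2, 1, 1] [8, 4, 3, 3, 3, 3] [7, 5, 4, 4, 2, 1, 1] :=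
  GG.sg t0
    (t514.var (a' := [6, 5, 4, 4, 2, 1, 1]) (b' := [7, 4, 3, 3, 3, 3]) (c' := [6, 5, 4, 4, 2, 1, 1]) 1 1 (by decide +kernel)) (by decide +kernel)
theorem t516 : GG [6, 5, 5, 5, 2] [7, 5, 4, 4, 2, 1] [7, 5, 4, 4, 2, 1] :=
  GG.sg t0
    t463 (by decide +kernel)
theorem t517 : GG [7, 5, 4, 4, 2, 1, 1] [7, 5, 5, 5, 2] [7, 5, 4, 4, 2, 1, 1] :=
  GG.sg t0
    (t516.var (a' := [6, 5, 4, 4, 2, 1, 1]) (b' := [6, 5, 5, 5, 2]) (c' := [6, 5, 4, 4, 2, 1, 1]) 3 2 (by decide +kernel)) (by decide +kernel)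
theorem t518 : GG [6, 5, 4, 4, 2, 1] [6, 5, 4, 4, 2, 1] [4, 4, 4, 4, 4, 1, 1] :=
  F22.gg (by decide +kernel)
theorem t519 : GG [5, 4, 4, 4, 4, 1, 1] [7, 5, 4, 4, 2, 1] [7, 5, 4, 4, 2, 1] :=
  GG.sg t0
    (t518.var (a' := [4, 4, 4, 4, 4, 1, 1]) (b' := [6, 5, 4, 4, 2, 1]) (c' := [6, 5, 4, 4, 2, 1]) 0 4 (by decide +kernel)) (by decide +kernel)
theorem t520 : GG [6, 4, 4, 4, 4, 1, 1] [7, 5, 4, 4, 2, 1, 1] [7, 5, 4, 4, 2, 1, 1] :=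
  GG.sg t0
    (t519.var (a' := [5, 4, 4, 4, 4, 1, 1]) (b' := [6, 5, 4, 4, 2, 1, 1]) (c' := [6, 5, 4, 4, 2, 1, 1]) 3 0 (by decide +kernel)) (by decide +kernel)
theorem t521 : GG [6, 5, 5, 4, 3] [7, 5, 4, 4, 2, 1] [7, 5, 4, 4, 2, 1] :=
  GG.sg t0
    t467 (by decide +kernel)
theorem t522 : GG [7, 5, 4, 4, 2, 1, 1] [7, 5, 5, 4, 3] [7, 5, 4, 4, 2, 1, 1] :=
  GG.sg t0
    (t521.var (a' := [6, 5, 4, 4, 2, 1, 1]) (b' := [6, 5, 5, 4, 3]) (c' := [6, 5, 4, 4, 2, 1, 1]) 3 2 (by decide +kernel)) (by decide +kernel)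
theorem t523 : GG [6, 5, 5, 4, 2, 1] [7, 5, 4, 4, 2, 1] [7, 5, 4, 4, 2, 1] :=
  GG.m1 6 17 (t497.var (a' := [5, 4, 4, 3, 1]) (b' := [6, 4, 3, 3, 1]) (c' := [5, 4, 4, 2, 1, 1]) 2 5 (by decide +kernel)) (by decide +kernel)
theorem t524 : GG [7, 5, 4, 4, 2, 1, 1] [7, 5, 5, 4, 2, 1] [7, 5, 4, 4, 2, 1, 1] :=
  GG.sg t0
    (t523.var (a' := [6, 5, 4, 4, 2, 1, 1]) (b' := [6, 5, 5, 4, 2, 1]) (c' := [6, 5, 4, 4, 2, 1, 1]) 3 2 (by decide +kernel)) (by decide +kernel)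
theorem t525 : GG [6, 5, 4, 4, 2, 1] [6, 5, 4, 4, 2, 1] [5, 4, 4, 4, 3, 1, 1] :=
  F22.gg (by decide +kernel)
theorem t526 : GG [6, 4, 4, 4, 3, 1, 1] [7, 5, 4, 4, 2, 1] [7, 5, 4, 4, 2, 1] :=
  GG.sg t0
    (t525.var (a' := [5, 4, 4, 4, 3, 1, 1]) (b' := [6, 5, 4, 4, 2, 1]) (c' := [6, 5, 4, 4, 2, 1]) 0 4 (by decide +kernel)) (by decide +kernel)
theorem t527 : GG [7, 4, 4, 4, 3, 1, 1] [7, 5, 4, 4, 2, 1, 1] [7, 5, 4, 4, 2, 1, 1] :=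
  GG.sg t0
    (t526.var (a' := [6, 4, 4, 4, 3, 1, 1]) (b' := [6, 5, 4, 4, 2, 1, 1]) (c' := [6, 5, 4, 4, 2, 1, 1]) 3 0 (by decide +kernel)) (by decide +kernel)
theorem t528 : GG [4, 1] [4, 1] [3, 2] :=
  GG.m1 2 3 (t13.var (a' := [3]) (b' := [3]) (c' := [3]) 1 0 (by decide +kernel)) (by decide +kernel)
theorem t529 : GG [4, 2, 1] [5, 2] [3, 2, 1, 1] :=
  GG.sg (t39.var (a' := [2]) (b' := [1, 1]) (c' := [1, 1]) 0 4 (by decide +kernel))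
    (t528.var (a' := [2, 2, 1]) (b' := [4, 1]) (c' := [2, 1, 1, 1]) 2 5 (by decide +kernel)) (by decide +kernel)
theorem t530 : GG [6, 4, 3, 3, 1] [6, 4, 3, 3, 1] [5, 5, 3, 3, 1] :=
  GG.sg (t529.var (a' := [3, 2, 1, 1]) (b' := [3, 2, 1, 1]) (c' := [2, 2, 1, 1, 1]) 1 1 (by decide +kernel))
    (t153.var (a' := [3, 2, 2, 2, 1]) (b' := [3, 2, 2, 2, 1]) (c' := [3, 3, 2, 2]) 1 0 (by decide +kernel)) (by decide +kernel)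
theorem t531 : GG [6, 5, 5, 3, 3, 1, 1] [7, 5, 4, 4, 2, 1, 1] [7, 5, 4, 4, 2, 1, 1] :=
  GG.m1 7 17 (t530.var (a' := [5, 4, 4, 2, 2]) (b' := [6, 4, 3, 3, 1]) (c' := [5, 4, 4, 2, 1, 1]) 2 5 (by decide +kernel)) (by decide +kernel)
theorem t532 : GG [6, 5, 5, 3, 2, 2] [7, 5, 4, 4, 2, 1] [7, 5, 4, 4, 2, 1] :=
  GG.m1 6 17 (t530.var (a' := [5, 4, 4, 2, 1, 1]) (b' := [6, 4, 3, 3, 1]) (c' := [5, 4, 4, 2, 2]) 2 0 (by decide +kernel)) (by decide +kernel)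
theorem t533 : GG [7, 5, 4, 4, 2, 1, 1] [7, 5, 5, 3, 2, 2] [7, 5, 4, 4, 2, 1, 1] :=
  GG.sg t0
    (t532.var (a' := [6, 5, 4, 4, 2, 1, 1]) (b' := [6, 5, 5, 3, 2, 2]) (c' := [6, 5, 4, 4, 2, 1, 1]) 3 2 (by decide +kernel)) (by decide +kernel)
theorem t534 : GG [7, 5, 4, 4, 2, 1, 1] [7, 5, 4, 4, 2, 1, 1] [7, 5, 4, 3, 3, 1, 1] :=
  GG.m1 7 17 (t511.var (a' := [6, 4, 3, 3, 1]) (b' := [6, 4, 3, 3, 1]) (c' := [5, 4, 3, 3, 1, 1]) 0 3 (by decide +kernel)) (by decide +kernel)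
theorem t535 : GG [5, 5, 5, 5, 2, 1, 1] [7, 5, 4, 4, 2, 1, 1] [7, 5, 4, 4, 2, 1, 1] :=
  GG.m1 7 17 (t495.var (a' := [4, 4, 4, 4, 1]) (b' := [6, 4, 3, 3, 1]) (c' := [5, 4, 4, 2, 1, 1]) 1 1 (by decide +kernel)) (by decide +kernel)
theorem t536 : GG [6, 5, 5, 4, 2, 1, 1] [7, 5, 4, 4, 2, 1, 1] [7, 5, 4, 4, 2, 1, 1] :=
  GG.m1 7 17 (t497.var (a' := [5, 4, 4, 3, 1]) (b' := [6, 4, 3, 3, 1]) (c' := [5, 4, 4, 2, 1, 1]) 2 5 (by decide +kernel)) (by decide +kernel)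
theorem t537 : GG [6, 5, 4, 4, 2, 1] [6, 5, 4, 4, 2, 1] [5, 5, 4, 4, 2, 2] :=
  F22.gg (by decide +kernel)
theorem t538 : GG [7, 5, 4, 4, 2, 1] [7, 5, 4, 4, 2, 1] [6, 5, 4, 4, 2, 2] :=
  GG.sg t0
    t537 (by decide +kernel)
theorem t539 : GG [7, 5, 4, 4, 2, 1, 1] [7, 5, 4, 4, 2, 2] [7, 5, 4, 4, 2, 1, 1] :=
  GG.sg t0
    (t538.var (a' := [6, 5, 4, 4, 2, 1, 1]) (b' := [6, 5, 4, 4, 2, 2]) (c' := [6, 5, 4, 4, 2, 1, 1]) 1 1 (by decide +kernel)) (by decide +kernel)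
theorem t540 : GG [6, 5, 4, 4, 2, 1] [6, 5, 4, 4, 2, 1] [5, 5, 4, 4, 2, 1, 1] :=
  F22.gg (by decide +kernel)
theorem t541 : GG [7, 5, 4, 4, 2, 1] [7, 5, 4, 4, 2, 1] [6, 5, 4, 4, 2, 1, 1] :=
  GG.sg t0
    t540 (by decide +kernel)
theorem t542 : GG [7, 5, 4, 4, 2, 1, 1] [7, 5, 4, 4, 2, 1, 1] [7, 5, 4, 4, 2, 1, 1] :=
  GG.sg t0
    (t541.var (a' := [6, 5, 4, 4, 2, 1, 1]) (b' := [6, 5, 4, 4, 2, 1, 1]) (c' := [6, 5, 4, 4, 2, 1, 1]) 1 0 (by decide +kernel)) (by decide +kernel)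
theorem t543 : GG [6, 5, 4, 4, 2, 1] [6, 5, 4, 4, 2, 1] [5, 5, 4, 3, 3, 2] :=
  F22.gg (by decide +kernel)
theorem t544 : GG [6, 5, 4, 3, 3, 2] [7, 5, 4, 4, 2, 1] [7, 5, 4, 4, 2, 1] :=
  GG.sg t0
    (t543.var (a' := [5, 5, 4, 3, 3, 2]) (b' := [6, 5, 4, 4, 2, 1]) (c' := [6, 5, 4, 4, 2, 1]) 0 4 (by decide +kernel)) (by decide +kernel)
theorem t545 : GG [7, 5, 4, 3, 3, 2] [7, 5, 4, 4, 2, 1, 1] [7, 5, 4, 4, 2, 1, 1] :=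
  GG.sg t0
    (t544.var (a' := [6, 5, 4, 3, 3, 2]) (b' := [6, 5, 4, 4, 2, 1, 1]) (c' := [6, 5, 4, 4, 2, 1, 1]) 3 0 (by decide +kernel)) (by decide +kernel)
theorem t546 : GG [6, 5, 4, 4, 2, 1] [6, 5, 4, 4, 2, 1] [5, 5, 3, 3, 3, 3] :=
  F22.gg (by decide +kernel)
theorem t547 : GG [6, 5, 3, 3, 3, 3] [7, 5, 4, 4, 2, 1] [7, 5, 4, 4, 2, 1] :=
  GG.sg t0
    (t546.var (a' := [5, 5, 3, 3, 3, 3]) (b' := [6, 5, 4, 4, 2, 1]) (c' := [6, 5, 4, 4, 2, 1]) 0 4 (by decide +kernel)) (by decide +kernel)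
theorem t548 : GG [7, 5, 3, 3, 3, 3] [7, 5, 4, 4, 2, 1, 1] [7, 5, 4, 4, 2, 1, 1] :=
  GG.sg t0
    (t547.var (a' := [6, 5, 3, 3, 3, 3]) (b' := [6, 5, 4, 4, 2, 1, 1]) (c' := [6, 5, 4, 4, 2, 1, 1]) 3 0 (by decide +kernel)) (by decide +kernel)
theorem t549 : GG [6, 5, 4, 4, 2, 1] [6, 5, 4, 4, 2, 1] [5, 4, 4, 4, 4, 1] :=
  F22.gg (by decide +kernel)
theorem t550 : GG [6, 4, 4, 4, 4, 1] [7, 5, 4, 4, 2, 1] [7, 5, 4, 4, 2, 1] :=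
  GG.sg t0
    (t549.var (a' := [5, 4, 4, 4, 4, 1]) (b' := [6, 5, 4, 4, 2, 1]) (c' := [6, 5, 4, 4, 2, 1]) 0 4 (by decide +kernel)) (by decide +kernel)
theorem t551 : GG [7, 4, 4, 4, 4, 1] [7, 5, 4, 4, 2, 1, 1] [7, 5, 4, 4, 2, 1, 1] :=
  GG.sg t0
    (t550.var (a' := [6, 4, 4, 4, 4, 1]) (b' := [6, 5, 4, 4, 2, 1, 1]) (c' := [6, 5, 4, 4, 2, 1, 1]) 3 0 (by decide +kernel)) (by decide +kernel)
theorem t552 : GG [6, 5, 4, 4, 2, 1] [6, 5, 4, 4, 2, 1] [5, 4, 4, 4, 3, 2] :=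
  F22.gg (by decide +kernel)
theorem t553 : GG [6, 4, 4, 4, 3, 2] [7, 5, 4, 4, 2, 1] [7, 5, 4, 4, 2, 1] :=
  GG.sg t0
    (t552.var (a' := [5, 4, 4, 4, 3, 2]) (b' := [6, 5, 4, 4, 2, 1]) (c' := [6, 5, 4, 4, 2, 1]) 0 4 (by decide +kernel)) (by decide +kernel)
theorem t554 : GG [7, 4, 4, 4, 3, 2] [7, 5, 4, 4, 2, 1, 1] [7, 5, 4, 4, 2, 1, 1] :=
  GG.sg t0
    (t553.var (a' := [6, 4, 4, 4, 3, 2]) (b' := [6, 5, 4, 4, 2, 1, 1]) (c' := [6, 5, 4, 4, 2, 1, 1]) 3 0 (by decide +kernel)) (by decide +kernel)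
theorem t555 : GG [6, 5, 4, 4, 2, 1] [6, 5, 4, 4, 2, 1] [5, 4, 4, 3, 3, 3] :=
  F22.gg (by decide +kernel)
theorem t556 : GG [6, 4, 4, 3, 3, 3] [7, 5, 4, 4, 2, 1] [7, 5, 4, 4, 2, 1] :=
  GG.sg t0
    (t555.var (a' := [5, 4, 4, 3, 3, 3]) (b' := [6, 5, 4, 4, 2, 1]) (c' := [6, 5, 4, 4, 2, 1]) 0 4 (by decide +kernel)) (by decide +kernel)
theorem t557 : GG [7, 4, 4, 3, 3, 3] [7, 5, 4, 4, 2, 1, 1] [7, 5, 4, 4, 2, 1, 1] :=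
  GG.sg t0
    (t556.var (a' := [6, 4, 4, 3, 3, 3]) (b' := [6, 5, 4, 4, 2, 1, 1]) (c' := [6, 5, 4, 4, 2, 1, 1]) 3 0 (by decide +kernel)) (by decide +kernel)
theorem t558 : GG [6, 6, 6, 6] [7, 5, 4, 4, 2, 1, 1] [7, 5, 4, 4, 2, 1, 1] :=
  GG.sg (t462.var (a' := [2, 2, 2, 2]) (b' := [2, 2, 2, 2]) (c' := [2, 2, 2, 2]) 1 0 (by decide +kernel))
    (t451.var (a' := [4, 4, 4, 4]) (b' := [5, 3, 2, 2, 2, 1, 1]) (c' := [5, 3, 2, 2, 2, 1, 1]) 3 0 (by decide +kernel)) (by decide +kernel)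
theorem t559 : GG [6, 6, 6, 5, 1] [7, 5, 4, 4, 2, 1, 1] [7, 5, 4, 4, 2, 1, 1] :=
  GG.sg (t462.var (a' := [2, 2, 2, 2]) (b' := [2, 2, 2, 2]) (c' := [2, 2, 2, 2]) 1 0 (by decide +kernel))
    (t454.var (a' := [4, 4, 4, 3, 1]) (b' := [5, 3, 2, 2, 2, 1, 1]) (c' := [5, 3, 2, 2, 2, 1, 1]) 3 0 (by decide +kernel)) (by decide +kernel)
theorem t560 : GG [2, 2, 2, 2] [5, 2, 1] [5, 2, 1] :=
  GG.sg (t19.var (a' := [1, 1, 1, 1]) (b' := [3, 1]) (c' := [2, 1, 1]) 2 4 (by decide +kernel))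
    (t19.var (a' := [1, 1, 1, 1]) (b' := [2, 1, 1]) (c' := [3, 1]) 2 5 (by decide +kernel)) (by decide +kernel)
theorem t561 : GG [7, 4, 4, 1] [7, 4, 4, 1] [4, 4, 4, 2, 2] :=
  GG.sg t4
    (t60.var (a' := [4, 3, 3, 1]) (b' := [4, 3, 3, 1]) (c' := [3, 3, 3, 1, 1]) 2 0 (by decide +kernel)) (by decide +kernel)
theorem t562 : GG [6, 6, 6, 4, 2] [7, 5, 4, 4, 2, 1, 1] [7, 5, 4, 4, 2, 1, 1] :=
  GG.sg (t560.var (a' := [2, 2, 2, 2]) (b' := [3, 2, 1, 1, 1]) (c' := [3, 2, 1, 1, 1]) 3 0 (by decide +kernel))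
    (t561.var (a' := [4, 4, 4, 2, 2]) (b' := [4, 3, 3, 3, 1, 1, 1]) (c' := [4, 3, 3, 3, 1, 1, 1]) 1 4 (by decide +kernel)) (by decide +kernel)
theorem t563 : GG [6, 5, 4, 4, 2, 1] [6, 5, 4, 4, 2, 1] [4, 4, 4, 4, 3, 3] :=
  F22.gg (by decide +kernel)
theorem t564 : GG [5, 4, 4, 4, 3, 3] [7, 5, 4, 4, 2, 1] [7, 5, 4, 4, 2, 1] :=
  GG.sg t0
    (t563.var (a' := [4, 4, 4, 4, 3, 3]) (b' := [6, 5, 4, 4, 2, 1]) (c' := [6, 5, 4, 4, 2, 1]) 0 4 (by decide +kernel)) (by decide +kernel)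
theorem t565 : GG [6, 4, 4, 4, 3, 3] [7, 5, 4, 4, 2, 1, 1] [7, 5, 4, 4, 2, 1, 1] :=
  GG.sg t0
    (t564.var (a' := [5, 4, 4, 4, 3, 3]) (b' := [6, 5, 4, 4, 2, 1, 1]) (c' := [6, 5, 4, 4, 2, 1, 1]) 3 0 (by decide +kernel)) (by decide +kernel)
theorem t566 : GG [5, 2, 1] [5, 3] [3, 2, 1, 1, 1] :=
  GG.sg t0
    (t155.var (a' := [4, 2, 1]) (b' := [4, 3]) (c' := [2, 2, 1, 1, 1]) 3 4 (by decide +kernel)) (by decide +kernel)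
theorem t567 : GG [6, 6, 6, 3, 3] [7, 5, 4, 4, 2, 1, 1] [7, 5, 4, 4, 2, 1, 1] :=
  GG.sg (t566.var (a' := [2, 2, 2, 1, 1]) (b' := [3, 2, 1, 1, 1]) (c' := [3, 2, 1, 1, 1]) 1 2 (by decide +kernel))
    (t561.var (a' := [4, 4, 4, 2, 2]) (b' := [4, 3, 3, 3, 1, 1, 1]) (c' := [4, 3, 3, 3, 1, 1, 1]) 1 4 (by decide +kernel)) (by decide +kernel)
theorem t568 : GG [7, 5, 4, 1] [7, 5, 4, 1] [4, 4, 3, 2, 2, 2] :=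
  GG.sg t52
    (t47.var (a' := [4, 3, 3, 1]) (b' := [4, 3, 3, 1]) (c' := [3, 3, 2, 1, 1, 1]) 2 0 (by decide +kernel)) (by decide +kernel)
theorem t569 : GG [6, 5, 4, 3, 3, 3] [7, 5, 4, 4, 2, 1, 1] [7, 5, 4, 4, 2, 1, 1] :=
  GG.sg (t69.var (a' := [2, 1, 1, 1, 1, 1]) (b' := [3, 2, 1, 1]) (c' := [3, 2, 1, 1]) 3 0 (by decide +kernel))
    (t568.var (a' := [4, 4, 3, 2, 2, 2]) (b' := [4, 3, 3, 3, 2, 1, 1]) (c' := [4, 3, 3, 3, 2, 1, 1]) 1 4 (by decide +kernel)) (by decide +kernel)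
theorem t570 : GG [4, 4, 1] [6, 3] [3, 2, 2, 2] :=
  GG.sg (t58.var (a' := [2, 2]) (b' := [2, 2]) (c' := [1, 1, 1, 1]) 1 1 (by decide +kernel))
    (t528.var (a' := [2, 2, 1]) (b' := [4, 1]) (c' := [2, 1, 1, 1]) 2 5 (by decide +kernel)) (by decide +kernel)
theorem t571 : GG [7, 5, 2, 1] [7, 5, 2, 1] [4, 4, 4, 1, 1, 1] :=
  GG.sg (t14.var (a' := [3, 1, 1, 1]) (b' := [3, 1, 1, 1]) (c' := [2, 2, 2]) 3 3 (by decide +kernel))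
    (t570.var (a' := [4, 4, 1]) (b' := [4, 4, 1]) (c' := [2, 2, 2, 1, 1, 1]) 3 1 (by decide +kernel)) (by decide +kernel)
theorem t572 : GG [6, 6, 6, 2, 2, 2] [7, 5, 4, 4, 2, 1, 1] [7, 5, 4, 4, 2, 1, 1] :=
  GG.sg (t570.var (a' := [2, 2, 2, 1, 1, 1]) (b' := [3, 2, 2, 2]) (c' := [3, 2, 2, 2]) 1 2 (by decide +kernel))
    (t571.var (a' := [4, 4, 4, 1, 1, 1]) (b' := [4, 3, 2, 2, 2, 1, 1]) (c' := [4, 3, 2, 2, 2, 1, 1]) 1 4 (by decide +kernel)) (by decide +kernel)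
theorem t573 : GG [6, 6, 5, 5, 2] [7, 5, 4, 4, 2, 1, 1] [7, 5, 4, 4, 2, 1, 1] :=
  GG.sg (t462.var (a' := [2, 2, 2, 2]) (b' := [2, 2, 2, 2]) (c' := [2, 2, 2, 2]) 1 0 (by decide +kernel))
    (t458.var (a' := [4, 4, 3, 3, 2]) (b' := [5, 3, 2, 2, 2, 1, 1]) (c' := [5, 3, 2, 2, 2, 1, 1]) 3 0 (by decide +kernel)) (by decide +kernel)
theorem t574 : GG [6, 5, 4, 4, 2, 1] [6, 5, 4, 4, 2, 1] [4, 4, 4, 4, 4, 2] :=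
  F22.gg (by decide +kernel)
theorem t575 : GG [5, 4, 4, 4, 4, 2] [7, 5, 4, 4, 2, 1] [7, 5, 4, 4, 2, 1] :=
  GG.sg t0
    (t574.var (a' := [4, 4, 4, 4, 4, 2]) (b' := [6, 5, 4, 4, 2, 1]) (c' := [6, 5, 4, 4, 2, 1]) 0 4 (by decide +kernel)) (by decide +kernel)
theorem t576 : GG [6, 4, 4, 4, 4, 2] [7, 5, 4, 4, 2, 1, 1] [7, 5, 4, 4, 2, 1, 1] :=
  GG.sg t0
    (t575.var (a' := [5, 4, 4, 4, 4, 2]) (b' := [6, 5, 4, 4, 2, 1, 1]) (c' := [6, 5, 4, 4, 2, 1, 1]) 3 0 (by decide +kernel)) (by decide +kernel)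
theorem t577 : GG [7, 4, 4, 1] [7, 4, 4, 1] [4, 4, 3, 3, 2] :=
  GG.sg t4
    (t56.var (a' := [4, 3, 3, 1]) (b' := [4, 3, 3, 1]) (c' := [3, 3, 2, 2, 1]) 2 0 (by decide +kernel)) (by decide +kernel)
theorem t578 : GG [6, 6, 5, 4, 3] [7, 5, 4, 4, 2, 1, 1] [7, 5, 4, 4, 2, 1, 1] :=
  GG.sg (t566.var (a' := [2, 2, 2, 1, 1]) (b' := [3, 2, 1, 1, 1]) (c' := [3, 2, 1, 1, 1]) 1 2 (by decide +kernel))
    (t577.var (a' := [4, 4, 3, 3, 2]) (b' := [4, 3, 3, 3, 1, 1, 1]) (c' := [4, 3, 3, 3, 1, 1, 1]) 1 4 (by decide +kernel)) (by decide +kernel)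
theorem t579 : GG [3, 3, 3, 3, 3, 2] [7, 5, 4, 1] [7, 5, 4, 1] :=
  GG.sg (t52.var (a' := [1, 1, 1, 1, 1, 1]) (b' := [3, 2, 1]) (c' := [3, 2, 1]) 0 4 (by decide +kernel))
    (t45.var (a' := [2, 2, 2, 2, 2, 1]) (b' := [4, 3, 3, 1]) (c' := [4, 3, 3, 1]) 2 4 (by decide +kernel)) (by decide +kernel)
theorem t580 : GG [6, 5, 4, 4, 3, 2] [7, 5, 4, 4, 2, 1, 1] [7, 5, 4, 4, 2, 1, 1] :=
  GG.sg (t79.var (a' := [3, 2, 1, 1]) (b' := [3, 2, 1, 1]) (c' := [3, 2, 1, 1]) 1 0 (by decide +kernel))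
    (t579.var (a' := [3, 3, 3, 3, 3, 2]) (b' := [4, 3, 3, 3, 2, 1, 1]) (c' := [4, 3, 3, 3, 2, 1, 1]) 3 0 (by decide +kernel)) (by decide +kernel)
theorem t581 : GG [6, 5, 5, 3, 3, 2] [7, 5, 4, 4, 2, 1, 1] [7, 5, 4, 4, 2, 1, 1] :=
  GG.sg (t77.var (a' := [3, 2, 2]) (b' := [3, 2, 1, 1]) (c' := [3, 2, 1, 1]) 1 4 (by decide +kernel))
    (t579.var (a' := [3, 3, 3, 3, 3, 2]) (b' := [4, 3, 3, 3, 2, 1, 1]) (c' := [4, 3, 3, 3, 2, 1, 1]) 3 0 (by decide +kernel)) (by decide +kernel)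
theorem t582 : GG [6, 6, 4, 3, 3, 2] [7, 5, 4, 4, 2, 1, 1] [7, 5, 4, 4, 2, 1, 1] :=
  GG.sg (t75.var (a' := [3, 3, 1]) (b' := [3, 2, 1, 1]) (c' := [3, 2, 1, 1]) 3 0 (by decide +kernel))
    (t579.var (a' := [3, 3, 3, 3, 3, 2]) (b' := [4, 3, 3, 3, 2, 1, 1]) (c' := [4, 3, 3, 3, 2, 1, 1]) 3 0 (by decide +kernel)) (by decide +kernel)
theorem t583 : GG [5, 3, 2, 1, 1] [5, 3, 2, 1, 1] [2, 2, 2, 2, 2, 2] :=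
  F12.gg (by decide +kernel)
theorem t584 : GG [3, 3, 3, 3, 2, 2] [7, 5, 2, 1, 1] [7, 5, 2, 1, 1] :=
  GG.sg (t58.var (a' := [1, 1, 1, 1]) (b' := [2, 2]) (c' := [2, 2]) 1 2 (by decide +kernel))
    (t583.var (a' := [2, 2, 2, 2, 2, 2]) (b' := [5, 3, 2, 1, 1]) (c' := [5, 3, 2, 1, 1]) 0 4 (by decide +kernel)) (by decide +kernel)
theorem t585 : GG [5, 5, 5, 5, 2, 2] [7, 5, 4, 4, 2, 1, 1] [7, 5, 4, 4, 2, 1, 1] :=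
  GG.sg (t462.var (a' := [2, 2, 2, 2]) (b' := [2, 2, 2, 2]) (c' := [2, 2, 2, 2]) 1 0 (by decide +kernel))
    (t584.var (a' := [3, 3, 3, 3, 2, 2]) (b' := [5, 3, 2, 2, 2, 1, 1]) (c' := [5, 3, 2, 2, 2, 1, 1]) 3 0 (by decide +kernel)) (by decide +kernel)
theorem t586 : GG [5, 5, 5, 4, 2, 2] [7, 5, 4, 4, 2, 1] [7, 5, 4, 4, 2, 1] :=
  GG.sg (t570.var (a' := [2, 2, 2, 1, 1, 1]) (b' := [3, 2, 2, 2]) (c' := [3, 2, 2, 2]) 1 2 (by decide +kernel))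
    (t246.var (a' := [3, 3, 3, 3, 1, 1]) (b' := [4, 3, 2, 2, 2, 1]) (c' := [4, 3, 2, 2, 2, 1]) 3 0 (by decide +kernel)) (by decide +kernel)
theorem t587 : GG [6, 5, 5, 4, 2, 2] [7, 5, 4, 4, 2, 1, 1] [7, 5, 4, 4, 2, 1, 1] :=
  GG.sg t0
    (t586.var (a' := [5, 5, 5, 4, 2, 2]) (b' := [6, 5, 4, 4, 2, 1, 1]) (c' := [6, 5, 4, 4, 2, 1, 1]) 3 0 (by decide +kernel)) (by decide +kernel)
theorem t588 : GG [4, 2, 1, 1] [4, 2, 1, 1] [2, 2, 1, 1, 1, 1] :=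
  F8.gg (by decide +kernel)
theorem t589 : GG [3, 3, 2, 2, 2, 2] [7, 4, 2, 1] [7, 4, 2, 1] :=
  GG.sg (t52.var (a' := [1, 1, 1, 1, 1, 1]) (b' := [3, 2, 1]) (c' := [3, 2, 1]) 0 4 (by decide +kernel))
    (t588.var (a' := [2, 2, 1, 1, 1, 1]) (b' := [4, 2, 1, 1]) (c' := [4, 2, 1, 1]) 0 4 (by decide +kernel)) (by decide +kernel)
theorem t590 : GG [6, 6, 4, 4, 2, 2] [7, 5, 4, 4, 2, 1, 1] [7, 5, 4, 4, 2, 1, 1] :=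
  GG.sg (t153.var (a' := [3, 3, 2, 2]) (b' := [3, 2, 2, 2, 1]) (c' := [3, 2, 2, 2, 1]) 1 4 (by decide +kernel))
    (t589.var (a' := [3, 3, 2, 2, 2, 2]) (b' := [4, 3, 2, 2, 1, 1, 1]) (c' := [4, 3, 2, 2, 1, 1, 1]) 3 0 (by decide +kernel)) (by decide +kernel)
theorem t591 : GG [3, 3, 3, 3, 3, 1] [7, 4, 4, 1] [7, 4, 4, 1] :=
  GG.sg (t4.var (a' := [1, 1, 1, 1, 1]) (b' := [3, 1, 1]) (c' := [3, 1, 1]) 0 4 (by decide +kernel))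
    (t45.var (a' := [2, 2, 2, 2, 2, 1]) (b' := [4, 3, 3, 1]) (c' := [4, 3, 3, 1]) 2 4 (by decide +kernel)) (by decide +kernel)
theorem t592 : GG [5, 5, 5, 4, 4, 1] [7, 5, 4, 4, 2, 1, 1] [7, 5, 4, 4, 2, 1, 1] :=
  GG.sg (t566.var (a' := [2, 2, 2, 1, 1]) (b' := [3, 2, 1, 1, 1]) (c' := [3, 2, 1, 1, 1]) 1 2 (by decide +kernel))
    (t591.var (a' := [3, 3, 3, 3, 3, 1]) (b' := [4, 3, 3, 3, 1, 1, 1]) (c' := [4, 3, 3, 3, 1, 1, 1]) 3 0 (by decide +kernel)) (by decide +kernel)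
theorem t593 : GG [6, 5, 4, 4, 4, 1] [7, 5, 4, 4, 2, 1, 1] [7, 5, 4, 4, 2, 1, 1] :=
  GG.sg (t260.var (a' := [3, 2, 1, 1, 1]) (b' := [3, 2, 1, 1, 1]) (c' := [3, 2, 1, 1, 1]) 1 0 (by decide +kernel))
    (t591.var (a' := [3, 3, 3, 3, 3, 1]) (b' := [4, 3, 3, 3, 1, 1, 1]) (c' := [4, 3, 3, 3, 1, 1, 1]) 3 0 (by decide +kernel)) (by decide +kernel)
theorem t594 : GG [5, 5, 5, 5, 3, 1] [7, 5, 4, 4, 2, 1, 1] [7, 5, 4, 4, 2, 1, 1] :=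
  GG.sg (t560.var (a' := [2, 2, 2, 2]) (b' := [3, 2, 1, 1, 1]) (c' := [3, 2, 1, 1, 1]) 3 0 (by decide +kernel))
    (t591.var (a' := [3, 3, 3, 3, 3, 1]) (b' := [4, 3, 3, 3, 1, 1, 1]) (c' := [4, 3, 3, 3, 1, 1, 1]) 3 0 (by decide +kernel)) (by decide +kernel)
theorem t595 : GG [5, 5, 5, 4, 3, 1] [7, 5, 4, 4, 2, 1] [7, 5, 4, 4, 2, 1] :=
  GG.sg (t570.var (a' := [2, 2, 2, 1, 1, 1]) (b' := [3, 2, 2, 2]) (c' := [3, 2, 2, 2]) 1 2 (by decide +kernel))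
    (t262.var (a' := [3, 3, 3, 3, 2]) (b' := [4, 3, 2, 2, 2, 1]) (c' := [4, 3, 2, 2, 2, 1]) 3 0 (by decide +kernel)) (by decide +kernel)
theorem t596 : GG [6, 5, 5, 4, 3, 1] [7, 5, 4, 4, 2, 1, 1] [7, 5, 4, 4, 2, 1, 1] :=
  GG.sg t0
    (t595.var (a' := [5, 5, 5, 4, 3, 1]) (b' := [6, 5, 4, 4, 2, 1, 1]) (c' := [6, 5, 4, 4, 2, 1, 1]) 3 0 (by decide +kernel)) (by decide +kernel)
theorem t597 : GG [3, 2] [4, 1] [3, 2] :=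
  GG.m1 2 3 (t1.var (a' := [2, 1]) (b' := [3]) (c' := [2, 1]) 2 1 (by decide +kernel)) (by decide +kernel)
theorem t598 : GG [4, 4, 1] [5, 4] [3, 2, 2, 2] :=
  GG.sg (t58.var (a' := [2, 2]) (b' := [2, 2]) (c' := [1, 1, 1, 1]) 1 1 (by decide +kernel))
    (t597.var (a' := [2, 2, 1]) (b' := [3, 2]) (c' := [2, 1, 1, 1]) 1 1 (by decide +kernel)) (by decide +kernel)
theorem t599 : GG [3, 3, 3, 3] [5, 4, 2, 1] [7, 5] :=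
  GG.m1 4 8 (t156.var (a' := [2, 2, 2, 2]) (b' := [4, 3, 1]) (c' := [5, 3]) 2 1 (by decide +kernel)) (by decide +kernel)
theorem t600 : GG [5, 5, 5] [7, 5, 2, 1] [4, 3, 2, 2, 2, 1, 1] :=
  GG.sg (t1.var (a' := [1, 1, 1]) (b' := [2, 1]) (c' := [2, 1]) 0 4 (by decide +kernel))
    (t599.var (a' := [4, 4, 4]) (b' := [5, 4, 2, 1]) (c' := [2, 2, 2, 2, 2, 1, 1]) 2 0 (by decide +kernel)) (by decide +kernel)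
theorem t601 : GG [5, 5, 5, 5, 4] [7, 5, 4, 4, 2, 1, 1] [7, 5, 4, 4, 2, 1, 1] :=
  GG.sg (t598.var (a' := [2, 2, 2, 2, 1]) (b' := [3, 2, 2, 2]) (c' := [3, 2, 2, 2]) 1 2 (by decide +kernel))
    (t600.var (a' := [3, 3, 3, 3, 3]) (b' := [4, 3, 2, 2, 2, 1, 1]) (c' := [4, 3, 2, 2, 2, 1, 1]) 1 0 (by decide +kernel)) (by decide +kernel)
theorem A24 : AllG [7, 5, 4, 4, 2, 1, 1] [[9, 3, 3, 3, 3, 3], [8, 4, 4, 4, 4], [8, 4, 4, 4, 3, 1], [8, 4, 4, 4, 2, 2], [8, 4, 4, 4, 2, 1, 1], [8, 4, 4, 4, 1, 1, 1, 1], [8, 4, 4, 3, 3, 2], [8, 4, 4, 3, 3, 1, 1], [8, 4, 3, 3, 3, 3], [7, 5, 5, 5, 2], [7, 5, 5, 5, 1, 1], [7, 5, 5, 4, 3], [7, 5, 5, 4, 2, 1], [7, 5, 5, 4, 1, 1, 1], [7, 5, 5, 3, 3, 1], [7, 5, 5, 3, 2, 2], [7, 5, 5, 3, 2, 1, 1], [7, 5, 4, 4, 4], [7, 5, 4, 4, 3, 1], [7, 5, 4, 4, 2, 2], [7, 5, 4,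 4, 2, 1, 1], [7, 5, 4, 3, 3, 2], [7, 5, 4, 3, 3, 1, 1], [7, 5, 3, 3, 3, 3], [7, 4, 4, 4, 4, 1], [7, 4, 4, 4, 3, 2], [7, 4, 4, 4, 3, 1, 1], [7, 4, 4, 3, 3, 3], [6, 6, 6, 6], [6, 6, 6, 5, 1], [6, 6, 6, 4, 2], [6, 6, 6, 4, 1, 1], [6, 6, 6, 3, 3], [6, 6, 6, 3, 2, 1], [6, 6, 6, 2, 2, 2], [6, 6, 5, 5, 2], [6, 6, 5, 5, 1, 1], [6, 6, 5, 4, 3], [6, 6, 5, 4, 2, 1], [6, 6, 5, 3, 3, 1], [6, 6, 5, 3, 2, 2], [6, 6, 4, 4, 4], [6, 6, 4, 4, 3, 1], [6, 6, 4, 4, 2, 2], [6, 6, 4, 3, 3, 2], [6, 6, 3, 3, 3, 3], [6, 5, 5, 5, 3], [6, 5, 5, 5, 2, 1], [6, 5, 5, 4, 4], [6, 5, 5, 4, 3, 1], [6, 5, 5, 4, 2, 2], [6, 5, 5, 3, 3, 2], [6, 5, 4, 4, 4, 1], [6, 5, 4, 4, 3, 2], [6, 5, 4, 3, 3, 3], [6, 4, 4, 4, 4, 2], [6, 4, 4, 4, 3, 3], [5, 5, 5, 5, 4]] :=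
  AllG.cons (t494.var (a' := [7, 5, 4, 4, 2, 1, 1]) (b' := [7, 5, 4, 4, 2, 1, 1]) (c' := [9, 3, 3, 3, 3, 3]) 0 1 (by decide +kernel)) <|
    AllG.cons t496 <|
    AllG.cons t498 <|
    AllG.cons (t501.var (a' := [7, 5, 4, 4, 2, 1, 1]) (b' := [7, 5, 4, 4, 2, 1, 1]) (c' := [8, 4, 4, 4, 2, 2]) 0 1 (by decide +kernel)) <|
    AllG.cons (t504.var (a' := [7, 5, 4, 4, 2, 1, 1]) (b' := [7, 5, 4, 4, 2, 1, 1]) (c' := [8, 4, 4, 4, 2, 1, 1]) 1 3 (by decide +kernel)) <|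
    AllG.cons t507 <|
    AllG.cons (t510.var (a' := [7, 5, 4, 4, 2, 1, 1]) (b' := [7, 5, 4, 4, 2, 1, 1]) (c' := [8, 4, 4, 3, 3, 2]) 0 1 (by decide +kernel)) <|
    AllG.cons t512 <|
    AllG.cons (t515.var (a' := [7, 5, 4, 4, 2, 1, 1]) (b' := [7, 5, 4, 4, 2, 1, 1]) (c' := [8, 4, 3, 3, 3, 3]) 0 1 (by decide +kernel)) <|
    AllG.cons (t517.var (a' := [7, 5, 4, 4, 2, 1, 1]) (b' := [7, 5, 4, 4, 2, 1, 1]) (c' := [7, 5, 5, 5, 2]) 0 1 (by decide +kernel)) <|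
    AllG.cons (t520.var (a' := [7, 5, 4, 4, 2, 1, 1]) (b' := [7, 5, 4, 4, 2, 1, 1]) (c' := [7, 5, 5, 5, 1, 1]) 1 3 (by decide +kernel)) <|
    AllG.cons (t522.var (a' := [7, 5, 4, 4, 2, 1, 1]) (b' := [7, 5, 4, 4, 2, 1, 1]) (c' := [7, 5, 5, 4, 3]) 0 1 (by decide +kernel)) <|
    AllG.cons (t524.var (a' := [7, 5, 4, 4, 2, 1, 1]) (b' := [7, 5, 4, 4, 2, 1, 1]) (c' := [7, 5, 5, 4, 2, 1]) 0 1 (by decide +kernel)) <|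
    AllG.cons (t527.var (a' := [7, 5, 4, 4, 2, 1, 1]) (b' := [7, 5, 4, 4, 2, 1, 1]) (c' := [7, 5, 5, 4, 1, 1, 1]) 1 3 (by decide +kernel)) <|
    AllG.cons (t531.var (a' := [7, 5, 4, 4, 2, 1, 1]) (b' := [7, 5, 4, 4, 2, 1, 1]) (c' := [7, 5, 5, 3, 3, 1]) 1 3 (by decide +kernel)) <|
    AllG.cons (t533.var (a' := [7, 5, 4, 4, 2, 1, 1]) (b' := [7, 5, 4, 4, 2, 1, 1]) (c' := [7, 5, 5, 3, 2, 2]) 0 1 (by decide +kernel)) <|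
    AllG.cons (t534.var (a' := [7, 5, 4, 4, 2, 1, 1]) (b' := [7, 5, 4, 4, 2, 1, 1]) (c' := [7, 5, 5, 3, 2, 1, 1]) 2 0 (by decide +kernel)) <|
    AllG.cons (t535.var (a' := [7, 5, 4, 4, 2, 1, 1]) (b' := [7, 5, 4, 4, 2, 1, 1]) (c' := [7, 5, 4, 4, 4]) 1 3 (by decide +kernel)) <|
    AllG.cons (t536.var (a' := [7, 5, 4, 4, 2, 1, 1]) (b' := [7, 5, 4, 4, 2, 1, 1]) (c' := [7, 5, 4, 4, 3, 1]) 1 3 (by decide +kernel)) <|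
    AllG.cons (t539.var (a' := [7, 5, 4, 4, 2, 1, 1]) (b' := [7, 5, 4, 4, 2, 1, 1]) (c' := [7, 5, 4, 4, 2, 2]) 0 1 (by decide +kernel)) <|
    AllG.cons t542 <|
    AllG.cons (t545.var (a' := [7, 5, 4, 4, 2, 1, 1]) (b' := [7, 5, 4, 4, 2, 1, 1]) (c' := [7, 5, 4, 3, 3, 2]) 0 3 (by decide +kernel)) <|
    AllG.cons t534 <|
    AllG.cons (t548.var (a' := [7, 5, 4, 4, 2, 1, 1]) (b' := [7, 5, 4, 4, 2, 1, 1]) (c' := [7, 5, 3, 3, 3, 3]) 0 3 (by decide +kernel)) <|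
    AllG.cons (t551.var (a' := [7, 5, 4, 4, 2, 1, 1]) (b' := [7, 5, 4, 4, 2, 1, 1]) (c' := [7, 4, 4, 4, 4, 1]) 0 3 (by decide +kernel)) <|
    AllG.cons (t554.var (a' := [7, 5, 4, 4, 2, 1, 1]) (b' := [7, 5, 4, 4, 2, 1, 1]) (c' := [7, 4, 4, 4, 3, 2]) 0 3 (by decide +kernel)) <|
    AllG.cons (t527.var (a' := [7, 5, 4, 4, 2, 1, 1]) (b' := [7, 5, 4, 4, 2, 1, 1]) (c' := [7, 4, 4, 4, 3, 1, 1]) 0 3 (by decide +kernel)) <|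
    AllG.cons (t557.var (a' := [7, 5, 4, 4, 2, 1, 1]) (b' := [7, 5, 4, 4, 2, 1, 1]) (c' := [7, 4, 4, 3, 3, 3]) 0 3 (by decide +kernel)) <|
    AllG.cons (t558.var (a' := [7, 5, 4, 4, 2, 1, 1]) (b' := [7, 5, 4, 4, 2, 1, 1]) (c' := [6, 6, 6, 6]) 0 3 (by decide +kernel)) <|
    AllG.cons (t559.var (a' := [7, 5, 4, 4, 2, 1, 1]) (b' := [7, 5, 4, 4, 2, 1, 1]) (c' := [6, 6, 6, 5, 1]) 0 3 (by decide +kernel)) <|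
    AllG.cons (t562.var (a' := [7, 5, 4, 4, 2, 1, 1]) (b' := [7, 5, 4, 4, 2, 1, 1]) (c' := [6, 6, 6, 4, 2]) 0 3 (by decide +kernel)) <|
    AllG.cons (t565.var (a' := [7, 5, 4, 4, 2, 1, 1]) (b' := [7, 5, 4, 4, 2, 1, 1]) (c' := [6, 6, 6, 4, 1, 1]) 1 3 (by decide +kernel)) <|
    AllG.cons (t567.var (a' := [7, 5, 4, 4, 2, 1, 1]) (b' := [7, 5, 4, 4, 2, 1, 1]) (c' := [6, 6, 6, 3, 3]) 0 3 (by decide +kernel)) <|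
    AllG.cons (t569.var (a' := [7, 5, 4, 4, 2, 1, 1]) (b' := [7, 5, 4, 4, 2, 1, 1]) (c' := [6, 6, 6, 3, 2, 1]) 1 3 (by decide +kernel)) <|
    AllG.cons (t572.var (a' := [7, 5, 4, 4, 2, 1, 1]) (b' := [7, 5, 4, 4, 2, 1, 1]) (c' := [6, 6, 6, 2, 2, 2]) 0 3 (by decide +kernel)) <|
    AllG.cons (t573.var (a' := [7, 5, 4, 4, 2, 1, 1]) (b' := [7, 5, 4, 4, 2, 1, 1]) (c' := [6, 6, 5, 5, 2]) 0 3 (by decide +kernel)) <|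
    AllG.cons (t576.var (a' := [7, 5, 4, 4, 2, 1, 1]) (b' := [7, 5, 4, 4, 2, 1, 1]) (c' := [6, 6, 5, 5, 1, 1]) 1 3 (by decide +kernel)) <|
    AllG.cons (t578.var (a' := [7, 5, 4, 4, 2, 1, 1]) (b' := [7, 5, 4, 4, 2, 1, 1]) (c' := [6, 6, 5, 4, 3]) 0 3 (by decide +kernel)) <|
    AllG.cons (t580.var (a' := [7, 5, 4, 4, 2, 1, 1]) (b' := [7, 5, 4, 4, 2, 1, 1]) (c' := [6, 6, 5, 4, 2, 1]) 1 3 (by decide +kernel)) <|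
    AllG.cons (t581.var (a' := [7, 5, 4, 4, 2, 1, 1]) (b' := [7, 5, 4, 4, 2, 1, 1]) (c' := [6, 6, 5, 3, 3, 1]) 1 3 (by decide +kernel)) <|
    AllG.cons (t582.var (a' := [7, 5, 4, 4, 2, 1, 1]) (b' := [7, 5, 4, 4, 2, 1, 1]) (c' := [6, 6, 5, 3, 2, 2]) 1 3 (by decide +kernel)) <|
    AllG.cons (t585.var (a' := [7, 5, 4, 4, 2, 1, 1]) (b' := [7, 5, 4, 4, 2, 1, 1]) (c' := [6, 6, 4, 4, 4]) 1 3 (by decide +kernel)) <|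
    AllG.cons (t587.var (a' := [7, 5, 4, 4, 2, 1, 1]) (b' := [7, 5, 4, 4, 2, 1, 1]) (c' := [6, 6, 4, 4, 3, 1]) 1 3 (by decide +kernel)) <|
    AllG.cons (t590.var (a' := [7, 5, 4, 4, 2, 1, 1]) (b' := [7, 5, 4, 4, 2, 1, 1]) (c' := [6, 6, 4, 4, 2, 2]) 0 3 (by decide +kernel)) <|
    AllG.cons (t582.var (a' := [7, 5, 4, 4, 2, 1, 1]) (b' := [7, 5, 4, 4, 2, 1, 1]) (c' := [6, 6, 4, 3, 3, 2]) 0 3 (by decide +kernel)) <|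
    AllG.cons (t572.var (a' := [7, 5, 4, 4, 2, 1, 1]) (b' := [7, 5, 4, 4, 2, 1, 1]) (c' := [6, 6, 3, 3, 3, 3]) 1 3 (by decide +kernel)) <|
    AllG.cons (t592.var (a' := [7, 5, 4, 4, 2, 1, 1]) (b' := [7, 5, 4, 4, 2, 1, 1]) (c' := [6, 5, 5, 5, 3]) 1 3 (by decide +kernel)) <|
    AllG.cons (t593.var (a' := [7, 5, 4, 4, 2, 1, 1]) (b' := [7, 5, 4, 4, 2, 1, 1]) (c' := [6, 5, 5, 5, 2, 1]) 1 3 (by decide +kernel)) <|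
    AllG.cons (t594.var (a' := [7, 5, 4, 4, 2, 1, 1]) (b' := [7, 5, 4, 4, 2, 1, 1]) (c' := [6, 5, 5, 4, 4]) 1 3 (by decide +kernel)) <|
    AllG.cons (t596.var (a' := [7, 5, 4, 4, 2, 1, 1]) (b' := [7, 5, 4, 4, 2, 1, 1]) (c' := [6, 5, 5, 4, 3, 1]) 0 3 (by decide +kernel)) <|
    AllG.cons (t587.var (a' := [7, 5, 4, 4, 2, 1, 1]) (b' := [7, 5, 4, 4, 2, 1, 1]) (c' := [6, 5, 5, 4, 2, 2]) 0 3 (by decide +kernel)) <|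
    AllG.cons (t581.var (a' := [7, 5, 4, 4, 2, 1, 1]) (b' := [7, 5, 4, 4, 2, 1, 1]) (c' := [6, 5, 5, 3, 3, 2]) 0 3 (by decide +kernel)) <|
    AllG.cons (t593.var (a' := [7, 5, 4, 4, 2, 1, 1]) (b' := [7, 5, 4, 4, 2, 1, 1]) (c' := [6, 5, 4, 4, 4, 1]) 0 3 (by decide +kernel)) <|
    AllG.cons (t580.var (a' := [7, 5, 4, 4, 2, 1, 1]) (b' := [7, 5, 4, 4, 2, 1, 1]) (c' := [6, 5, 4, 4, 3, 2]) 0 3 (by decide +kernel)) <|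
    AllG.cons (t569.var (a' := [7, 5, 4, 4, 2, 1, 1]) (b' := [7, 5, 4, 4, 2, 1, 1]) (c' := [6, 5, 4, 3, 3, 3]) 0 3 (by decide +kernel)) <|
    AllG.cons (t576.var (a' := [7, 5, 4, 4, 2, 1, 1]) (b' := [7, 5, 4, 4, 2, 1, 1]) (c' := [6, 4, 4, 4, 4, 2]) 0 3 (by decide +kernel)) <|
    AllG.cons (t565.var (a' := [7, 5, 4, 4, 2, 1, 1]) (b' := [7, 5, 4, 4, 2, 1, 1]) (c' := [6, 4, 4, 4, 3, 3]) 0 3 (by decide +kernel)) <|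
    AllG.cons (t601.var (a' := [7, 5, 4, 4, 2, 1, 1]) (b' := [7, 5, 4, 4, 2, 1, 1]) (c' := [5, 5, 5, 5, 4]) 0 3 (by decide +kernel)) <|
    AllG.nil _
theorem F24 : Full (ofL [7, 5, 4, 4, 2, 1, 1]) 24 :=
  full1 7 F11 A24 (by decide +kernel)

end Crest.Agent.R195
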