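import Crest.Agent.R195.Cert5

/-!
# Row 195: generated certificates, part 6
-/

set_option autoImplicit false
set_option maxRecDepth 4000

namespace Crest.Agent.R195

theorem t602 : GG [5, 5, 3, 3, 1, 1] [6, 4, 3, 2, 2, 1] [6, 4, 3, 2, 2, 1] :=
  GG.sg (t65.var (a' := [2, 2]) (b' := [2, 1, 1]) (c' := [2, 1, 1]) 1 4 (by decide +kernel))
    (t246.var (a' := [3, 3, 3, 3, 1, 1]) (b' := [4, 3, 2, 2, 2, 1]) (c' := [4, 3, 2, 2, 2, 1]) 3 0 (by decide +kernel)) (by decide +kernel)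
theorem t603 : GG [7, 5, 5, 3, 3, 1, 1] [7, 6, 4, 3, 2, 2, 1] [7, 6, 4, 3, 2, 2, 1] :=
  GG.m1 7 18 (t602.var (a' := [6, 4, 4, 2, 2]) (b' := [6, 5, 3, 2, 1, 1]) (c' := [6, 4, 3, 2, 2, 1]) 1 0 (by decide +kernel)) (by decide +kernel)
theorem A25 : AllG [7, 6, 4, 3, 2, 2, 1] [[7, 5, 5, 3, 3, 1, 1]] :=
  AllG.cons (t603.var (a' := [7, 6, 4, 3, 2, 2, 1]) (b' := [7, 6, 4, 3, 2, 2, 1]) (c' := [7, 5, 5, 3, 3, 1, 1]) 0 3 (by decide +kernel)) <|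
    AllG.nil _
theorem F25 : Full (ofL [7, 6, 4, 3, 2, 2, 1]) 25 :=
  full2 5 1 F12 F3 A25 (by decide +kernel)
theorem t604 : GG [4, 4, 4, 4, 3] [6, 5, 3, 3, 1, 1] [6, 5, 3, 3, 1, 1] :=
  GG.sg (t598.var (a' := [2, 2, 2, 2, 1]) (b' := [3, 2, 2, 2]) (c' := [3, 2, 2, 2]) 1 2 (by decide +kernel))
    (t203.var (a' := [2, 2, 2, 2, 2]) (b' := [3, 3, 1, 1, 1, 1]) (c' := [3, 3, 1, 1, 1, 1]) 3 0 (by decide +kernel)) (by decide +kernel)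
theorem t605 : GG [7, 6, 4, 4, 2, 2, 1] [7, 6, 4, 4, 2, 2, 1] [8, 4, 4, 4, 4, 2] :=
  GG.m1 7 19 (t604.var (a' := [6, 5, 3, 3, 1, 1]) (b' := [6, 5, 3, 3, 1, 1]) (c' := [4, 4, 4, 4, 3]) 0 3 (by decide +kernel)) (by decide +kernel)
theorem t606 : GG [6, 4, 4, 4, 4, 1, 1] [7, 6, 4, 4, 2, 1] [7, 6, 4, 4, 2, 1] :=
  GG.sg (t39.var (a' := [2]) (b' := [1, 1]) (c' := [1, 1]) 0 4 (by decide +kernel))
    (t518.var (a' := [4, 4, 4, 4, 4, 1, 1]) (b' := [6, 5, 4, 4, 2, 1]) (c' := [6, 5, 4, 4, 2, 1]) 0 4 (by decide +kernel)) (by decide +kernel)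
theorem t607 : GG [7, 6, 4, 4, 2, 2, 1] [8, 4, 4, 4, 4, 1, 1] [7, 6, 4, 4, 2, 2, 1] :=
  GG.sg (t39.var (a' := [1, 1]) (b' := [2]) (c' := [1, 1]) 0 1 (by decide +kernel))
    (t606.var (a' := [6, 5, 4, 4, 2, 2, 1]) (b' := [6, 4, 4, 4, 4, 1, 1]) (c' := [6, 5, 4, 4, 2, 2, 1]) 3 2 (by decide +kernel)) (by decide +kernel)
theorem t608 : GG [7, 6, 4, 4, 2, 2, 1] [7, 6, 4, 4, 2, 2, 1] [8, 4, 4, 4, 3, 3] :=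
  GG.m1 7 19 (t604.var (a' := [6, 5, 3, 3, 1, 1]) (b' := [6, 5, 3, 3, 1, 1]) (c' := [4, 4, 4, 4, 3]) 0 3 (by decide +kernel)) (by decide +kernel)
theorem t609 : GG [3, 3] [4, 2] [4, 1, 1] :=
  GG.sg t39
    (t65.var (a' := [2, 2]) (b' := [3, 1]) (c' := [2, 1, 1]) 2 5 (by decide +kernel)) (by decide +kernel)
theorem t610 : GG [4, 4, 1, 1] [5, 5] [4, 2, 2, 2] :=
  GG.sg (t58.var (a' := [2, 2]) (b' := [2, 2]) (c' := [1, 1, 1, 1]) 1 1 (by decide +kernel))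
    (t609.var (a' := [2, 2, 1, 1]) (b' := [3, 3]) (c' := [3, 1, 1, 1]) 3 2 (by decide +kernel)) (by decide +kernel)
theorem t611 : GG [7, 6, 2, 2] [7, 6, 2, 2] [5, 3, 3, 3, 3] :=
  GG.sg (t72.var (a' := [3, 2, 1, 1]) (b' := [3, 2, 1, 1]) (c' := [3, 1, 1, 1, 1]) 3 3 (by decide +kernel))
    (t610.var (a' := [4, 4, 1, 1]) (b' := [4, 4, 1, 1]) (c' := [2, 2, 2, 2, 2]) 3 1 (by decide +kernel)) (by decide +kernel)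
theorem t612 : GG [7, 5, 5, 5, 4] [7, 6, 4, 4, 2, 2, 1] [7, 6, 4, 4, 2, 2, 1] :=
  GG.sg (t598.var (a' := [2, 2, 2, 2, 1]) (b' := [3, 2, 2, 2]) (c' := [3, 2, 2, 2]) 1 2 (by decide +kernel))
    (t611.var (a' := [5, 3, 3, 3, 3]) (b' := [4, 4, 2, 2, 2, 2, 1]) (c' := [4, 4, 2, 2, 2, 2, 1]) 1 4 (by decide +kernel)) (by decide +kernel)
theorem t613 : GG [3, 2, 2, 2] [3, 2, 2, 2] [3, 2, 2, 2] :=
  GG.sg t0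
    (t462.var (a' := [2, 2, 2, 2]) (b' := [2, 2, 2, 2]) (c' := [2, 2, 2, 2]) 1 0 (by decide +kernel)) (by decide +kernel)
theorem t614 : GG [4, 3, 3, 3, 3, 1] [7, 6, 2, 2] [7, 6, 2, 2] :=
  GG.sg (t69.var (a' := [2, 1, 1, 1, 1, 1]) (b' := [3, 2, 1, 1]) (c' := [3, 2, 1, 1]) 3 0 (by decide +kernel))
    (t610.var (a' := [2, 2, 2, 2, 2]) (b' := [4, 4, 1, 1]) (c' := [4, 4, 1, 1]) 3 2 (by decide +kernel)) (by decide +kernel)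
theorem t615 : GG [7, 5, 5, 5, 3, 1] [7, 6, 4, 4, 2, 2, 1] [7, 6, 4, 4, 2, 2, 1] :=
  GG.sg t613
    (t614.var (a' := [4, 3, 3, 3, 3, 1]) (b' := [4, 4, 2, 2, 2, 2, 1]) (c' := [4, 4, 2, 2, 2, 2, 1]) 3 0 (by decide +kernel)) (by decide +kernel)
theorem t616 : GG [5, 5, 5, 2, 2] [6, 5, 3, 3, 1, 1] [6, 5, 3, 3, 1, 1] :=
  GG.sg (t214.var (a' := [2, 2, 2]) (b' := [2, 2, 1, 1]) (c' := [2, 2, 1, 1]) 3 4 (by decide +kernel))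
    (t200.var (a' := [3, 3, 3, 2, 2]) (b' := [4, 3, 2, 2, 1, 1]) (c' := [4, 3, 2, 2, 1, 1]) 3 0 (by decide +kernel)) (by decide +kernel)
theorem t617 : GG [6, 6, 4, 4, 4, 1, 1] [7, 6, 4, 4, 2, 2, 1] [7, 6, 4, 4, 2, 2, 1] :=
  GG.m1 7 19 (t616.var (a' := [5, 5, 3, 3, 3]) (b' := [6, 5, 3, 3, 1, 1]) (c' := [6, 4, 4, 2, 2, 1]) 1 1 (by decide +kernel)) (by decide +kernel)
theorem t618 : GG [5, 4, 2, 2, 1] [5, 4, 2, 2, 1] [4, 2, 2, 2, 2, 1, 1] :=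
  F14.gg (by decide +kernel)
theorem t619 : GG [7, 6, 4, 4, 1] [7, 6, 4, 4, 1] [6, 4, 4, 4, 2, 1, 1] :=
  GG.sg (t462.var (a' := [2, 2, 2, 2]) (b' := [2, 2, 2, 2]) (c' := [2, 2, 2, 2]) 1 0 (by decide +kernel))
    t618 (by decide +kernel)
theorem t620 : GG [7, 5, 5, 5, 2, 1, 1] [7, 6, 4, 4, 2, 2, 1] [7, 6, 4, 4, 2, 2, 1] :=
  GG.sg (t58.var (a' := [1, 1, 1, 1]) (b' := [2, 2]) (c' := [2, 2]) 1 2 (by decide +kernel))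
    (t619.var (a' := [6, 4, 4, 4, 2, 1, 1]) (b' := [5, 4, 4, 4, 2, 2, 1]) (c' := [5, 4, 4, 4, 2, 2, 1]) 1 4 (by decide +kernel)) (by decide +kernel)
theorem t621 : GG [7, 5, 5, 4, 4, 1] [7, 6, 4, 4, 2, 2, 1] [7, 6, 4, 4, 2, 2, 1] :=
  GG.sg (t570.var (a' := [2, 2, 2, 1, 1, 1]) (b' := [3, 2, 2, 2]) (c' := [3, 2, 2, 2]) 1 2 (by decide +kernel))
    (t611.var (a' := [5, 3, 3, 3, 3]) (b' := [4, 4, 2, 2, 2, 2, 1]) (c' := [4, 4, 2, 2, 2, 2, 1]) 1 4 (by decide +kernel)) (by decide +kernel)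
theorem t622 : GG [4, 4] [6, 2] [3, 3, 1, 1] :=
  GG.sg (t39.var (a' := [1, 1]) (b' := [2]) (c' := [1, 1]) 0 1 (by decide +kernel))
    (t214.var (a' := [3, 3]) (b' := [4, 2]) (c' := [2, 2, 1, 1]) 0 5 (by decide +kernel)) (by decide +kernel)
theorem t623 : GG [5, 4] [7, 2] [4, 3, 1, 1] :=
  GG.sg (t39.var (a' := [1, 1]) (b' := [2]) (c' := [1, 1]) 0 1 (by decide +kernel))
    t155 (by decide +kernel)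
theorem t624 : GG [4, 4, 2, 2, 2, 2, 1] [7, 6, 2, 2] [7, 5, 3, 2] :=
  GG.sg (t622.var (a' := [2, 2, 1, 1, 1, 1]) (b' := [2, 2, 2, 2]) (c' := [3, 3, 1, 1]) 1 2 (by decide +kernel))
    (t623.var (a' := [2, 2, 1, 1, 1, 1, 1]) (b' := [5, 4]) (c' := [4, 2, 2, 1]) 3 2 (by decide +kernel)) (by decide +kernel)
theorem t625 : GG [6, 6, 5, 4, 3, 1, 1] [7, 6, 4, 4, 2, 2, 1] [7, 6, 4, 4, 2, 2, 1] :=
  GG.sg (t598.var (a' := [2, 2, 2, 2, 1]) (b' := [3, 2, 2, 2]) (c' := [3, 2, 2, 2]) 1 2 (by decide +kernel))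
    (t624.var (a' := [4, 4, 3, 2, 2, 1, 1]) (b' := [4, 4, 2, 2, 2, 2, 1]) (c' := [4, 4, 2, 2, 2, 2, 1]) 3 4 (by decide +kernel)) (by decide +kernel)
theorem t626 : GG [5, 3, 1] [6, 2, 1] [3, 2, 2, 2] :=
  GG.sg (t19.var (a' := [3, 1]) (b' := [2, 1, 1]) (c' := [1, 1, 1, 1]) 2 0 (by decide +kernel))
    (t528.var (a' := [2, 2, 1]) (b' := [4, 1]) (c' := [2, 1, 1, 1]) 2 5 (by decide +kernel)) (by decide +kernel)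
theorem t627 : GG [3, 2] [3, 2] [3, 1, 1] :=
  GG.sg t39
    t1 (by decide +kernel)
theorem t628 : GG [3, 3, 2, 1] [4, 2, 2, 1] [7, 2] :=
  GG.m1 4 5 (t627.var (a' := [2, 2, 1]) (b' := [3, 1, 1]) (c' := [3, 2]) 2 1 (by decide +kernel)) (by decide +kernel)
theorem t629 : GG [7, 5, 4, 1] [7, 6, 2, 2] [4, 4, 3, 3, 1, 1, 1] :=
  GG.sg (t138.var (a' := [4, 2, 2]) (b' := [3, 3, 1, 1]) (c' := [2, 2, 2, 2]) 0 5 (by decide +kernel))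
    (t628.var (a' := [3, 3, 2, 1]) (b' := [4, 3, 1, 1]) (c' := [2, 2, 1, 1, 1, 1, 1]) 3 0 (by decide +kernel)) (by decide +kernel)
theorem t630 : GG [7, 5, 5, 4, 3, 1, 1] [7, 6, 4, 4, 2, 2, 1] [7, 6, 4, 4, 2, 2, 1] :=
  GG.sg (t626.var (a' := [3, 2, 2, 1, 1]) (b' := [3, 2, 2, 2]) (c' := [3, 2, 1, 1, 1, 1]) 1 1 (by decide +kernel))
    (t629.var (a' := [4, 3, 3, 3, 2, 1, 1]) (b' := [4, 4, 2, 2, 2, 2, 1]) (c' := [4, 4, 3, 3, 1, 1, 1]) 1 0 (by decide +kernel)) (by decide +kernel)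
theorem t631 : GG [4, 2, 2, 1] [4, 3, 1, 1] [6, 3] :=
  GG.m1 4 5 (t627.var (a' := [3, 1, 1]) (b' := [3, 2]) (c' := [3, 2]) 0 4 (by decide +kernel)) (by decide +kernel)
theorem t632 : GG [7, 6, 2, 2] [7, 6, 2, 2] [5, 3, 3, 2, 2, 2] :=
  GG.sg (t116.var (a' := [3, 3, 1, 1]) (b' := [3, 3, 1, 1]) (c' := [3, 1, 1, 1, 1, 1]) 1 1 (by decide +kernel))
    (t631.var (a' := [4, 3, 1, 1]) (b' := [4, 3, 1, 1]) (c' := [2, 2, 2, 1, 1, 1]) 2 0 (by decide +kernel)) (by decide +kernel)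
theorem t633 : GG [7, 5, 5, 3, 3, 3] [7, 6, 4, 4, 2, 2, 1] [7, 6, 4, 4, 2, 2, 1] :=
  GG.sg (t570.var (a' := [2, 2, 2, 1, 1, 1]) (b' := [3, 2, 2, 2]) (c' := [3, 2, 2, 2]) 1 2 (by decide +kernel))
    (t632.var (a' := [5, 3, 3, 2, 2, 2]) (b' := [4, 4, 2, 2, 2, 2, 1]) (c' := [4, 4, 2, 2, 2, 2, 1]) 1 4 (by decide +kernel)) (by decide +kernel)
theorem t634 : GG [5, 4, 4, 4, 2] [6, 5, 3, 3, 1, 1] [6, 5, 3, 3, 1, 1] :=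
  GG.sg t613
    (t203.var (a' := [2, 2, 2, 2, 2]) (b' := [3, 3, 1, 1, 1, 1]) (c' := [3, 3, 1, 1, 1, 1]) 3 0 (by decide +kernel)) (by decide +kernel)
theorem t635 : GG [6, 6, 5, 5, 2, 1, 1] [7, 6, 4, 4, 2, 2, 1] [7, 6, 4, 4, 2, 2, 1] :=
  GG.m1 7 19 (t634.var (a' := [5, 5, 4, 4, 1]) (b' := [6, 5, 3, 3, 1, 1]) (c' := [6, 4, 4, 2, 2, 1]) 1 1 (by decide +kernel)) (by decide +kernel)
theorem t636 : GG [3, 3, 3] [7, 2] [4, 2, 2, 1] :=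
  GG.sg (t13.var (a' := [1, 1, 1]) (b' := [3]) (c' := [1, 1, 1]) 0 1 (by decide +kernel))
    (t609.var (a' := [2, 2, 2]) (b' := [4, 2]) (c' := [3, 1, 1, 1]) 2 0 (by decide +kernel)) (by decide +kernel)
theorem t637 : GG [4, 1] [4, 1] [3, 1, 1] :=
  GG.sg t0
    t2 (by decide +kernel)
theorem t638 : GG [3, 2, 2, 2] [4, 2, 2, 1] [4, 4, 1] :=
  GG.m1 4 5 (t637.var (a' := [2, 1, 1, 1]) (b' := [3, 1, 1]) (c' := [4, 1]) 2 1 (by decide +kernel)) (by decide +kernel)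
theorem t639 : GG [7, 5, 3, 3] [7, 6, 4, 1] [5, 4, 3, 3, 1, 1, 1] :=
  GG.sg (t636.var (a' := [4, 3, 1, 1]) (b' := [3, 3, 3]) (c' := [2, 2, 1, 1, 1, 1, 1]) 3 4 (by decide +kernel))
    (t638.var (a' := [3, 2, 2, 2]) (b' := [4, 3, 1, 1]) (c' := [3, 2, 2, 2]) 3 0 (by decide +kernel)) (by decide +kernel)
theorem t640 : GG [6, 6, 6, 4, 2, 1, 1] [7, 6, 4, 4, 2, 2, 1] [7, 6, 4, 4, 2, 2, 1] :=
  GG.sg (t622.var (a' := [2, 2, 2, 2]) (b' := [3, 3, 1, 1]) (c' := [2, 2, 1, 1, 1, 1]) 1 1 (by decide +kernel))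
    (t639.var (a' := [4, 4, 4, 2, 2, 1, 1]) (b' := [4, 3, 3, 3, 2, 2, 1]) (c' := [5, 4, 3, 3, 1, 1, 1]) 1 0 (by decide +kernel)) (by decide +kernel)
theorem t641 : GG [6, 6, 6, 5, 1, 1, 1] [7, 6, 4, 4, 2, 2, 1] [7, 6, 4, 4, 2, 2, 1] :=
  GG.m1 7 19 (t604.var (a' := [5, 5, 5, 4]) (b' := [6, 5, 3, 3, 1, 1]) (c' := [6, 4, 4, 2, 2, 1]) 1 1 (by decide +kernel)) (by decide +kernel)
theorem t642 : GG [7, 6, 4, 4, 1] [7, 6, 4, 4, 1] [5, 5, 5, 5, 2] :=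
  GG.sg (t462.var (a' := [2, 2, 2, 2]) (b' := [2, 2, 2, 2]) (c' := [2, 2, 2, 2]) 1 0 (by decide +kernel))
    t195 (by decide +kernel)
theorem t643 : GG [6, 6, 6, 6, 2] [7, 6, 4, 4, 2, 2, 1] [7, 6, 4, 4, 2, 2, 1] :=
  GG.sg (t58.var (a' := [1, 1, 1, 1]) (b' := [2, 2]) (c' := [2, 2]) 1 2 (by decide +kernel))
    (t642.var (a' := [5, 5, 5, 5, 2]) (b' := [5, 4, 4, 4, 2, 2, 1]) (c' := [5, 4, 4, 4, 2, 2, 1]) 1 4 (by decide +kernel)) (by decide +kernel)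
theorem t644 : GG [7, 6, 4, 4, 1] [7, 6, 4, 4, 1] [5, 5, 5, 5, 1, 1] :=
  GG.sg (t462.var (a' := [2, 2, 2, 2]) (b' := [2, 2, 2, 2]) (c' := [2, 2, 2, 2]) 1 0 (by decide +kernel))
    t242 (by decide +kernel)
theorem t645 : GG [6, 6, 6, 6, 1, 1] [7, 6, 4, 4, 2, 2, 1] [7, 6, 4, 4, 2, 2, 1] :=
  GG.sg (t58.var (a' := [1, 1, 1, 1]) (b' := [2, 2]) (c' := [2, 2]) 1 2 (by decide +kernel))
    (t644.var (a' := [5, 5, 5, 5, 1, 1]) (b' := [5, 4, 4, 4, 2, 2, 1]) (c' := [5, 4, 4, 4, 2, 2, 1]) 1 4 (by decide +kernel)) (by decide +kernel)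
theorem t646 : GG [4, 4, 4, 3, 3] [7, 6, 2, 2, 1] [7, 6, 2, 2, 1] :=
  GG.sg (t566.var (a' := [2, 2, 2, 1, 1]) (b' := [3, 2, 1, 1, 1]) (c' := [3, 2, 1, 1, 1]) 1 2 (by decide +kernel))
    (t610.var (a' := [2, 2, 2, 2, 2]) (b' := [4, 4, 1, 1]) (c' := [4, 4, 1, 1]) 3 2 (by decide +kernel)) (by decide +kernel)
theorem t647 : GG [6, 6, 6, 5, 3] [7, 6, 4, 4, 2, 2, 1] [7, 6, 4, 4, 2, 2, 1] :=
  GG.sg (t462.var (a' := [2, 2, 2, 2]) (b' := [2, 2, 2, 2]) (c' := [2, 2, 2, 2]) 1 0 (by decide +kernel))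
    (t646.var (a' := [4, 4, 4, 3, 3]) (b' := [5, 4, 2, 2, 2, 2, 1]) (c' := [5, 4, 2, 2, 2, 2, 1]) 3 0 (by decide +kernel)) (by decide +kernel)
theorem t648 : GG [7, 6, 4, 4, 1] [7, 6, 4, 4, 1] [5, 5, 5, 4, 2, 1] :=
  GG.sg (t462.var (a' := [2, 2, 2, 2]) (b' := [2, 2, 2, 2]) (c' := [2, 2, 2, 2]) 1 0 (by decide +kernel))
    t442 (by decide +kernel)
theorem t649 : GG [6, 6, 6, 5, 2, 1] [7, 6, 4, 4, 2, 2, 1] [7, 6, 4, 4, 2, 2, 1] :=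
  GG.sg (t58.var (a' := [1, 1, 1, 1]) (b' := [2, 2]) (c' := [2, 2]) 1 2 (by decide +kernel))
    (t648.var (a' := [5, 5, 5, 4, 2, 1]) (b' := [5, 4, 4, 4, 2, 2, 1]) (c' := [5, 4, 4, 4, 2, 2, 1]) 1 4 (by decide +kernel)) (by decide +kernel)
theorem t650 : GG [6, 6, 6, 4, 4] [7, 6, 4, 4, 2, 2, 1] [7, 6, 4, 4, 2, 2, 1] :=
  GG.sg (t203.var (a' := [2, 2, 2, 2, 2]) (b' := [3, 3, 1, 1, 1, 1]) (c' := [3, 3, 1, 1, 1, 1]) 3 0 (by decide +kernel))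
    (t561.var (a' := [4, 4, 4, 2, 2]) (b' := [4, 3, 3, 3, 1, 1, 1]) (c' := [4, 3, 3, 3, 1, 1, 1]) 1 4 (by decide +kernel)) (by decide +kernel)
theorem t651 : GG [4, 4, 2, 2, 2, 2, 1] [7, 6, 2, 2] [5, 5, 4, 3] :=
  GG.sg (t622.var (a' := [2, 2, 1, 1, 1, 1]) (b' := [3, 3, 1, 1]) (c' := [2, 2, 2, 2]) 1 3 (by decide +kernel))
    (t628.var (a' := [2, 2, 1, 1, 1, 1, 1]) (b' := [4, 3, 1, 1]) (c' := [3, 3, 2, 1]) 3 5 (by decide +kernel)) (by decide +kernel)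
theorem t652 : GG [6, 6, 6, 4, 3, 1] [7, 6, 4, 4, 2, 2, 1] [7, 6, 4, 4, 2, 2, 1] :=
  GG.sg (t570.var (a' := [2, 2, 2, 1, 1, 1]) (b' := [3, 2, 2, 2]) (c' := [3, 2, 2, 2]) 1 2 (by decide +kernel))
    (t651.var (a' := [4, 4, 4, 3, 2]) (b' := [4, 4, 2, 2, 2, 2, 1]) (c' := [4, 4, 2, 2, 2, 2, 1]) 3 4 (by decide +kernel)) (by decide +kernel)
theorem t653 : GG [7, 6, 2, 2] [7, 6, 2, 2] [4, 4, 4, 3, 1, 1] :=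
  GG.sg t462
    (t570.var (a' := [3, 2, 2, 2]) (b' := [3, 2, 2, 2]) (c' := [2, 2, 2, 1, 1, 1]) 1 1 (by decide +kernel)) (by decide +kernel)
theorem t654 : GG [6, 6, 6, 4, 2, 2] [7, 6, 4, 4, 2, 2, 1] [7, 6, 4, 4, 2, 2, 1] :=
  GG.sg (t570.var (a' := [2, 2, 2, 1, 1, 1]) (b' := [3, 2, 2, 2]) (c' := [3, 2, 2, 2]) 1 2 (by decide +kernel))
    (t653.var (a' := [4, 4, 4, 3, 1, 1]) (b' := [4, 4, 2, 2, 2, 2, 1]) (c' := [4, 4, 2, 2, 2, 2, 1]) 1 4 (by decide +kernel)) (by decide +kernel)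
theorem t655 : GG [2, 2, 2, 2] [3, 3, 1, 1] [6, 2] :=
  GG.m1 4 4 (t58.var (a' := [1, 1, 1, 1]) (b' := [2, 2]) (c' := [2, 2]) 1 2 (by decide +kernel)) (by decide +kernel)
theorem t656 : GG [3, 2] [4, 1] [3, 1, 1] :=
  GG.m1 2 3 (t1.var (a' := [2, 1]) (b' := [3]) (c' := [2, 1]) 2 1 (by decide +kernel)) (by decide +kernel)
theorem t657 : GG [3, 2, 2, 2] [4, 2, 2, 1] [6, 3] :=
  GG.m1 4 5 (t656.var (a' := [2, 1, 1, 1]) (b' := [3, 1, 1]) (c' := [3, 2]) 3 3 (by decide +kernel)) (by decide +kernel)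
theorem t658 : GG [7, 6, 2, 2] [7, 6, 2, 2] [4, 4, 3, 2, 2, 2] :=
  GG.sg (t655.var (a' := [4, 4]) (b' := [3, 3, 1, 1]) (c' := [2, 2, 1, 1, 1, 1]) 2 0 (by decide +kernel))
    (t657.var (a' := [3, 2, 2, 2]) (b' := [4, 3, 1, 1]) (c' := [2, 2, 2, 1, 1, 1]) 3 0 (by decide +kernel)) (by decide +kernel)
theorem t659 : GG [6, 6, 5, 3, 3, 3] [7, 6, 4, 4, 2, 2, 1] [7, 6, 4, 4, 2, 2, 1] :=
  GG.sg (t570.var (a' := [2, 2, 2, 1, 1, 1]) (b' := [3, 2, 2, 2]) (c' := [3, 2, 2, 2]) 1 2 (by decide +kernel))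
    (t658.var (a' := [4, 4, 3, 2, 2, 2]) (b' := [4, 4, 2, 2, 2, 2, 1]) (c' := [4, 4, 2, 2, 2, 2, 1]) 1 4 (by decide +kernel)) (by decide +kernel)
theorem t660 : GG [6, 6, 5, 5, 4] [7, 6, 4, 4, 2, 2, 1] [7, 6, 4, 4, 2, 2, 1] :=
  GG.sg (t203.var (a' := [2, 2, 2, 2, 2]) (b' := [3, 3, 1, 1, 1, 1]) (c' := [3, 3, 1, 1, 1, 1]) 3 0 (by decide +kernel))
    (t577.var (a' := [4, 4, 3, 3, 2]) (b' := [4, 3, 3, 3, 1, 1, 1]) (c' := [4, 3, 3, 3, 1, 1, 1]) 1 4 (by decide +kernel)) (by decide +kernel)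
theorem t661 : GG [6, 5, 5, 4, 4, 2] [7, 6, 4, 4, 2, 2, 1] [7, 6, 4, 4, 2, 2, 1] :=
  GG.sg (t570.var (a' := [2, 2, 2, 1, 1, 1]) (b' := [3, 2, 2, 2]) (c' := [3, 2, 2, 2]) 1 2 (by decide +kernel))
    (t614.var (a' := [4, 3, 3, 3, 3, 1]) (b' := [4, 4, 2, 2, 2, 2, 1]) (c' := [4, 4, 2, 2, 2, 2, 1]) 3 0 (by decide +kernel)) (by decide +kernel)
theorem t662 : GG [7, 6, 4, 4, 1] [7, 6, 4, 4, 1] [5, 5, 4, 4, 2, 2] :=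
  GG.sg (t462.var (a' := [2, 2, 2, 2]) (b' := [2, 2, 2, 2]) (c' := [2, 2, 2, 2]) 1 0 (by decide +kernel))
    t418 (by decide +kernel)
theorem t663 : GG [6, 6, 5, 5, 2, 2] [7, 6, 4, 4, 2, 2, 1] [7, 6, 4, 4, 2, 2, 1] :=
  GG.sg (t58.var (a' := [1, 1, 1, 1]) (b' := [2, 2]) (c' := [2, 2]) 1 2 (by decide +kernel))
    (t662.var (a' := [5, 5, 4, 4, 2, 2]) (b' := [5, 4, 4, 4, 2, 2, 1]) (c' := [5, 4, 4, 4, 2, 2, 1]) 1 4 (by decide +kernel)) (by decide +kernel)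
theorem t664 : GG [4, 4, 3, 3, 2, 2, 1] [7, 6, 4, 2] [6, 5, 5, 3] :=
  GG.sg (t622.var (a' := [2, 2, 1, 1, 1, 1]) (b' := [3, 3, 1, 1]) (c' := [2, 2, 2, 2]) 1 3 (by decide +kernel))
    (t33.var (a' := [2, 2, 2, 2, 1, 1, 1]) (b' := [4, 3, 3, 1]) (c' := [4, 3, 3, 1]) 1 2 (by decide +kernel)) (by decide +kernel)
theorem t665 : GG [6, 6, 5, 4, 4, 1] [7, 6, 4, 4, 2, 2, 1] [7, 6, 4, 4, 2, 2, 1] :=
  GG.sg (t529.var (a' := [2, 2, 1, 1, 1]) (b' := [3, 2, 1, 1]) (c' := [3, 2, 1, 1]) 1 2 (by decide +kernel))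
    (t664.var (a' := [4, 4, 4, 3, 3, 1]) (b' := [4, 4, 3, 3, 2, 2, 1]) (c' := [4, 4, 3, 3, 2, 2, 1]) 3 4 (by decide +kernel)) (by decide +kernel)
theorem t666 : GG [6, 6, 5, 4, 3, 2] [7, 6, 4, 4, 2, 2, 1] [7, 6, 4, 4, 2, 2, 1] :=
  GG.sg (t598.var (a' := [2, 2, 2, 2, 1]) (b' := [3, 2, 2, 2]) (c' := [3, 2, 2, 2]) 1 2 (by decide +kernel))
    (t658.var (a' := [4, 4, 3, 2, 2, 2]) (b' := [4, 4, 2, 2, 2, 2, 1]) (c' := [4, 4, 2, 2, 2, 2, 1]) 1 4 (by decide +kernel)) (by decide +kernel)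
theorem t667 : GG [5, 5, 5, 5, 5, 1] [7, 6, 4, 4, 2, 2, 1] [7, 6, 4, 4, 2, 2, 1] :=
  GG.sg (t203.var (a' := [2, 2, 2, 2, 2]) (b' := [3, 3, 1, 1, 1, 1]) (c' := [3, 3, 1, 1, 1, 1]) 3 0 (by decide +kernel))
    (t591.var (a' := [3, 3, 3, 3, 3, 1]) (b' := [4, 3, 3, 3, 1, 1, 1]) (c' := [4, 3, 3, 3, 1, 1, 1]) 3 0 (by decide +kernel)) (by decide +kernel)
theorem t668 : GG [6, 5, 5, 5, 4, 1] [7, 6, 4, 4, 2, 2, 1] [7, 6, 4, 4, 2, 2, 1] :=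
  GG.sg (t598.var (a' := [2, 2, 2, 2, 1]) (b' := [3, 2, 2, 2]) (c' := [3, 2, 2, 2]) 1 2 (by decide +kernel))
    (t614.var (a' := [4, 3, 3, 3, 3, 1]) (b' := [4, 4, 2, 2, 2, 2, 1]) (c' := [4, 4, 2, 2, 2, 2, 1]) 3 0 (by decide +kernel)) (by decide +kernel)
theorem A26 : AllG [7, 6, 4, 4, 2, 2, 1] [[8, 4, 4, 4, 4, 2], [8, 4, 4, 4, 4, 1, 1], [8, 4, 4, 4, 3, 3], [7, 5, 5, 5, 4], [7, 5, 5, 5, 3, 1], [7, 5, 5, 5, 2, 2], [7, 5, 5, 5, 2, 1, 1], [7, 5, 5, 4, 4, 1], [7, 5, 5, 4, 3, 2], [7, 5, 5, 4, 3, 1, 1], [7, 5, 5, 3, 3, 3], [7, 5, 4, 4, 4, 2], [7, 5, 4, 4, 4, 1, 1], [7, 5, 4, 4, 3, 3], [7, 4, 4, 4, 4, 3], [6, 6, 6, 6, 2], [6, 6, 6, 6, 1, 1], [6, 6, 6, 5, 3], [6, 6, 6, 5, 2, 1], [6, 6, 6, 4, 4], [6, 6, 6, 4, 3, 1], [6, 6, 6, 4, 2, 2], [6, 6, 6, 3, 3, 2], [6, 6, 5, 5, 4], [6, 6, 5, 5, 3, 1], [6, 6, 5,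 5, 2, 2], [6, 6, 5, 4, 4, 1], [6, 6, 5, 4, 3, 2], [6, 6, 5, 3, 3, 3], [6, 6, 4, 4, 4, 2], [6, 6, 4, 4, 3, 3], [6, 5, 5, 5, 5], [6, 5, 5, 5, 4, 1], [6, 5, 5, 5, 3, 2], [6, 5, 5, 4, 4, 2], [6, 5, 5, 4, 3, 3], [6, 5, 4, 4, 4, 3], [6, 4, 4, 4, 4, 4]] :=
  AllG.cons t605 <|
    AllG.cons (t607.var (a' := [7, 6, 4, 4, 2, 2, 1]) (b' := [7, 6, 4, 4, 2, 2, 1]) (c' := [8, 4, 4, 4, 4, 1, 1]) 0 1 (by decide +kernel)) <|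
    AllG.cons t608 <|
    AllG.cons (t612.var (a' := [7, 6, 4, 4, 2, 2, 1]) (b' := [7, 6, 4, 4, 2, 2, 1]) (c' := [7, 5, 5, 5, 4]) 0 3 (by decide +kernel)) <|
    AllG.cons (t615.var (a' := [7, 6, 4, 4, 2, 2, 1]) (b' := [7, 6, 4, 4, 2, 2, 1]) (c' := [7, 5, 5, 5, 3, 1]) 0 3 (by decide +kernel)) <|
    AllG.cons (t617.var (a' := [7, 6, 4, 4, 2, 2, 1]) (b' := [7, 6, 4, 4, 2, 2, 1]) (c' := [7, 5, 5, 5, 2, 2]) 1 3 (by decide +kernel)) <|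
    AllG.cons (t620.var (a' := [7, 6, 4, 4, 2, 2, 1]) (b' := [7, 6, 4, 4, 2, 2, 1]) (c' := [7, 5, 5, 5, 2, 1, 1]) 0 3 (by decide +kernel)) <|
    AllG.cons (t621.var (a' := [7, 6, 4, 4, 2, 2, 1]) (b' := [7, 6, 4, 4, 2, 2, 1]) (c' := [7, 5, 5, 4, 4, 1]) 0 3 (by decide +kernel)) <|
    AllG.cons (t625.var (a' := [7, 6, 4, 4, 2, 2, 1]) (b' := [7, 6, 4, 4, 2, 2, 1]) (c' := [7, 5, 5, 4, 3, 2]) 1 3 (by decide +kernel)) <|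
    AllG.cons (t630.var (a' := [7, 6, 4, 4, 2, 2, 1]) (b' := [7, 6, 4, 4, 2, 2, 1]) (c' := [7, 5, 5, 4, 3, 1, 1]) 0 3 (by decide +kernel)) <|
    AllG.cons (t633.var (a' := [7, 6, 4, 4, 2, 2, 1]) (b' := [7, 6, 4, 4, 2, 2, 1]) (c' := [7, 5, 5, 3, 3, 3]) 0 3 (by decide +kernel)) <|
    AllG.cons (t635.var (a' := [7, 6, 4, 4, 2, 2, 1]) (b' := [7, 6, 4, 4, 2, 2, 1]) (c' := [7, 5, 4, 4, 4, 2]) 1 3 (by decide +kernel)) <|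
    AllG.cons (t620.var (a' := [7, 6, 4, 4, 2, 2, 1]) (b' := [7, 6, 4, 4, 2, 2, 1]) (c' := [7, 5, 4, 4, 4, 1, 1]) 1 3 (by decide +kernel)) <|
    AllG.cons (t640.var (a' := [7, 6, 4, 4, 2, 2, 1]) (b' := [7, 6, 4, 4, 2, 2, 1]) (c' := [7, 5, 4, 4, 3, 3]) 1 3 (by decide +kernel)) <|
    AllG.cons (t641.var (a' := [7, 6, 4, 4, 2, 2, 1]) (b' := [7, 6, 4, 4, 2, 2, 1]) (c' := [7, 4, 4, 4, 4, 3]) 1 3 (by decide +kernel)) <|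
    AllG.cons (t643.var (a' := [7, 6, 4, 4, 2, 2, 1]) (b' := [7, 6, 4, 4, 2, 2, 1]) (c' := [6, 6, 6, 6, 2]) 0 3 (by decide +kernel)) <|
    AllG.cons (t645.var (a' := [7, 6, 4, 4, 2, 2, 1]) (b' := [7, 6, 4, 4, 2, 2, 1]) (c' := [6, 6, 6, 6, 1, 1]) 0 3 (by decide +kernel)) <|
    AllG.cons (t647.var (a' := [7, 6, 4, 4, 2, 2, 1]) (b' := [7, 6, 4, 4, 2, 2, 1]) (c' := [6, 6, 6, 5, 3]) 0 3 (by decide +kernel)) <|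
    AllG.cons (t649.var (a' := [7, 6, 4, 4, 2, 2, 1]) (b' := [7, 6, 4, 4, 2, 2, 1]) (c' := [6, 6, 6, 5, 2, 1]) 0 3 (by decide +kernel)) <|
    AllG.cons (t650.var (a' := [7, 6, 4, 4, 2, 2, 1]) (b' := [7, 6, 4, 4, 2, 2, 1]) (c' := [6, 6, 6, 4, 4]) 0 3 (by decide +kernel)) <|
    AllG.cons (t652.var (a' := [7, 6, 4, 4, 2, 2, 1]) (b' := [7, 6, 4, 4, 2, 2, 1]) (c' := [6, 6, 6, 4, 3, 1]) 0 3 (by decide +kernel)) <|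
    AllG.cons (t654.var (a' := [7, 6, 4, 4, 2, 2, 1]) (b' := [7, 6, 4, 4, 2, 2, 1]) (c' := [6, 6, 6, 4, 2, 2]) 0 3 (by decide +kernel)) <|
    AllG.cons (t659.var (a' := [7, 6, 4, 4, 2, 2, 1]) (b' := [7, 6, 4, 4, 2, 2, 1]) (c' := [6, 6, 6, 3, 3, 2]) 1 3 (by decide +kernel)) <|
    AllG.cons (t660.var (a' := [7, 6, 4, 4, 2, 2, 1]) (b' := [7, 6, 4, 4, 2, 2, 1]) (c' := [6, 6, 5, 5, 4]) 0 3 (by decide +kernel)) <|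
    AllG.cons (t661.var (a' := [7, 6, 4, 4, 2, 2, 1]) (b' := [7, 6, 4, 4, 2, 2, 1]) (c' := [6, 6, 5, 5, 3, 1]) 1 3 (by decide +kernel)) <|
    AllG.cons (t663.var (a' := [7, 6, 4, 4, 2, 2, 1]) (b' := [7, 6, 4, 4, 2, 2, 1]) (c' := [6, 6, 5, 5, 2, 2]) 0 3 (by decide +kernel)) <|
    AllG.cons (t665.var (a' := [7, 6, 4, 4, 2, 2, 1]) (b' := [7, 6, 4, 4, 2, 2, 1]) (c' := [6, 6, 5, 4, 4, 1]) 0 3 (by decide +kernel)) <|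
    AllG.cons (t666.var (a' := [7, 6, 4, 4, 2, 2, 1]) (b' := [7, 6, 4, 4, 2, 2, 1]) (c' := [6, 6, 5, 4, 3, 2]) 0 3 (by decide +kernel)) <|
    AllG.cons (t659.var (a' := [7, 6, 4, 4, 2, 2, 1]) (b' := [7, 6, 4, 4, 2, 2, 1]) (c' := [6, 6, 5, 3, 3, 3]) 0 3 (by decide +kernel)) <|
    AllG.cons (t663.var (a' := [7, 6, 4, 4, 2, 2, 1]) (b' := [7, 6, 4, 4, 2, 2, 1]) (c' := [6, 6, 4, 4, 4, 2]) 1 3 (by decide +kernel)) <|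
    AllG.cons (t654.var (a' := [7, 6, 4, 4, 2, 2, 1]) (b' := [7, 6, 4, 4, 2, 2, 1]) (c' := [6, 6, 4, 4, 3, 3]) 1 3 (by decide +kernel)) <|
    AllG.cons (t667.var (a' := [7, 6, 4, 4, 2, 2, 1]) (b' := [7, 6, 4, 4, 2, 2, 1]) (c' := [6, 5, 5, 5, 5]) 1 3 (by decide +kernel)) <|
    AllG.cons (t668.var (a' := [7, 6, 4, 4, 2, 2, 1]) (b' := [7, 6, 4, 4, 2, 2, 1]) (c' := [6, 5, 5, 5, 4, 1]) 0 3 (by decide +kernel)) <|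
    AllG.cons (t665.var (a' := [7, 6, 4, 4, 2, 2, 1]) (b' := [7, 6, 4, 4, 2, 2, 1]) (c' := [6, 5, 5, 5, 3, 2]) 1 3 (by decide +kernel)) <|
    AllG.cons (t661.var (a' := [7, 6, 4, 4, 2, 2, 1]) (b' := [7, 6, 4, 4, 2, 2, 1]) (c' := [6, 5, 5, 4, 4, 2]) 0 3 (by decide +kernel)) <|
    AllG.cons (t652.var (a' := [7, 6, 4, 4, 2, 2, 1]) (b' := [7, 6, 4, 4, 2, 2, 1]) (c' := [6, 5, 5, 4, 3, 3]) 1 3 (by decide +kernel)) <|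
    AllG.cons (t649.var (a' := [7, 6, 4, 4, 2, 2, 1]) (b' := [7, 6, 4, 4, 2, 2, 1]) (c' := [6, 5, 4, 4, 4, 3]) 1 3 (by decide +kernel)) <|
    AllG.cons (t645.var (a' := [7, 6, 4, 4, 2, 2, 1]) (b' := [7, 6, 4, 4, 2, 2, 1]) (c' := [6, 4, 4, 4, 4, 4]) 1 3 (by decide +kernel)) <|
    AllG.nil _
theorem F26 : Full (ofL [7, 6, 4, 4, 2, 2, 1]) 26 :=
  full1 7 F13 A26 (by decide +kernel)
theorem A27 : AllG [7, 6, 5, 3, 3, 2, 1] [] :=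
  AllG.nil _
theorem F27 : Full (ofL [7, 6, 5, 3, 3, 2, 1]) 27 :=
  full2 5 1 F14 F5 A27 (by decide +kernel)
theorem A28 : AllG [7, 6, 5, 4, 3, 2, 1] [] :=
  AllG.nil _
theorem F28 : Full (ofL [7, 6, 5, 4, 3, 2, 1]) 28 :=
  full2 5 1 F15 F6 A28 (by decide +kernel)

end Crest.Agent.R195
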