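import Crest.Agent.R195.Cert6

/-!
# Row 195: generated certificates, part 7
-/

set_option autoImplicit false
set_option maxRecDepth 4000

namespace Crest.Agent.R195

theorem t669 : GG [7, 6, 5, 3, 3, 2, 1] [7, 6, 5, 3, 3, 2, 1] [7, 7, 7, 1, 1, 1, 1, 1, 1] :=
  F27.gg (by decide +kernel)
theorem t670 : GG [8, 6, 5, 3, 3, 2, 1] [8, 6, 5, 3, 3, 2, 1] [10, 3, 3, 3, 3, 3, 3] :=
  GG.sg t0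
    (t669.var (a' := [7, 6, 5, 3, 3, 2, 1]) (b' := [7, 6, 5, 3, 3, 2, 1]) (c' := [9, 3, 3, 3, 3, 3, 3]) 2 0 (by decide +kernel)) (by decide +kernel)
theorem t671 : GG [8, 6, 5, 3, 3, 2, 1, 1] [11, 3, 3, 3, 3, 3, 3] [8, 6, 5, 3, 3, 2, 1, 1] :=
  GG.sg t0
    (t670.var (a' := [7, 6, 5, 3, 3, 2, 1, 1]) (b' := [10, 3, 3, 3, 3, 3, 3]) (c' := [7, 6, 5, 3, 3, 2, 1, 1]) 1 1 (by decide +kernel)) (by decide +kernel)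
theorem t672 : GG [7, 6, 5, 3, 3, 2, 1] [7, 6, 5, 3, 3, 2, 1] [5, 5, 5, 4, 4, 1, 1, 1, 1] :=
  F27.gg (by decide +kernel)
theorem t673 : GG [6, 5, 5, 4, 4, 1, 1, 1, 1] [8, 6, 5, 3, 3, 2, 1] [8, 6, 5, 3, 3, 2, 1] :=
  GG.sg t0
    (t672.var (a' := [5, 5, 5, 4, 4, 1, 1, 1, 1]) (b' := [7, 6, 5, 3, 3, 2, 1]) (c' := [7, 6, 5, 3, 3, 2, 1]) 0 4 (by decide +kernel)) (by decide +kernel)
theorem t674 : GG [7, 5, 5, 4, 4, 1, 1, 1, 1] [8, 6, 5, 3, 3, 2, 1, 1] [8, 6, 5, 3, 3, 2, 1, 1] :=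
  GG.sg t0
    (t673.var (a' := [6, 5, 5, 4, 4, 1, 1, 1, 1]) (b' := [7, 6, 5, 3, 3, 2, 1, 1]) (c' := [7, 6, 5, 3, 3, 2, 1, 1]) 3 0 (by decide +kernel)) (by decide +kernel)
theorem t675 : GG [7, 6, 5, 3, 3, 2, 1] [7, 6, 5, 3, 3, 2, 1] [6, 5, 5, 4, 3, 1, 1, 1, 1] :=
  F27.gg (by decide +kernel)
theorem t676 : GG [7, 5, 5, 4, 3, 1, 1, 1, 1] [8, 6, 5, 3, 3, 2, 1] [8, 6, 5, 3, 3, 2, 1] :=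
  GG.sg t0
    (t675.var (a' := [6, 5, 5, 4, 3, 1, 1, 1, 1]) (b' := [7, 6, 5, 3, 3, 2, 1]) (c' := [7, 6, 5, 3, 3, 2, 1]) 0 4 (by decide +kernel)) (by decide +kernel)
theorem t677 : GG [8, 5, 5, 4, 3, 1, 1, 1, 1] [8, 6, 5, 3, 3, 2, 1, 1] [8, 6, 5, 3, 3, 2, 1, 1] :=
  GG.sg t0
    (t676.var (a' := [7, 5, 5, 4, 3, 1, 1, 1, 1]) (b' := [7, 6, 5, 3, 3, 2, 1, 1]) (c' := [7, 6, 5, 3, 3, 2, 1, 1]) 3 0 (by decide +kernel)) (by decide +kernel)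
theorem t678 : GG [5, 3, 2, 1, 1] [5, 3, 2, 1, 1] [2, 2, 2, 2, 2, 1, 1] :=
  F12.gg (by decide +kernel)
theorem t679 : GG [7, 5, 4, 2, 2, 1] [8, 5, 4, 3, 1] [6, 5, 3, 3, 2, 1, 1] :=
  GG.sg (t657.var (a' := [2, 2, 2, 1, 1, 1]) (b' := [3, 2, 2, 2]) (c' := [4, 3, 1, 1]) 3 4 (by decide +kernel))
    t678 (by decide +kernel)
theorem t680 : GG [8, 6, 5, 3, 3, 2, 1, 1] [8, 6, 5, 3, 3, 2, 1, 1] [9, 5, 4, 4, 3, 1, 1, 1, 1] :=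
  GG.m1 8 21 (t679.var (a' := [7, 5, 4, 2, 2, 1]) (b' := [7, 5, 4, 2, 2, 1]) (c' := [5, 4, 4, 3, 2, 1, 1, 1]) 3 1 (by decide +kernel)) (by decide +kernel)
theorem t681 : GG [4, 2] [5, 1] [3, 3] :=
  GG.m1 2 4 (t19.var (a' := [3, 1]) (b' := [4]) (c' := [3, 1]) 1 1 (by decide +kernel)) (by decide +kernel)
theorem t682 : GG [4, 2, 2] [6, 2] [3, 3, 1, 1] :=
  GG.sg (t39.var (a' := [2]) (b' := [1, 1]) (c' := [1, 1]) 0 4 (by decide +kernel))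
    (t681.var (a' := [2, 2, 2]) (b' := [5, 1]) (c' := [2, 2, 1, 1]) 2 5 (by decide +kernel)) (by decide +kernel)
theorem t683 : GG [5, 5, 4, 3, 3, 1] [7, 5, 4, 2, 2, 1] [7, 5, 4, 2, 2, 1] :=
  GG.sg (t682.var (a' := [2, 2, 1, 1, 1, 1]) (b' := [4, 2, 2]) (c' := [4, 2, 2]) 3 2 (by decide +kernel))
    (t274.var (a' := [3, 3, 3, 2, 2]) (b' := [3, 3, 2, 2, 2, 1]) (c' := [3, 3, 2, 2, 2, 1]) 3 4 (by decide +kernel)) (by decide +kernel)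
theorem t684 : GG [8, 6, 5, 3, 3, 2, 1, 1] [8, 6, 5, 3, 3, 2, 1, 1] [9, 5, 5, 3, 3, 3, 1] :=
  GG.m1 8 21 (t683.var (a' := [7, 5, 4, 2, 2, 1]) (b' := [7, 5, 4, 2, 2, 1]) (c' := [5, 5, 4, 3, 3, 1]) 0 3 (by decide +kernel)) (by decide +kernel)
theorem t685 : GG [7, 6, 5, 3, 3, 2, 1] [7, 6, 5, 3, 3, 2, 1] [6, 6, 5, 3, 3, 1, 1, 1, 1] :=
  F27.gg (by decide +kernel)
theorem t686 : GG [7, 6, 5, 3, 3, 1, 1, 1, 1] [8, 6, 5, 3, 3, 2, 1] [8, 6, 5, 3, 3, 2, 1] :=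
  GG.sg t0
    (t685.var (a' := [6, 6, 5, 3, 3, 1, 1, 1, 1]) (b' := [7, 6, 5, 3, 3, 2, 1]) (c' := [7, 6, 5, 3, 3, 2, 1]) 0 4 (by decide +kernel)) (by decide +kernel)
theorem t687 : GG [8, 6, 5, 3, 3, 1, 1, 1, 1] [8, 6, 5, 3, 3, 2, 1, 1] [8, 6, 5, 3, 3, 2, 1, 1] :=
  GG.sg t0
    (t686.var (a' := [7, 6, 5, 3, 3, 1, 1, 1, 1]) (b' := [7, 6, 5, 3, 3, 2, 1, 1]) (c' := [7, 6, 5, 3, 3, 2, 1, 1]) 3 0 (by decide +kernel)) (by decide +kernel)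
theorem t688 : GG [7, 6, 5, 3, 3, 2, 1] [7, 6, 5, 3, 3, 2, 1] [7, 5, 5, 3, 3, 1, 1, 1, 1] :=
  F27.gg (by decide +kernel)
theorem t689 : GG [8, 6, 5, 3, 3, 2, 1] [8, 6, 5, 3, 3, 2, 1] [8, 5, 5, 3, 3, 1, 1, 1, 1] :=
  GG.sg t0
    t688 (by decide +kernel)
theorem t690 : GG [8, 6, 5, 3, 3, 2, 1, 1] [8, 6, 5, 3, 3, 2, 1, 1] [9, 5, 5, 3, 3, 1, 1, 1, 1] :=
  GG.sg t0
    (t689.var (a' := [7, 6, 5, 3, 3, 2, 1, 1]) (b' := [7, 6, 5, 3, 3, 2, 1, 1]) (c' := [8, 5, 5, 3, 3, 1, 1, 1, 1]) 1 0 (by decide +kernel)) (by decide +kernel)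
theorem t691 : GG [7, 6, 5, 3, 3, 2, 1] [7, 6, 5, 3, 3, 2, 1] [7, 5, 3, 3, 3, 3, 3] :=
  F27.gg (by decide +kernel)
theorem t692 : GG [8, 6, 5, 3, 3, 2, 1] [8, 6, 5, 3, 3, 2, 1] [8, 5, 3, 3, 3, 3, 3] :=
  GG.sg t0
    t691 (by decide +kernel)
theorem t693 : GG [8, 6, 5, 3, 3, 2, 1, 1] [9, 5, 3, 3, 3, 3, 3] [8, 6, 5, 3, 3, 2, 1, 1] :=
  GG.sg t0
    (t692.var (a' := [7, 6, 5, 3, 3, 2, 1, 1]) (b' := [8, 5, 3, 3, 3, 3, 3]) (c' := [7, 6, 5, 3, 3, 2, 1, 1]) 1 1 (by decide +kernel)) (by decide +kernel)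
theorem t694 : GG [7, 6, 5, 3, 3, 2, 1] [7, 6, 5, 3, 3, 2, 1] [5, 5, 5, 3, 3, 3, 3] :=
  F27.gg (by decide +kernel)
theorem t695 : GG [6, 5, 5, 3, 3, 3, 3] [8, 6, 5, 3, 3, 2, 1] [8, 6, 5, 3, 3, 2, 1] :=
  GG.sg t0
    (t694.var (a' := [5, 5, 5, 3, 3, 3, 3]) (b' := [7, 6, 5, 3, 3, 2, 1]) (c' := [7, 6, 5, 3, 3, 2, 1]) 0 4 (by decide +kernel)) (by decide +kernel)
theorem t696 : GG [7, 5, 5, 3, 3, 3, 3] [8, 6, 5, 3, 3, 2, 1, 1] [8, 6, 5, 3, 3, 2, 1, 1] :=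
  GG.sg t0
    (t695.var (a' := [6, 5, 5, 3, 3, 3, 3]) (b' := [7, 6, 5, 3, 3, 2, 1, 1]) (c' := [7, 6, 5, 3, 3, 2, 1, 1]) 3 0 (by decide +kernel)) (by decide +kernel)
theorem t697 : GG [7, 6, 5, 3, 3, 2, 1] [7, 6, 5, 3, 3, 2, 1] [5, 5, 5, 5, 5, 1, 1] :=
  F27.gg (by decide +kernel)
theorem t698 : GG [6, 5, 5, 5, 5, 1, 1] [8, 6, 5, 3, 3, 2, 1] [8, 6, 5, 3, 3, 2, 1] :=
  GG.sg t0
    (t697.var (a' := [5, 5, 5, 5, 5, 1, 1]) (b' := [7, 6, 5, 3, 3, 2, 1]) (c' := [7, 6, 5, 3, 3, 2, 1]) 0 4 (by decide +kernel)) (by decide +kernel)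
theorem t699 : GG [7, 5, 5, 5, 5, 1, 1] [8, 6, 5, 3, 3, 2, 1, 1] [8, 6, 5, 3, 3, 2, 1, 1] :=
  GG.sg t0
    (t698.var (a' := [6, 5, 5, 5, 5, 1, 1]) (b' := [7, 6, 5, 3, 3, 2, 1, 1]) (c' := [7, 6, 5, 3, 3, 2, 1, 1]) 3 0 (by decide +kernel)) (by decide +kernel)
theorem A29 : AllG [8, 6, 5, 3, 3, 2, 1, 1] [[11, 3, 3, 3, 3, 3, 3], [9, 5, 5, 5, 3, 1, 1], [9, 5, 5, 4, 3, 1, 1, 1], [9, 5, 5, 4, 2, 1, 1, 1, 1], [9, 5, 5, 3, 3, 3, 1], [9, 5, 5, 3, 3, 2, 1, 1], [9, 5, 5, 3, 3, 1, 1, 1, 1], [9, 5, 4, 4, 3, 1, 1, 1, 1], [9, 5, 3, 3, 3, 3, 3], [7, 7, 7, 3, 3, 1, 1], [7, 5, 5, 5, 5, 1, 1], [7, 5, 5, 3, 3, 3, 3]] :=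
  AllG.cons (t671.var (a' := [8, 6, 5, 3, 3, 2, 1, 1]) (b' := [8, 6, 5, 3, 3, 2, 1, 1]) (c' := [11, 3, 3, 3, 3, 3, 3]) 0 1 (by decide +kernel)) <|
    AllG.cons (t674.var (a' := [8, 6, 5, 3, 3, 2, 1, 1]) (b' := [8, 6, 5, 3, 3, 2, 1, 1]) (c' := [9, 5, 5, 5, 3, 1, 1]) 1 3 (by decide +kernel)) <|
    AllG.cons (t677.var (a' := [8, 6, 5, 3, 3, 2, 1, 1]) (b' := [8, 6, 5, 3, 3, 2, 1, 1]) (c' := [9, 5, 5, 4, 3, 1, 1, 1]) 1 3 (by decide +kernel)) <|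
    AllG.cons (t680.var (a' := [8, 6, 5, 3, 3, 2, 1, 1]) (b' := [8, 6, 5, 3, 3, 2, 1, 1]) (c' := [9, 5, 5, 4, 2, 1, 1, 1, 1]) 2 0 (by decide +kernel)) <|
    AllG.cons t684 <|
    AllG.cons (t687.var (a' := [8, 6, 5, 3, 3, 2, 1, 1]) (b' := [8, 6, 5, 3, 3, 2, 1, 1]) (c' := [9, 5, 5, 3, 3, 2, 1, 1]) 1 3 (by decide +kernel)) <|
    AllG.cons t690 <|
    AllG.cons t680 <|
    AllG.cons (t693.var (a' := [8, 6, 5, 3, 3, 2, 1, 1]) (b' := [8, 6, 5, 3, 3, 2, 1, 1]) (c' := [9, 5, 3, 3, 3, 3, 3]) 0 1 (by decide +kernel)) <|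
    AllG.cons (t696.var (a' := [8, 6, 5, 3, 3, 2, 1, 1]) (b' := [8, 6, 5, 3, 3, 2, 1, 1]) (c' := [7, 7, 7, 3, 3, 1, 1]) 1 3 (by decide +kernel)) <|
    AllG.cons (t699.var (a' := [8, 6, 5, 3, 3, 2, 1, 1]) (b' := [8, 6, 5, 3, 3, 2, 1, 1]) (c' := [7, 5, 5, 5, 5, 1, 1]) 0 3 (by decide +kernel)) <|
    AllG.cons (t696.var (a' := [8, 6, 5, 3, 3, 2, 1, 1]) (b' := [8, 6, 5, 3, 3, 2, 1, 1]) (c' := [7, 5, 5, 3, 3, 3, 3]) 0 3 (by decide +kernel)) <|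
    AllG.nil _
theorem F29 : Full (ofL [8, 6, 5, 3, 3, 2, 1, 1]) 29 :=
  full2 5 2 F14 F5 A29 (by decide +kernel)
theorem t700 : GG [7, 5, 4, 3, 2, 1] [8, 4, 4, 3, 2, 1] [6, 5, 4, 3, 2, 1, 1] :=
  GG.m1 6 16 (t473.var (a' := [6, 4, 3, 2, 1]) (b' := [7, 3, 3, 2, 1]) (c' := [5, 4, 3, 2, 1, 1]) 1 4 (by decide +kernel)) (by decide +kernel)
theorem t701 : GG [8, 6, 5, 4, 3, 2, 1, 1] [8, 6, 5, 4, 3, 2, 1, 1] [9, 5, 5, 4, 3, 1, 1, 1, 1] :=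
  GG.m1 8 22 (t700.var (a' := [7, 5, 4, 3, 2, 1]) (b' := [7, 5, 4, 3, 2, 1]) (c' := [6, 5, 4, 3, 1, 1, 1, 1]) 3 1 (by decide +kernel)) (by decide +kernel)
theorem A30 : AllG [8, 6, 5, 4, 3, 2, 1, 1] [[9, 5, 5, 4, 3, 1, 1, 1, 1]] :=
  AllG.cons t701 <|
    AllG.nil _
theorem F30 : Full (ofL [8, 6, 5, 4, 3, 2, 1, 1]) 30 :=
  full2 5 2 F15 F6 A30 (by decide +kernel)
theorem t702 : GG [3, 3, 2] [8] [3, 3, 2] :=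
  GG.sg (t39.var (a' := [1, 1]) (b' := [2]) (c' := [1, 1]) 0 1 (by decide +kernel))
    (t273.var (a' := [2, 2, 2]) (b' := [6]) (c' := [2, 2, 2]) 2 0 (by decide +kernel)) (by decide +kernel)
theorem t703 : GG [3, 3, 2] [3, 3, 2] [5, 1, 1, 1] :=
  GG.sg t13
    (t40.var (a' := [2, 2, 1]) (b' := [2, 2, 1]) (c' := [2, 1, 1, 1]) 1 1 (by decide +kernel)) (by decide +kernel)
theorem t704 : GG [8, 7, 5, 2, 1] [8, 7, 5, 2, 1] [7, 4, 4, 4, 4] :=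
  GG.sg (t703.var (a' := [3, 3, 2]) (b' := [3, 3, 2]) (c' := [4, 1, 1, 1, 1]) 2 0 (by decide +kernel))
    t231 (by decide +kernel)
theorem t705 : GG [8, 5, 5, 5, 5, 1, 1, 1] [8, 7, 5, 3, 3, 2, 2, 1] [8, 7, 5, 3, 3, 2, 2, 1] :=
  GG.sg (t702.var (a' := [1, 1, 1, 1, 1, 1, 1, 1]) (b' := [3, 3, 2]) (c' := [3, 3, 2]) 1 2 (by decide +kernel))
    (t704.var (a' := [7, 4, 4, 4, 4]) (b' := [5, 4, 3, 3, 3, 2, 2, 1]) (c' := [5, 4, 3, 3, 3, 2, 2, 1]) 1 4 (by decide +kernel)) (by decide +kernel)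
theorem A31 : AllG [8, 7, 5, 3, 3, 2, 2, 1] [[8, 5, 5, 5, 5, 1, 1, 1]] :=
  AllG.cons (t705.var (a' := [8, 7, 5, 3, 3, 2, 2, 1]) (b' := [8, 7, 5, 3, 3, 2, 2, 1]) (c' := [8, 5, 5, 5, 5, 1, 1, 1]) 0 3 (by decide +kernel)) <|
    AllG.nil _
theorem F31 : Full (ofL [8, 7, 5, 3, 3, 2, 2, 1]) 31 :=
  full2 6 1 F16 F5 A31 (by decide +kernel)
theorem A32 : AllG [8, 7, 5, 4, 3, 2, 2, 1] [] :=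
  AllG.nil _
theorem F32 : Full (ofL [8, 7, 5, 4, 3, 2, 2, 1]) 32 :=
  full2 6 1 F17 F6 A32 (by decide +kernel)
theorem A33 : AllG [8, 7, 6, 3, 3, 3, 2, 1] [] :=
  AllG.nil _
theorem F33 : Full (ofL [8, 7, 6, 3, 3, 3, 2, 1]) 33 :=
  full2 6 1 F18 F7 A33 (by decide +kernel)
theorem A34 : AllG [8, 7, 6, 4, 3, 3, 2, 1] [] :=
  AllG.nil _
theorem F34 : Full (ofL [8, 7, 6, 4, 3, 3, 2, 1]) 34 :=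
  full2 6 1 F19 F8 A34 (by decide +kernel)
theorem t706 : GG [8, 7, 6, 3, 3, 3, 2, 1] [8, 7, 6, 3, 3, 3, 2, 1] [7, 5, 5, 5, 5, 1, 1, 1, 1, 1, 1] :=
  F33.gg (by decide +kernel)
theorem t707 : GG [8, 5, 5, 5, 5, 1, 1, 1, 1, 1, 1] [9, 7, 6, 3, 3, 3, 2, 1] [9, 7, 6, 3, 3, 3, 2, 1] :=
  GG.sg t0
    (t706.var (a' := [7, 5, 5, 5, 5, 1, 1, 1, 1, 1, 1]) (b' := [8, 7, 6, 3, 3, 3, 2, 1]) (c' := [8, 7, 6, 3, 3, 3, 2, 1]) 0 4 (by decide +kernel)) (by decide +kernel)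
theorem t708 : GG [9, 5, 5, 5, 5, 1, 1, 1, 1, 1, 1] [9, 7, 6, 3, 3, 3, 2, 1, 1] [9, 7, 6, 3, 3, 3, 2, 1, 1] :=
  GG.sg t0
    (t707.var (a' := [8, 5, 5, 5, 5, 1, 1, 1, 1, 1, 1]) (b' := [8, 7, 6, 3, 3, 3, 2, 1, 1]) (c' := [8, 7, 6, 3, 3, 3, 2, 1, 1]) 3 0 (by decide +kernel)) (by decide +kernel)
theorem t709 : GG [8, 7, 6, 3, 3, 3, 2, 1] [8, 7, 6, 3, 3, 3, 2, 1] [8, 5, 5, 5, 4, 1, 1, 1, 1, 1, 1] :=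
  F33.gg (by decide +kernel)
theorem t710 : GG [9, 7, 6, 3, 3, 3, 2, 1] [9, 7, 6, 3, 3, 3, 2, 1] [9, 5, 5, 5, 4, 1, 1, 1, 1, 1, 1] :=
  GG.sg t0
    t709 (by decide +kernel)
theorem t711 : GG [9, 7, 6, 3, 3, 3, 2, 1, 1] [9, 7, 6, 3, 3, 3, 2, 1, 1] [10, 5, 5, 5, 4, 1, 1, 1, 1, 1, 1] :=
  GG.sg t0
    (t710.var (a' := [8, 7, 6, 3, 3, 3, 2, 1, 1]) (b' := [8, 7, 6, 3, 3, 3, 2, 1, 1]) (c' := [9, 5, 5, 5, 4, 1, 1, 1, 1, 1, 1]) 1 0 (by decide +kernel)) (by decide +kernel)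
theorem t712 : GG [8, 7, 6, 3, 3, 3, 2, 1] [8, 7, 6, 3, 3, 3, 2, 1] [9, 5, 5, 4, 4, 1, 1, 1, 1, 1, 1] :=
  F33.gg (by decide +kernel)
theorem t713 : GG [9, 7, 6, 3, 3, 3, 2, 1] [9, 7, 6, 3, 3, 3, 2, 1] [10, 5, 5, 4, 4, 1, 1, 1, 1, 1, 1] :=
  GG.sg t0
    t712 (by decide +kernel)
theorem t714 : GG [9, 7, 6, 3, 3, 3, 2, 1, 1] [9, 7, 6, 3, 3, 3, 2, 1, 1] [11, 5, 5, 4, 4, 1, 1, 1, 1, 1, 1] :=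
  GG.sg t0
    (t713.var (a' := [8, 7, 6, 3, 3, 3, 2, 1, 1]) (b' := [8, 7, 6, 3, 3, 3, 2, 1, 1]) (c' := [10, 5, 5, 4, 4, 1, 1, 1, 1, 1, 1]) 1 0 (by decide +kernel)) (by decide +kernel)
theorem t715 : GG [8, 7, 6, 3, 3, 3, 2, 1] [8, 7, 6, 3, 3, 3, 2, 1] [7, 7, 7, 3, 3, 1, 1, 1, 1, 1, 1] :=
  F33.gg (by decide +kernel)
theorem t716 : GG [9, 7, 6, 3, 3, 3, 2, 1] [9, 7, 6, 3, 3, 3, 2, 1] [8, 7, 7, 3, 3, 1, 1, 1, 1, 1, 1] :=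
  GG.sg t0
    t715 (by decide +kernel)
theorem t717 : GG [9, 7, 6, 3, 3, 3, 2, 1, 1] [9, 7, 6, 3, 3, 3, 2, 1, 1] [9, 7, 7, 3, 3, 1, 1, 1, 1, 1, 1] :=
  GG.sg t0
    (t716.var (a' := [8, 7, 6, 3, 3, 3, 2, 1, 1]) (b' := [8, 7, 6, 3, 3, 3, 2, 1, 1]) (c' := [8, 7, 7, 3, 3, 1, 1, 1, 1, 1, 1]) 1 0 (by decide +kernel)) (by decide +kernel)
theorem t718 : GG [8, 7, 6, 3, 3, 3, 2, 1] [8, 7, 6, 3, 3, 3, 2, 1] [8, 5, 5, 5, 5, 1, 1, 1, 1, 1] :=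
  F33.gg (by decide +kernel)
theorem t719 : GG [9, 7, 6, 3, 3, 3, 2, 1] [9, 7, 6, 3, 3, 3, 2, 1] [9, 5, 5, 5, 5, 1, 1, 1, 1, 1] :=
  GG.sg t0
    t718 (by decide +kernel)
theorem t720 : GG [9, 7, 6, 3, 3, 3, 2, 1, 1] [9, 7, 6, 3, 3, 3, 2, 1, 1] [10, 5, 5, 5, 5, 1, 1, 1, 1, 1] :=
  GG.sg t0
    (t719.var (a' := [8, 7, 6, 3, 3, 3, 2, 1, 1]) (b' := [8, 7, 6, 3, 3, 3, 2, 1, 1]) (c' := [9, 5, 5, 5, 5, 1, 1, 1, 1, 1]) 1 0 (by decide +kernel)) (by decide +kernel)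
theorem A35 : AllG [9, 7, 6, 3, 3, 3, 2, 1, 1] [[11, 5, 5, 5, 5, 1, 1, 1, 1], [11, 5, 5, 5, 4, 1, 1, 1, 1, 1], [11, 5, 5, 5, 3, 1, 1, 1, 1, 1, 1], [11, 5, 5, 4, 4, 1, 1, 1, 1, 1, 1], [11, 5, 5, 3, 3, 3, 3, 1, 1], [10, 5, 5, 5, 5, 1, 1, 1, 1, 1]] :=
  AllG.cons (t708.var (a' := [9, 7, 6, 3, 3, 3, 2, 1, 1]) (b' := [9, 7, 6, 3, 3, 3, 2, 1, 1]) (c' := [11, 5, 5, 5, 5, 1, 1, 1, 1]) 1 3 (by decide +kernel)) <|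
    AllG.cons (t711.var (a' := [9, 7, 6, 3, 3, 3, 2, 1, 1]) (b' := [9, 7, 6, 3, 3, 3, 2, 1, 1]) (c' := [11, 5, 5, 5, 4, 1, 1, 1, 1, 1]) 2 0 (by decide +kernel)) <|
    AllG.cons (t714.var (a' := [9, 7, 6, 3, 3, 3, 2, 1, 1]) (b' := [9, 7, 6, 3, 3, 3, 2, 1, 1]) (c' := [11, 5, 5, 5, 3, 1, 1, 1, 1, 1, 1]) 2 0 (by decide +kernel)) <|
    AllG.cons t714 <|
    AllG.cons (t717.var (a' := [9, 7, 6, 3, 3, 3, 2, 1, 1]) (b' := [9, 7, 6, 3, 3, 3, 2, 1, 1]) (c' := [11, 5, 5, 3, 3, 3, 3, 1, 1]) 2 0 (by decide +kernel)) <|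
    AllG.cons t720 <|
    AllG.nil _
theorem F35 : Full (ofL [9, 7, 6, 3, 3, 3, 2, 1, 1]) 35 :=
  full2 6 2 F18 F7 A35 (by decide +kernel)
theorem A36 : AllG [8, 7, 6, 5, 4, 3, 2, 1] [] :=
  AllG.nil _
theorem F36 : Full (ofL [8, 7, 6, 5, 4, 3, 2, 1]) 36 :=
  full2 6 1 F21 F10 A36 (by decide +kernel)

end Crest.Agent.R195
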